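import Vale.Agent.P168.Conc.Vec

/-!
# P168, concentration: blocks of colours and their products
-/

open Real Finset

namespace Vale.Agent.P168.Conc

variable {L N n l k m : ℕ} {B : Sys L N} {G : Grid L}

/-- The spins at a leaf. -/
def lx (B : Sys L N) : Vect B := fun o q a => spin (B.cfg q a)

theorem lx_bd : Bd (lx B) := fun o q a => (show |spin (B.cfg q a)| ≤ 1 by
  cases B.cfg q a <;> simp [spin])

/-- The product of the vectors of some replicas. -/
def zprod (B : Sys L N) (emb : Fin k → Fin m) (o : B.Om) (ξ : Fin m → Fin L → B.Z) : Fin N → ℝ :=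
  fun a => ∏ z, lx B o (ξ (emb z)) a

theorem zprod_bd (emb : Fin k → Fin m) (o : B.Om) (ξ : Fin m → Fin L → B.Z) (a : Fin N) :
    |zprod B emb o ξ a| ≤ 1 := by
  rw [zprod, abs_prod]
  exact prod_le_one (fun _ _ => abs_nonneg _) fun z _ => lx_bd o _ a

theorem abs_ip_one {u v : Fin N → ℝ} (hu : ∀ a, |u a| ≤ 1) (hv : ∀ a, |v a| ≤ 1) : |ip u v| ≤ 1 :=
  abs_mean_le_one fun a => abs_mul_le_one (hu a) (hv a)

theorem ip_comm (u v : Fin N → ℝ) : ip u v = ip v u := by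
  simp only [ip, mul_comm]

theorem overlap_eq (emb : Fin k → Fin m) (col : List (Fin m))
    (h : ∀ f : Fin m → ℝ, (col.map f).prod = ∏ a, f (emb a)) (o : B.Om) (ξ : Fin m → Fin L → B.Z) :
    overlap col (B.spins ξ) = mean fun a => zprod B emb o ξ a := by
  simp only [overlap, Sys.spins, h, zprod, lx]

theorem zprod_add {k' : ℕ} (emb : Fin (k + k') → Fin m) (o : B.Om) (ξ : Fin m → Fin L → B.Z) :
    (mean fun a => zprod B emb o ξ a) = ip (zprod B (fun z => emb (Fin.castAdd k' z)) o ξ)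
      (zprod B (fun z => emb (Fin.natAdd k z)) o ξ) := by
  simp only [ip, zprod, Fin.prod_univ_add]

/-- What is used about one block `A` of a good shape: `cl S.J t1 i = A`, enumerated by `eA`. -/
structure Blk (S : Shape L n) (l : ℕ) (t1 : ℕ) (i : Fin n) (k : ℕ) where
  good : Good l L S.J
  le : t1 + 2 ≤ L
  eA : Fin (k + 1) ↪ Fin n
  range : ∀ z, z ∈ cl S.J t1 i ↔ ∃ a, eA a = z

variable {S : Shape L n} {t1 : ℕ} {i : Fin n}

/-- The joins inside the block. -/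
def Blk.SA (b : Blk S l t1 i k) : Shape L (k + 1) := S.comap b.eA

theorem Blk.mem (b : Blk S l t1 i k) (a : Fin (k + 1)) : b.eA a ∈ cl S.J t1 i := (b.range _).2 ⟨a, rfl⟩

theorem Blk.ge (b : Blk S l t1 i k) (a c : Fin (k + 1)) : t1 ≤ b.SA.J a c := by
  have h1 := mem_cl.1 (b.mem a); have h2 := mem_cl.1 (b.mem c)
  have := S.ultra (b.eA a) i (b.eA c); have := S.symm (b.eA a) i
  show t1 ≤ S.J (b.eA a) (b.eA c)
  omega

theorem Blk.shift_lt (b : Blk S l t1 i k) {σ : ℕ} (hσ : σ ≤ 2) :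
    ∀ a c, a ≠ c → b.SA.J a c + σ < L := fun a c hac => by
  have : b.SA.J a c + 8 ≤ L := b.good.high _ _ (b.eA.injective.ne hac)
  omega

/-- The joins inside the block moved by `σ`. -/
def Blk.sh (b : Blk S l t1 i k) (σ : ℕ) (hσ : σ ≤ 2) : Shape L (k + 1) := shiftS b.SA σ (b.shift_lt hσ)

theorem Blk.sh_ge (b : Blk S l t1 i k) {σ : ℕ} (hσ : σ ≤ 2) (a c : Fin (k + 1)) :
    t1 + σ ≤ (b.sh σ hσ).J a c := by
  show t1 + σ ≤ if a = c then L else b.SA.J a c + σ
  have := b.ge a c; have := b.le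
  split_ifs <;> omega

theorem Blk.card (b : Blk S l t1 i k) : (cl S.J t1 i).card = k + 1 := by
  rw [show cl S.J t1 i = univ.map b.eA from Finset.ext fun z => by simp [b.range],
    card_map, card_univ, Fintype.card_fin]

theorem Blk.prod (b : Blk S l t1 i k) (f : Fin n → ℝ) : ∏ z ∈ cl S.J t1 i, f z = ∏ a, f (b.eA a) := by
  rw [show cl S.J t1 i = univ.map b.eA from Finset.ext fun z => by simp [b.range], prod_map]

/-- The vector of the block. -/
noncomputable def Blk.X (_b : Blk S l t1 i k) (G : Grid L) (B : Sys L N) : Vect B :=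
  vec G (lx B) S.J 0 t1 (cl S.J t1 i)

theorem Blk.X_bd (b : Blk S l t1 i k) : Bd (b.X G B) := vec_bd lx_bd _ _ _

/-- The error of one replacement. -/
noncomputable def om (M : ℕ) (θ h : ℝ) : ℝ := 2 * M * (√(√h) + 9 * M * √θ) + 2 * M * √θ

theorem om_nonneg (M : ℕ) (θ h : ℝ) : 0 ≤ om M θ h := by
  unfold om; positivity

theorem om_mono {M M' : ℕ} (hM : M ≤ M') (θ h : ℝ) : om M θ h ≤ om M' θ h := by
  unfold om; gcongr

/-- The hypotheses on the smaller blocks. -/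
structure Ind (S : Shape L n) (G : Grid L) (B : Sys L N) (M : ℕ) (θ h : ℝ) : Prop where
  incr : Incr G (lx B) S.J θ
  small : ∀ t ∈ offs S.J, ∀ i, (cl S.J (t + 1) i).card < M → ∀ σ, σ ≤ 2 →
      hs G (t + σ + 1) (vec G (lx B) S.J 0 (t + 1) (cl S.J (t + 1) i)) ≤ h

variable {M : ℕ} {θ h : ℝ}

/-- A block of colours may be replaced by the vector of the block. -/
theorem Blk.replace (b : Blk S l t1 i k) (hI : Ind S G B M θ h) (hk : k + 1 ≤ M) {σ : ℕ} (hσ : σ ≤ 2)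
    (Q : Shape L m) (emb : Fin (k + 1) → Fin m) (hemb : ∀ a c, Q.J (emb a) (emb c) = (b.sh σ hσ).J a c)
    (a0 : Fin (k + 1)) (W : B.Om → (Fin m → Fin L → B.Z) → Fin N → ℝ)
    (hW : ∀ o, Indep Q (emb a0) (t1 + σ) (W o)) (hWb : ∀ o ξ a, |W o ξ a| ≤ 1) :
    B.E G Q (fun o ξ => |ip (W o ξ) fun a => zprod B emb o ξ a - b.X G B o (ξ (emb a0)) a|) ≤ om M θ h := by
  classical
  set e : Fin n → Fin m := Function.extend b.eA emb fun _ => emb a0
  have hee : ∀ a, e (b.eA a) = emb a := fun a => b.eA.injective.extend_apply _ _ a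
  have hcl : cl S.J t1 (b.eA a0) = cl S.J t1 i := cl_eq b.good (b.mem a0)
  have hsh : ∀ a ∈ cl S.J t1 (b.eA a0), ∀ c ∈ cl S.J t1 (b.eA a0),
      Q.J (e a) (e c) = if a = c then L else S.J a c + σ := by
    intro a ha c hc
    rw [hcl, b.range] at ha hc
    obtain ⟨a, rfl⟩ := ha
    obtain ⟨c, rfl⟩ := hc
    rw [hee, hee, hemb]
    show (if a = c then L else b.SA.J a c + σ) = _
    simp only [b.eA.injective.eq_iff]
    rfl
  have h1 := rep lx_bd b.good hI.incr hI.small hσ t1 (b.eA a0) (by have := b.le; omega)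
    (by rw [hcl, b.card]; exact hk) m Q e hsh W (fun o => by rw [hee]; exact hW o) hWb
  rw [hcl] at h1
  simp only [b.prod, hee] at h1
  have hd := dist_shift (G := G) (B := B) lx_bd b.good hI.incr hσ t1 i (by have := b.le; omega)
  have h2 := (sysE_ip_dist (G := G) Q (emb a0) (vec G (lx B) S.J σ t1 (cl S.J t1 i)) (b.X G B) W hWb).trans hd
  have hk' : (((cl S.J t1 i).card : ℝ)) ≤ M := by rw [b.card]; exact_mod_cast hk
  calc B.E G Q (fun o ξ => |ip (W o ξ) fun a => zprod B emb o ξ a - b.X G B o (ξ (emb a0)) a|)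
      ≤ B.E G Q (fun o ξ => |ip (W o ξ) fun a => zprod B emb o ξ a -
          vec G (lx B) S.J σ t1 (cl S.J t1 i) o (ξ (emb a0)) a| + |ip (W o ξ) fun a =>
          vec G (lx B) S.J σ t1 (cl S.J t1 i) o (ξ (emb a0)) a - b.X G B o (ξ (emb a0)) a|) :=
        sysE_le Q fun o ξ _ => by simp only [← ip_sub]; exact abs_sub_le _ _ _
    _ ≤ _ := (sysE_add Q _ _).le.trans (add_le_add h1 h2)
    _ ≤ om M θ h := by
      unfold om
      refine add_le_add (mul_le_mul_of_nonneg_right (by linarith) (by positivity))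
        (mul_le_mul_of_nonneg_right (by linarith) (sqrt_nonneg _))

/-- One block, with weight one. -/
theorem Blk.single (b : Blk S l t1 i k) (hI : Ind S G B M θ h) (hk : k + 1 ≤ M) {σ : ℕ} (hσ : σ ≤ 2)
    (Q : Shape L m) (emb : Fin (k + 1) → Fin m) (hemb : ∀ a c, Q.J (emb a) (emb c) = (b.sh σ hσ).J a c)
    (a0 : Fin (k + 1)) :
    B.E G Q (fun o ξ => |(mean fun a => zprod B emb o ξ a) - mean fun a => b.X G B o (ξ (emb a0)) a|)
      ≤ om M θ h := by
  have h1 := b.replace hI hk hσ Q emb hemb a0 (fun _ _ _ => 1) (fun o ξ ξ' _ _ => rfl)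
    fun _ _ _ => by simp
  simpa [ip, mean_sub] using h1

/-- Two blocks joining at `j`. -/
theorem Blk.double (b : Blk S l t1 i k) (hI : Ind S G B M θ h) (hk : k + 1 ≤ M) {σ₁ σ₂ : ℕ} (h₁ : σ₁ ≤ 2)
    (h₂ : σ₂ ≤ 2) {j : ℕ} (hj : j < t1) (Q : Shape L m) (emb : Fin (k + 1 + (k + 1)) → Fin m)
    (hjL : j < L)
    (hemb : ∀ a c, Q.J (emb a) (emb c) = (join2 j (b.sh σ₁ h₁) (b.sh σ₂ h₂) hjL
      (fun a c => by have := b.sh_ge h₁ a c; omega) fun a c => by have := b.sh_ge h₂ a c; omega).J a c)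
    (a0 a1 : Fin (k + 1)) :
    B.E G Q (fun o ξ => |(mean fun a => zprod B emb o ξ a) -
      ip (b.X G B o (ξ (emb (Fin.castAdd _ a0)))) (b.X G B o (ξ (emb (Fin.natAdd _ a1))))|)
      ≤ 2 * om M θ h := by
  set e₁ : Fin (k + 1) → Fin m := fun z => emb (Fin.castAdd _ z)
  set e₂ : Fin (k + 1) → Fin m := fun z => emb (Fin.natAdd _ z)
  have hJ₁ : ∀ a c, Q.J (e₁ a) (e₁ c) = (b.sh σ₁ h₁).J a c := fun a c => by
    simp only [e₁, hemb, join2, Fin.addCases_left]
  have hJ₂ : ∀ a c, Q.J (e₂ a) (e₂ c) = (b.sh σ₂ h₂).J a c := fun a c => by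
    simp only [e₂, hemb, join2, Fin.addCases_right]
  have hcr : ∀ a c, Q.J (e₁ a) (e₂ c) = j := fun a c => by
    simp only [e₁, e₂, hemb, join2, Fin.addCases_left, Fin.addCases_right]
  have r1 := b.replace hI hk h₁ Q e₁ hJ₁ a0 (fun o ξ => zprod B e₂ o ξ) (fun o ξ ξ' g _ => by
    funext a
    refine prod_congr rfl fun z _ => ?_
    rw [g (e₂ z) fun hz => ?_]
    rw [mem_cls, hcr] at hz
    omega) fun o ξ a => zprod_bd _ _ _ _
  have r2 := b.replace hI hk h₂ Q e₂ hJ₂ a1 (fun o ξ => b.X G B o (ξ (e₁ a0))) (fun o ξ ξ' g _ => by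
    show b.X G B o (ξ (e₁ a0)) = b.X G B o (ξ' (e₁ a0))
    rw [g (e₁ a0) fun hz => ?_]
    rw [mem_cls, Q.symm, hcr] at hz
    omega) fun o ξ a => b.X_bd o _ a
  rw [two_mul]
  refine le_trans (sysE_le Q fun o ξ _ => ?_) ((sysE_add Q _ _).le.trans (add_le_add r1 r2))
  show |(mean fun a => zprod B emb o ξ a) - ip (b.X G B o (ξ (e₁ a0))) (b.X G B o (ξ (e₂ a1)))| ≤ _
  simp only [← ip_sub, zprod_add]
  refine (abs_sub_le _ (ip (zprod B e₂ o ξ) (b.X G B o (ξ (e₁ a0)))) _).trans (add_le_add ?_ ?_)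
  · rw [ip_comm (zprod B (fun z => emb (Fin.castAdd _ z)) o ξ)]
  · rw [ip_comm (zprod B e₂ o ξ)]

/-! ### The identity at one pattern -/

theorem shift_one_left (j : ℕ) {n' : ℕ} (S' : Shape L n') (hj : j < L) (h' : ∀ a c, j ≤ S'.J a c)
    (h1 : ∀ a c, j ≤ (Shape.one L).J a c) (a : Fin n') :
    (join2 j (Shape.one L) S' hj h1 h').J (Fin.castAdd _ 0) (Fin.natAdd _ a) = j := by
  simp [join2]

theorem place_start {b q : ℕ} (hL : 0 < L) (T : Shape L b) (r : Fin b) (κ : List (List ℕ) → ℝ) :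
    (start T r).place (uniformGrid L hL) q (fun Q => κ Q.joins)
      = Pos.place (uniformGrid L hL) q (start (Shape.one L) 0) fun Q => κ Q.joins :=
  invStmt L b 1 _ q _ _ κ (List.nodup_singleton _) (List.nodup_singleton _)
    (by simp [Pos.joins, start, T.self, Shape.one])

/-- Constants of one pattern. -/
theorem place_bound {b q : ℕ} (hL : 0 < L) (T : Shape L b) (r : Fin b) (Λ : Finset ℕ)
    (hΛ : ∀ a c, T.J a c ∉ Λ) (hΛL : L ∉ Λ) {D P : ℕ} (hb : b ≤ 2 * D + 2) (hq : q ≤ 2 * D + 1)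
    (hP : Λ.card ≤ P) {Φ : Pos L b → ℝ} {A : ℝ} (hA : 0 ≤ A)
    (hΦ : ∀ Q, Ok T r (q + 1) Q → |Φ Q| ≤ if Λ ⊆ seen Λ Q then A else 0) :
    |(start T r).place (uniformGrid L hL) q Φ|
      ≤ ((4 * D + 4 : ℕ) * ((P : ℝ) + 2)) ^ (2 * D + 2) * A * (1 / L : ℝ) ^ Λ.card := by
  have h := place_abs_le (S := T) (r := r) hL Λ hΛ hΛL hA (4 * D + 4) q 1 _ (Ok.start T r) (by omega)
    (fun Q hQ => hΦ Q (by rwa [Nat.add_comm] at hQ))
  have hs : seen Λ (start T r) = ∅ := eq_empty_of_forall_notMem fun t ht => by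
    obtain ⟨htΛ, c, -, z, e⟩ := mem_seen.1 ht
    exact hΛ _ _ (e.symm ▸ htΛ)
  rw [hs, card_empty, Nat.sub_zero, ← mul_assoc] at h
  refine h.trans (mul_le_mul_of_nonneg_right (mul_le_mul_of_nonneg_right ?_ hA) (by positivity))
  refine (pow_le_pow_left₀ (by positivity) (mul_le_mul_of_nonneg_left ?_ (Nat.cast_nonneg _)) _).trans
    (pow_le_pow_right₀ ?_ (by omega))
  · gcongr
  · push_cast
    nlinarith [(Nat.cast_nonneg D : (0 : ℝ) ≤ D), (Nat.cast_nonneg P : (0 : ℝ) ≤ P)]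

/-- The lower bound for the plain total. -/
theorem total_lower {q : ℕ} (hL : 0 < L) (Sp : Shape L (q + 1)) {ε : ℝ} (hε : 0 < ε) (hε1 : ε ≤ 1)
    {D e : ℕ} (hq : q ≤ 2 * D + 1) (he : (offs Sp.J).card ≤ e)
    (hlow : ∀ a c, a ≠ c → ε ≤ (Sp.J a c : ℝ) / L)
    (hnode : ∀ a c a' c', a ≠ c → a' ≠ c' → Sp.J a c = Sp.J a' c' → Sp.J a c ≤ Sp.J a a') :
    (ε / ((2 * D + 2 : ℕ) : ℝ) ^ 2) ^ (2 * D + 2) * (1 / L : ℝ) ^ e
      ≤ |Pos.place (uniformGrid L hL) q (start (Shape.one L) 0) fun Q => kap Sp.J (joinMat q Q.joins)| := by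
  have h := sq'_lower hL Sp hε.le hε1 hlow hnode q 0 (start (Shape.one L) 0) (by omega) (Ok.start _ _)
    fun a c ha hc => by
      rw [show a = (0 : Fin (q + 1)) from Fin.ext (Nat.le_zero.1 ha),
        show c = (0 : Fin (q + 1)) from Fin.ext (Nat.le_zero.1 hc), Sp.self]
      simp [joinMat, Pos.joins, start, Shape.one]
  refine le_trans ?_ (h.trans ((le_abs_self _).trans_eq ?_))
  · refine mul_le_mul ?_ ?_ (by positivity) (by positivity)
    · refine le_trans (pow_le_pow_of_le_one (by positivity) ?_ (show q ≤ 2 * D + 2 by omega))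
        (pow_le_pow_left₀ (by positivity) ?_ q)
      · rw [div_le_one (by positivity)]
        push_cast
        nlinarith [(Nat.cast_nonneg D : (0 : ℝ) ≤ D)]
      · gcongr
        exact_mod_cast (show q + 1 ≤ 2 * D + 2 by omega)
    · exact pow_le_pow_of_le_one (by positivity)
        (by rw [div_le_one (Nat.cast_pos.2 hL)]; exact_mod_cast hL)
        ((card_le_card sdiff_subset).trans he)
  · rw [sq', abs_mul, abs_pow, abs_neg, abs_one, one_pow, one_mul]

end Vale.Agent.P168.Conc
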