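import Vale.Agent.P168.Conc.Root

/-!
# P168, concentration: shapes with a large increment are rare
-/

open Real Finset

namespace Vale.Agent.P168.Conc

variable {L N n : ℕ} {B : Sys L N} {G : Grid L}

/-- The values other than `0` and `L`. -/
def inner (L : ℕ) {α : Type*} [Fintype α] (f : α → Fin (L + 1)) : Finset ℕ :=
  (univ.image fun a => (f a : ℕ)) \ {0, L}

theorem inner_equiv {α β : Type*} [Fintype α] [Fintype β] (e : α ≃ β) (f : β → Fin (L + 1)) :
    inner L (fun a => f (e a)) = inner L f := by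
  simp only [inner]
  congr 1
  ext v
  simp only [mem_image, mem_univ, true_and]
  exact ⟨fun ⟨a, h⟩ => ⟨_, h⟩, fun ⟨b, h⟩ => ⟨e.symm b, by simpa using h⟩⟩

/-- Each new level costs one mass. -/
theorem sum_inner (hL : 0 < L) :
    ∀ m : ℕ, ∑ f : Fin m → Fin (L + 1), (1 / (L : ℝ)) ^ (inner L f).card ≤ ((m : ℝ) + 4) ^ m
  | 0 => by simp [inner]
  | m + 1 => by
    have ih := sum_inner hL m
    set μ : ℝ := 1 / L with hμ
    have hμ0 : 0 ≤ μ := by positivity
    have hμ1 : μ ≤ 1 := by rw [hμ, div_le_one (Nat.cast_pos.2 hL)]; exact_mod_cast hL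
    rw [← (Fin.consEquiv fun _ => Fin (L + 1)).sum_comp fun f => μ ^ (inner L f).card,
      Fintype.sum_prod_type, sum_comm]
    have hone : ∀ g : Fin m → Fin (L + 1), ∑ v : Fin (L + 1), μ ^ (inner L (Fin.cons v g : Fin (m + 1) → Fin (L + 1))).card
        ≤ ((m : ℝ) + 4) * μ ^ (inner L g).card := by
      intro g
      set I := inner L g
      set O := univ.filter fun v : Fin (L + 1) => (v : ℕ) ∈ I ∪ {0, L} with hO
      have hins : ∀ v : Fin (L + 1), inner L (Fin.cons v g : Fin (m + 1) → Fin (L + 1))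
          = (insert (v : ℕ) (univ.image fun a => (g a : ℕ))) \ {0, L} := fun v => by
        simp only [inner]
        congr 1
        ext w
        simp [Fin.exists_fin_succ, eq_comm]
      have hpt : ∀ v : Fin (L + 1), μ ^ (inner L (Fin.cons v g : Fin (m + 1) → Fin (L + 1))).card
          ≤ ((if v ∈ O then 1 else 0) + μ) * μ ^ I.card := by
        intro v
        rw [hins]
        by_cases hv : v ∈ O
        · rw [if_pos hv]
          refine (pow_le_pow_of_le_one hμ0 hμ1 (card_le_card ?_)).trans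
            (le_mul_of_one_le_left (by positivity) (by linarith))
          exact sdiff_subset_sdiff (subset_insert _ _) le_rfl
        · rw [if_neg hv, zero_add, ← pow_succ']
          simp only [hO, mem_filter, mem_univ, true_and, mem_union, not_or] at hv
          refine pow_le_pow_of_le_one hμ0 hμ1 (le_of_eq ?_)
          rw [insert_sdiff_of_notMem _ hv.2]
          exact (card_insert_of_notMem hv.1).symm
      refine (sum_le_sum fun v _ => hpt v).trans ?_
      rw [← sum_mul]
      refine mul_le_mul_of_nonneg_right ?_ (by positivity)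
      rw [sum_add_distrib, sum_boole, filter_mem_eq_inter, univ_inter, sum_const, card_univ,
        Fintype.card_fin, nsmul_eq_mul]
      have hIc : I.card ≤ m := (card_le_card sdiff_subset).trans (card_image_le.trans_eq (by simp))
      have hOc : O.card ≤ m + 2 :=
        ((card_le_card_of_injOn (fun v : Fin (L + 1) => (v : ℕ)) (fun v hv => (mem_filter.1 hv).2)
          fun x _ y _ h => Fin.ext h).trans (card_union_le _ _)).trans
          (add_le_add hIc ((card_insert_le _ _).trans (by simp)))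
      have e : ((L + 1 : ℕ) : ℝ) * μ ≤ 2 := by
        rw [hμ, mul_one_div, div_le_iff₀ (Nat.cast_pos.2 hL)]
        push_cast
        have : (1 : ℝ) ≤ L := by exact_mod_cast hL
        linarith
      have : (O.card : ℝ) ≤ (m : ℝ) + 2 := by exact_mod_cast hOc
      linarith
    refine (sum_le_sum fun g _ => hone g).trans ?_
    rw [← mul_sum, pow_succ']
    push_cast
    refine mul_le_mul (by linarith) (ih.trans (pow_le_pow_left₀ (by positivity) (by linarith) m))
      (sum_nonneg fun g _ => pow_nonneg hμ0 _) (by positivity)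

theorem sum_inner' (hL : 0 < L) {α : Type*} [Fintype α] [DecidableEq α] :
    ∑ f : α → Fin (L + 1), (1 / (L : ℝ)) ^ (inner L f).card
      ≤ ((Fintype.card α : ℝ) + 4) ^ Fintype.card α := by
  refine le_trans (le_of_eq ?_) (sum_inner hL (Fintype.card α))
  exact Fintype.sum_equiv (Equiv.arrowCongr (Fintype.equivFin α) (Equiv.refl _)) _ _ fun f => by
    rw [← inner_equiv (Fintype.equivFin α).symm f]; rfl

/-- The increment at the level `t`. -/
noncomputable def incrAt (G : Grid L) (B : Sys L N) (J : Fin n → Fin n → ℕ) (t : ℕ) : ℝ :=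
  ∑ i, (qn G (vec G (lx B) J 0 (t + 1) (cl J (t + 1) i)) (t + 3)
    - qn G (vec G (lx B) J 0 (t + 1) (cl J (t + 1) i)) t)

/-- All increments of a matrix. -/
noncomputable def theta (G : Grid L) (B : Sys L N) (J : Fin n → Fin n → ℕ) : ℝ :=
  ∑ t ∈ offs J, incrAt G B J t

theorem incrAt_nonneg (J : Fin n → Fin n → ℕ) (t : ℕ) : 0 ≤ incrAt G B J t :=
  sum_nonneg fun _ _ => sub_nonneg.2 (qn_mono _ (by omega))

theorem theta_nonneg (J : Fin n → Fin n → ℕ) : 0 ≤ theta G B J :=
  sum_nonneg fun t _ => incrAt_nonneg J t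

theorem incr_of_theta {J : Fin n → Fin n → ℕ} {θ : ℝ} (h : theta G B J ≤ θ) : Incr G (lx B) J θ :=
  fun t ht i => le_trans (le_trans
    (single_le_sum (f := fun i => qn G (vec G (lx B) J 0 (t + 1) (cl J (t + 1) i)) (t + 3)
      - qn G (vec G (lx B) J 0 (t + 1) (cl J (t + 1) i)) t)
      (fun i _ => sub_nonneg.2 (qn_mono _ (by omega))) (mem_univ i))
    (single_le_sum (f := fun t => incrAt G B J t) (fun t _ => incrAt_nonneg J t) ht)) h

theorem incr_tele (X : Vect B) (hX : Bd X) : ∑ t ∈ range L, (qn G X (t + 3) - qn G X t) ≤ 3 := by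
  have e : ∀ t, qn G X (t + 3) - qn G X t = (qn G X (t + 1) - qn G X t)
      + ((qn G X (t + 2) - qn G X (t + 1)) + (qn G X (t + 3) - qn G X (t + 2))) := fun t => by ring
  simp only [e, sum_add_distrib]
  rw [sum_range_sub (fun t => qn G X t), sum_range_sub (fun t => qn G X (t + 1)),
    sum_range_sub (fun t => qn G X (t + 2))]
  linarith [qn_le_one (G := G) hX L, qn_nonneg (G := G) X 0, qn_le_one (G := G) hX (L + 1),
    qn_nonneg (G := G) X (0 + 1), qn_le_one (G := G) hX (L + 2), qn_nonneg (G := G) X (0 + 2)]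

/-- A matrix with bounded entries. -/
abbrev MatL (L n : ℕ) : Type := Fin n × Fin n → Fin (L + 1)

/-- The natural numbers of a bounded matrix. -/
def natM (f : MatL L n) : Fin n → Fin n → ℕ := fun a c => f (a, c)

/-- A position of the least entry above `t`. -/
noncomputable def nxt (f : MatL L n) (t : ℕ) : Option (Fin n × Fin n) :=
  if h : (univ.filter fun q => t < (f q : ℕ)).Nonempty
  then some (exists_min_image _ (fun q => (f q : ℕ)) h).choose else none

theorem nxt_spec {f : MatL L n} {t : ℕ} {q : Fin n × Fin n} (hq : t < (f q : ℕ)) :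
    ∃ p, nxt f t = some p ∧ t < (f p : ℕ) ∧ (f p : ℕ) ≤ f q := by
  have h : (univ.filter fun q => t < (f q : ℕ)).Nonempty := ⟨q, mem_filter.2 ⟨mem_univ q, hq⟩⟩
  obtain ⟨h1, h2⟩ := (exists_min_image _ (fun q => (f q : ℕ)) h).choose_spec
  exact ⟨_, dif_pos h, (mem_filter.1 h1).2, h2 q (mem_filter.2 ⟨mem_univ q, hq⟩)⟩

/-- A matrix with one value erased, and the position of the next one. -/
noncomputable def ckey (x : Σ _ : MatL L n, ℕ) : MatL L n × Option (Fin n × Fin n) :=
  (fun q => if (x.1 q : ℕ) = x.2 then 0 else x.1 q, nxt x.1 x.2)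

theorem ckey_val (x : Σ _ : MatL L n, ℕ) (q : Fin n × Fin n) :
    (((ckey x).1 q : Fin (L + 1)) : ℕ) = if (x.1 q : ℕ) = x.2 then 0 else (x.1 q : ℕ) := by
  simp only [ckey]
  by_cases h : (x.1 q : ℕ) = x.2
  · simp [h]
  · simp [h]

theorem ckey_facts {l : ℕ} {f : MatL L n} {t : ℕ} (hg : Good l L (natM f)) (ht : t ∈ offs (natM f)) :
    (∃ p, (ckey ⟨f, t⟩).2 = some p) ∧ t < L ∧ (inner L (ckey ⟨f, t⟩).1).card + 1 = (offs (natM f)).card := by
  obtain ⟨a, c, hac, e⟩ := mem_offs.1 ht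
  have h8 := hg.high a c hac
  have hlo := hg.low a c hac
  have hL : t < L := by omega
  refine ⟨?_, hL, ?_⟩
  · obtain ⟨p, hp, -, -⟩ := nxt_spec (f := f) (t := t) (q := (a, a)) (by
      show t < natM f a a
      rw [hg.self]; exact hL)
    exact ⟨p, hp⟩
  · have hin : inner L (ckey ⟨f, t⟩).1 = (offs (natM f)).erase t := by
      ext v
      simp only [inner, mem_sdiff, mem_image, mem_univ, true_and, ckey_val, mem_insert, mem_singleton,
        mem_erase, mem_offs, not_or]
      constructor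
      · rintro ⟨⟨⟨p, q⟩, hv⟩, hv0, hvL⟩
        by_cases hpq : (f (p, q) : ℕ) = t
        · rw [if_pos hpq] at hv; exact absurd hv.symm hv0
        rw [if_neg hpq] at hv
        refine ⟨by omega, p, q, fun e' => hvL ?_, hv⟩
        subst e'
        rw [← hv]; exact hg.self p
      · rintro ⟨hne, p, q, hpq, hv⟩
        have := hg.high p q hpq; have := hg.low p q hpq
        refine ⟨⟨(p, q), ?_⟩, by omega, by omega⟩
        rw [if_neg (show (f (p, q) : ℕ) ≠ t by show natM f p q ≠ t; omega)]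
        exact hv
    rw [hin, card_erase_of_mem ht]
    have := card_pos.2 ⟨_, ht⟩
    omega

theorem ckey_vec {l : ℕ} {f : MatL L n} {t : ℕ} (hg : Good l L (natM f)) (ht : t < L) {p : Fin n × Fin n}
    (hp : (ckey ⟨f, t⟩).2 = some p) (i : Fin n) :
    vec G (lx B) (natM f) 0 (t + 1) (cl (natM f) (t + 1) i)
      = vec G (lx B) (natM (ckey ⟨f, t⟩).1) 0 ((ckey ⟨f, t⟩).1 p : ℕ)
          (cl (natM (ckey ⟨f, t⟩).1) ((ckey ⟨f, t⟩).1 p : ℕ) i) := by
  have hnext : ∀ a c, t < natM f a c → t < (f p : ℕ) ∧ (f p : ℕ) ≤ natM f a c := fun a c h => by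
    obtain ⟨p', hp', h1, h2⟩ := nxt_spec (f := f) (t := t) (q := (a, c)) h
    obtain rfl : p' = p := Option.some.inj (hp'.symm.trans hp)
    exact ⟨h1, h2⟩
  have hk : ∀ a c, natM (ckey ⟨f, t⟩).1 a c = if natM f a c = t then 0 else natM f a c :=
    fun a c => ckey_val ⟨f, t⟩ (a, c)
  have hgt : t < (f p : ℕ) := (hnext i i (by rw [hg.self]; exact ht)).1
  rw [show ((ckey ⟨f, t⟩).1 p : ℕ) = (f p : ℕ) by rw [ckey_val]; exact if_neg hgt.ne']
  have hcl : cl (natM f) (t + 1) i = cl (natM (ckey ⟨f, t⟩).1) (f p : ℕ) i := by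
    ext y
    simp only [mem_cl, hk]
    have := hnext i y
    split_ifs <;> omega
  rw [vec_unary (lx B) _ (show t + 1 ≤ (f p : ℕ) by omega) (fun a ha c hc => ?_)
    (Nat.le_of_lt_succ (f p).2), hcl, vec_congr (lx B) 0 _ _ fun s hs a c => ?_]
  · rw [hk]
    split_ifs <;> omega
  · rw [mem_cl] at ha hc
    refine (hnext a c ?_).2
    have := hg.ultra a i c; have := hg.symm i a
    omega

theorem ckey_inj {l : ℕ} {f g : MatL L n} {t : ℕ} (hL : 0 < L) (hf : Good l L (natM f))
    (hg : Good l L (natM g)) (h : ckey ⟨f, t⟩ = ckey ⟨g, t⟩) : f = g := by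
  funext q
  have pos : ∀ f : MatL L n, Good l L (natM f) → (f q : ℕ) ≠ 0 := fun f hf => by
    show natM f q.1 q.2 ≠ 0
    by_cases h : q.1 = q.2
    · rw [h, hf.self]; omega
    · have := hf.low _ _ h; omega
  have e := congrArg (fun k => ((k.1 q : Fin (L + 1)) : ℕ)) h
  simp only [ckey_val] at e
  have := pos f hf; have := pos g hg
  apply Fin.ext
  split_ifs at e <;> omega

/-- The weighted increments with one key. -/
theorem fibre_theta (hL : 0 < L) {l : ℕ} (T : Finset (Σ _ : MatL L n, ℕ))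
    (hT : ∀ x ∈ T, Good l L (natM x.1) ∧ x.2 ∈ offs (natM x.1))
    (κ : MatL L n × Option (Fin n × Fin n)) (hκ : ∀ x ∈ T, ckey x = κ) :
    ∑ x ∈ T, (1 / (L : ℝ)) ^ (offs (natM x.1)).card * incrAt G B (natM x.1) x.2
      ≤ 1 / L * (1 / (L : ℝ)) ^ (inner L κ.1).card * (3 * n) := by
  rcases T.eq_empty_or_nonempty with rfl | ⟨x0, hx0⟩
  · rw [sum_empty]; positivity
  obtain ⟨⟨p, hp⟩, -, -⟩ := ckey_facts (hT x0 hx0).1 (hT x0 hx0).2
  have hp' : κ.2 = some p := by rw [← hκ x0 hx0]; exact hp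
  let W : Fin n → Vect B := fun i => vec G (lx B) (natM κ.1) 0 (κ.1 p : ℕ) (cl (natM κ.1) (κ.1 p : ℕ) i)
  have hval : ∀ x ∈ T, (1 / (L : ℝ)) ^ (offs (natM x.1)).card * incrAt G B (natM x.1) x.2
      = 1 / L * (1 / (L : ℝ)) ^ (inner L κ.1).card * ∑ i, (qn G (W i) (x.2 + 3) - qn G (W i) x.2) := by
    intro x hx
    obtain ⟨f, t⟩ := x
    obtain ⟨hg, ht⟩ := hT _ hx
    obtain ⟨-, htL, hc⟩ := ckey_facts hg ht
    have hk := hκ _ hx
    have hinc : incrAt G B (natM f) t = ∑ i, (qn G (W i) (t + 3) - qn G (W i) t) := by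
      unfold incrAt
      refine sum_congr rfl fun i _ => ?_
      have e := ckey_vec (G := G) (B := B) hg htL (p := p) (by rw [hk]; exact hp') i
      rw [hk] at e
      rw [e]
    show (1 / (L : ℝ)) ^ (offs (natM f)).card * incrAt G B (natM f) t = _
    rw [hinc, ← hc, hk, pow_succ']
  rw [sum_congr rfl hval, ← mul_sum]
  refine mul_le_mul_of_nonneg_left ?_ (by positivity)
  have hinj : Set.InjOn (fun x : Σ _ : MatL L n, ℕ => x.2) ↑T := by
    rintro ⟨f, t⟩ hf ⟨g, t'⟩ hg (rfl : t = t')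
    obtain rfl : f = g := ckey_inj hL (hT _ hf).1 (hT _ hg).1 ((hκ _ hf).trans (hκ _ hg).symm)
    rfl
  calc ∑ x ∈ T, ∑ i, (qn G (W i) (x.2 + 3) - qn G (W i) x.2)
      = ∑ t ∈ T.image (fun x => x.2), ∑ i, (qn G (W i) (t + 3) - qn G (W i) t) :=
        (sum_image (f := fun t => ∑ i, (qn G (W i) (t + 3) - qn G (W i) t)) hinj).symm
    _ ≤ ∑ t ∈ range L, ∑ i, (qn G (W i) (t + 3) - qn G (W i) t) :=
        sum_le_sum_of_subset_of_nonneg (fun t ht => by
          obtain ⟨x, hx, rfl⟩ := mem_image.1 ht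
          exact mem_range.2 (ckey_facts (hT x hx).1 (hT x hx).2).2.1)
          fun t _ _ => sum_nonneg fun i _ => sub_nonneg.2 (qn_mono _ (by omega))
    _ ≤ 3 * n := by
        rw [sum_comm]
        refine (sum_le_sum fun i _ => incr_tele (W i) (vec_bd lx_bd _ _ _)).trans (le_of_eq ?_)
        simp [mul_comm]

/-- The mass-weighted sum of all increments is of the order of one mass. -/
theorem sum_theta (hL : 0 < L) {l : ℕ} (S : Finset (MatL L n)) (hS : ∀ f ∈ S, Good l L (natM f)) :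
    ∑ f ∈ S, (1 / (L : ℝ)) ^ (offs (natM f)).card * theta G B (natM f)
      ≤ 3 * n * (n * n : ℕ) * (((n * n : ℕ) : ℝ) + 4) ^ (n * n) / L := by
  classical
  simp only [theta, mul_sum]
  rw [sum_sigma']
  have hP : ∀ x ∈ S.sigma (fun f => offs (natM f)), Good l L (natM x.1) ∧ x.2 ∈ offs (natM x.1) :=
    fun x hx => ⟨hS _ (mem_sigma.1 hx).1, (mem_sigma.1 hx).2⟩
  let keys : Finset (MatL L n × Option (Fin n × Fin n)) :=
    univ ×ˢ (univ.map Function.Embedding.some)
  rw [← sum_fiberwise_of_maps_to (g := ckey) (t := keys) fun x hx => by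
    obtain ⟨⟨p, hp⟩, -, -⟩ := ckey_facts (hP x hx).1 (hP x hx).2
    exact mem_product.2 ⟨mem_univ _, mem_map.2 ⟨p, mem_univ _, hp.symm⟩⟩]
  refine (sum_le_sum fun κ _ => fibre_theta hL _ (fun x hx => hP x (mem_filter.1 hx).1) κ
    fun x hx => (mem_filter.1 hx).2).trans ?_
  have h := sum_inner' hL (α := Fin n × Fin n)
  rw [Fintype.card_prod, Fintype.card_fin] at h
  have e : ∑ κ ∈ keys, 1 / (L : ℝ) * (1 / (L : ℝ)) ^ (inner L κ.1).card * (3 * n)
      = ((n * n : ℕ) : ℝ) * (1 / L * (∑ f : MatL L n, (1 / (L : ℝ)) ^ (inner L f).card) * (3 * n)) := by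
    rw [← sum_mul, ← mul_sum]
    simp only [keys, sum_product, sum_const, card_map, card_univ, Fintype.card_prod, Fintype.card_fin,
      nsmul_eq_mul]
    rw [← mul_sum]
    ring
  rw [e]
  calc ((n * n : ℕ) : ℝ) * (1 / L * (∑ f : MatL L n, (1 / (L : ℝ)) ^ (inner L f).card) * (3 * n))
      ≤ ((n * n : ℕ) : ℝ) * (1 / L * (((n * n : ℕ) : ℝ) + 4) ^ (n * n) * (3 * n)) := by gcongr
    _ = _ := by ring

end Vale.Agent.P168.Conc
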