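import Vale.Agent.P168.Tree.Split
import Vale.Agent.P168.Tree.Var
import Vale.Agent.P168.Upper.Series
import Vale.Agent.P168.Perturb.Defs

/-!
# P168, concentration: expectations of systems, distances of vectors, replicas at prescribed joins
-/

open Real Finset

namespace Vale.Agent.P168.Conc

variable {L N n m : ℕ} {B : Sys L N} {G : Grid L}

/-! ### Means -/

theorem mean_le_mean {α : Type*} [Fintype α] {f g : α → ℝ} (h : ∀ a, f a ≤ g a) : mean f ≤ mean g :=
  div_le_div_of_nonneg_right (sum_le_sum fun a _ => h a) (Nat.cast_nonneg _)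

theorem mean_nonneg {α : Type*} [Fintype α] {f : α → ℝ} (h : ∀ a, 0 ≤ f a) : 0 ≤ mean f :=
  div_nonneg (sum_nonneg fun a _ => h a) (Nat.cast_nonneg _)

theorem mean_add {α : Type*} [Fintype α] (f g : α → ℝ) : mean (fun a => f a + g a) = mean f + mean g := by
  simp [mean, sum_add_distrib, add_div]

theorem mean_sub {α : Type*} [Fintype α] (f g : α → ℝ) : mean (fun a => f a - g a) = mean f - mean g := by
  simp [mean, sum_sub_distrib, sub_div]

theorem mean_mul_left {α : Type*} [Fintype α] (c : ℝ) (f : α → ℝ) : mean (fun a => c * f a) = c * mean f := by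
  simp only [mean, ← mul_sum, mul_div_assoc]

theorem mean_mul_mean {α β : Type*} [Fintype α] [Fintype β] (f : α → ℝ) (g : β → ℝ) :
    mean f * mean g = mean fun a => mean fun b => f a * g b := by
  simp only [mean, ← mul_sum, ← sum_mul, mul_div_assoc, ← sum_div]
  ring

theorem abs_mean_le {α : Type*} [Fintype α] (f : α → ℝ) : |mean f| ≤ mean fun a => |f a| := by
  rw [mean, abs_div, Nat.abs_cast]
  exact div_le_div_of_nonneg_right (abs_sum_le_sum_abs _ _) (Nat.cast_nonneg _)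

theorem mean_le_one {α : Type*} [Fintype α] {f : α → ℝ} (h : ∀ a, f a ≤ 1) : mean f ≤ 1 := by
  rw [mean]
  refine div_le_one_of_le₀ ?_ (Nat.cast_nonneg _)
  simpa using sum_le_sum fun a (_ : a ∈ (univ : Finset α)) => h a

theorem abs_mean_le_one {α : Type*} [Fintype α] {f : α → ℝ} (h : ∀ a, |f a| ≤ 1) : |mean f| ≤ 1 :=
  (abs_mean_le f).trans (mean_le_one h)

theorem sq_mean_le {α : Type*} [Fintype α] (f : α → ℝ) : mean f ^ 2 ≤ mean fun a => f a ^ 2 := by
  rcases isEmpty_or_nonempty α with h | h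
  · simp [mean]
  have h1 : ∀ a, 2 * mean f * f a - mean f ^ 2 ≤ f a ^ 2 := fun a => by nlinarith [sq_nonneg (f a - mean f)]
  have h2 := mean_le_mean h1
  rw [mean_sub, mean_mul_left] at h2
  have h3 : mean (fun _ : α => mean f ^ 2) = mean f ^ 2 := by simp [mean]
  linarith

theorem abs_mul_le_one {x y : ℝ} (hx : |x| ≤ 1) (hy : |y| ≤ 1) : |x * y| ≤ 1 := by
  rw [abs_mul]; exact mul_le_one₀ hx (abs_nonneg _) hy

theorem abs_mul_sub_le {a b c d : ℝ} (ha : |a| ≤ 1) (hd : |d| ≤ 1) :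
    |a * b - c * d| ≤ |b - d| + |a - c| := by
  calc |a * b - c * d| = |a * (b - d) + d * (a - c)| := by ring_nf
    _ ≤ |a * (b - d)| + |d * (a - c)| := abs_add_le _ _
    _ ≤ _ := by
      rw [abs_mul, abs_mul]
      exact add_le_add (mul_le_of_le_one_left (abs_nonneg _) ha) (mul_le_of_le_one_left (abs_nonneg _) hd)

/-- Both products of two families in `[-1, 1]` are as close as the factors. -/
theorem abs_prod_sub_le {ι : Type*} {s : Finset ι} {f g : ι → ℝ}
    (hf : ∀ i ∈ s, |f i| ≤ 1) (hg : ∀ i ∈ s, |g i| ≤ 1) :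
    |∏ i ∈ s, f i - ∏ i ∈ s, g i| ≤ ∑ i ∈ s, |f i - g i| := by
  classical
  induction s using Finset.induction_on with
  | empty => simp
  | insert i s hi ih =>
    rw [prod_insert hi, prod_insert hi, sum_insert hi, add_comm]
    refine (abs_mul_sub_le (hf i (mem_insert_self _ _)) ?_).trans
      (add_le_add (ih (fun j hj => hf j (mem_insert_of_mem hj)) fun j hj => hg j (mem_insert_of_mem hj)) le_rfl)
    rw [abs_prod]
    exact prod_le_one (fun j _ => abs_nonneg _) fun j hj => hg j (mem_insert_of_mem hj)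

/-! ### Expectations -/

theorem sysE_add (S : Shape L m) (φ ψ : B.Om → (Fin m → Fin L → B.Z) → ℝ) :
    B.E G S (fun o ξ => φ o ξ + ψ o ξ) = B.E G S φ + B.E G S ψ := by
  simp [Sys.E, E_add, mul_add, sum_add_distrib]

theorem sysE_mul (S : Shape L m) (c : ℝ) (φ : B.Om → (Fin m → Fin L → B.Z) → ℝ) :
    B.E G S (fun o ξ => c * φ o ξ) = c * B.E G S φ := by
  simp [Sys.E, E_mul_left, mul_sum, mul_left_comm]

theorem sysE_sub (S : Shape L m) (φ ψ : B.Om → (Fin m → Fin L → B.Z) → ℝ) :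
    B.E G S (fun o ξ => φ o ξ - ψ o ξ) = B.E G S φ - B.E G S ψ := by
  have := sysE_add (G := G) S φ fun o ξ => (-1) * ψ o ξ
  rw [sysE_mul] at this
  simpa [sub_eq_add_neg] using this

theorem sysE_sum {α : Type*} (s : Finset α) (S : Shape L m) (φ : α → B.Om → (Fin m → Fin L → B.Z) → ℝ) :
    B.E G S (fun o ξ => ∑ a ∈ s, φ a o ξ) = ∑ a ∈ s, B.E G S (φ a) := by
  simp only [Sys.E, E_sum, mul_sum]
  rw [sum_comm]

theorem sysE_mean {α : Type*} [Fintype α] (S : Shape L m) (φ : α → B.Om → (Fin m → Fin L → B.Z) → ℝ) :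
    B.E G S (fun o ξ => mean fun a => φ a o ξ) = mean fun a => B.E G S (φ a) := by
  simp only [mean, div_eq_inv_mul, sysE_mul, sysE_sum]

theorem sysE_le (S : Shape L m) {φ ψ : B.Om → (Fin m → Fin L → B.Z) → ℝ}
    (h : ∀ o, ∀ ξ ∈ S.consistent, φ o ξ ≤ ψ o ξ) : B.E G S φ ≤ B.E G S ψ :=
  sum_le_sum fun o _ => mul_le_mul_of_nonneg_left
    (div_le_div_of_nonneg_right (sum_le_sum fun ξ hξ => mul_le_mul_of_nonneg_left (h o ξ hξ) (exp_pos _).le)
      (Nat.cast_nonneg _)) (B.w_nonneg o)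

theorem sysE_congr (S : Shape L m) {φ ψ : B.Om → (Fin m → Fin L → B.Z) → ℝ}
    (h : ∀ o, ∀ ξ ∈ S.consistent, φ o ξ = ψ o ξ) : B.E G S φ = B.E G S ψ :=
  le_antisymm (sysE_le S fun o ξ hξ => (h o ξ hξ).le) (sysE_le S fun o ξ hξ => (h o ξ hξ).ge)

theorem sysE_const (S : Shape L m) (c : ℝ) : B.E G S (fun _ _ => c) = c := by
  have h := sysE_mul (G := G) (B := B) S c fun _ _ => 1
  simp only [mul_one] at h
  rw [h]
  simp [Sys.E, E_mass, B.w_sum]

theorem sysE_nonneg (S : Shape L m) {φ : B.Om → (Fin m → Fin L → B.Z) → ℝ}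
    (h : ∀ o, ∀ ξ ∈ S.consistent, 0 ≤ φ o ξ) : 0 ≤ B.E G S φ :=
  (sysE_const S 0).ge.trans (sysE_le S h)

theorem abs_sysE_le (S : Shape L m) (φ : B.Om → (Fin m → Fin L → B.Z) → ℝ) :
    |B.E G S φ| ≤ B.E G S fun o ξ => |φ o ξ| := by
  refine abs_le.2 ⟨?_, sysE_le S fun o ξ _ => le_abs_self _⟩
  have := sysE_le (G := G) S (φ := fun o ξ => (-1) * |φ o ξ|) (ψ := φ)
    fun o ξ _ => by linarith [neg_abs_le (φ o ξ)]
  rw [sysE_mul] at this
  linarith

theorem sysE_abs_sub_le (S : Shape L m) (φ ψ : B.Om → (Fin m → Fin L → B.Z) → ℝ) :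
    |B.E G S φ - B.E G S ψ| ≤ B.E G S fun o ξ => |φ o ξ - ψ o ξ| := by
  rw [← sysE_sub]; exact abs_sysE_le S _

theorem sysE_le_sqrt (S : Shape L m) (φ : B.Om → (Fin m → Fin L → B.Z) → ℝ) :
    B.E G S (fun o ξ => |φ o ξ|) ≤ √(B.E G S fun o ξ => φ o ξ ^ 2) := by
  refine (Real.le_sqrt (sysE_nonneg S fun o ξ _ => abs_nonneg _)
    (sysE_nonneg S fun o ξ _ => sq_nonneg _)).2 ?_
  set c := B.E G S fun o ξ => |φ o ξ|
  have h : 0 ≤ B.E G S (fun o ξ => φ o ξ ^ 2 + (-(2 * c) * |φ o ξ| + c ^ 2)) :=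
    sysE_nonneg S fun o ξ _ => by nlinarith [sq_nonneg (|φ o ξ| - c), sq_abs (φ o ξ)]
  rw [sysE_add, sysE_add, sysE_mul, sysE_const] at h
  linarith

theorem sysE_marginal {a : ℕ} (S : Shape L m) (e : Fin a ↪ Fin m) (φ : B.Om → (Fin a → Fin L → B.Z) → ℝ) :
    B.E G S (fun o ξ => φ o fun i => ξ (e i)) = B.E G (S.comap e) φ := by
  simp only [Sys.E, marginalStmt L m a B.Z G _ S e]

/-- The expectation of a function of one replica. -/
noncomputable def E1 (G : Grid L) (B : Sys L N) (φ : B.Om → (Fin L → B.Z) → ℝ) : ℝ :=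
  B.E G (Shape.one L) fun o ξ => φ o (ξ 0)

theorem comap_one (S : Shape L m) (e : Fin 1 ↪ Fin m) : S.comap e = Shape.one L := by
  simp only [Shape.comap, Shape.one, Shape.mk.injEq]
  funext i j
  rw [Subsingleton.elim j i, S.self]

theorem sysE_at (S : Shape L m) (k : Fin m) (φ : B.Om → (Fin L → B.Z) → ℝ) :
    B.E G S (fun o ξ => φ o (ξ k)) = E1 G B φ := by
  have h := sysE_marginal (G := G) (B := B) (a := 1) S ⟨fun _ => k, fun x y _ => Subsingleton.elim x y⟩
    fun o η => φ o (η 0)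
  rw [comap_one] at h
  exact h

theorem E1_le {φ ψ : B.Om → (Fin L → B.Z) → ℝ} (h : ∀ o p, φ o p ≤ ψ o p) : E1 G B φ ≤ E1 G B ψ :=
  sysE_le _ fun o ξ _ => h o (ξ 0)

theorem E1_nonneg {φ : B.Om → (Fin L → B.Z) → ℝ} (h : ∀ o p, 0 ≤ φ o p) : 0 ≤ E1 G B φ :=
  sysE_nonneg _ fun o ξ _ => h o (ξ 0)

theorem E1_eq (φ : B.Om → (Fin L → B.Z) → ℝ) :
    E1 G B φ = ∑ o, B.w o * cndAt G (B.H o) 0 (φ o) (Classical.arbitrary _) := by
  simp only [E1, Sys.E]
  exact sum_congr rfl fun o _ => by rw [E_one_eq G (B.H o) (φ o)]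

/-! ### Conditional expectations -/

variable {Z : Type} [Fintype Z] [DecidableEq Z] [Nonempty Z] (H : (Fin L → Z) → ℝ)

theorem cndAt_add (t : ℕ) (φ ψ : (Fin L → Z) → ℝ) (p : Fin L → Z) :
    cndAt G H t (fun q => φ q + ψ q) p = cndAt G H t φ p + cndAt G H t ψ p := by
  simp only [cndAt_eq, mul_add, sum_add_distrib, add_div]

theorem cndAt_mul_left (t : ℕ) (c : ℝ) (φ : (Fin L → Z) → ℝ) (p : Fin L → Z) :
    cndAt G H t (fun q => c * φ q) p = c * cndAt G H t φ p :=
  cndAt_mul_const G H (g := fun _ => c) fun _ _ => rfl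

theorem cndAt_sub (t : ℕ) (φ ψ : (Fin L → Z) → ℝ) (p : Fin L → Z) :
    cndAt G H t (fun q => φ q - ψ q) p = cndAt G H t φ p - cndAt G H t ψ p := by
  simp only [cndAt_eq, mul_sub, sum_sub_distrib, sub_div]

theorem cndAt_const (t : ℕ) (c : ℝ) (p : Fin L → Z) : cndAt G H t (fun _ => c) p = c := by
  simpa [cndAt_one] using cndAt_mul_left (G := G) H t c (fun _ => 1) p

theorem abs_cndAt_le (t : ℕ) (φ : (Fin L → Z) → ℝ) (p : Fin L → Z) :
    |cndAt G H t φ p| ≤ cndAt G H t (fun q => |φ q|) p := by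
  refine abs_le.2 ⟨?_, cndAt_mono G H t (fun q => le_abs_self _) p⟩
  have := cndAt_mono G H t (φ := fun q => (-1) * |φ q|) (ψ := φ) (fun q => by linarith [neg_abs_le (φ q)]) p
  rw [cndAt_mul_left] at this
  linarith

theorem abs_cndAt_le_one (t : ℕ) {φ : (Fin L → Z) → ℝ} (h : ∀ q, |φ q| ≤ 1) (p : Fin L → Z) :
    |cndAt G H t φ p| ≤ 1 :=
  (abs_cndAt_le H t φ p).trans ((cndAt_mono G H t h p).trans_eq (cndAt_const H t 1 p))

theorem cndAt_mean {α : Type*} [Fintype α] (t : ℕ) (φ : α → (Fin L → Z) → ℝ) (p : Fin L → Z) :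
    cndAt G H t (fun q => mean fun a => φ a q) p = mean fun a => cndAt G H t (φ a) p := by
  simp only [cndAt_eq, mean, mul_div_assoc', mul_sum, ← sum_div]
  rw [sum_comm, div_right_comm]

/-- Conditioning twice. -/
theorem cndAt_cndAt {t s : ℕ} (hts : t ≤ s) (φ : (Fin L → Z) → ℝ) (p : Fin L → Z) :
    cndAt G H t (fun q => cndAt G H s φ q) p = cndAt G H t φ p := by
  simpa using cndAt_tower G H hts (fun _ => 1) φ (fun _ _ _ => rfl) p

omit H

/-- A vector at every leaf. -/
abbrev Vect (B : Sys L N) : Type := B.Om → (Fin L → B.Z) → Fin N → ℝ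

/-- All coordinates lie in `[-1, 1]`. -/
def Bd (X : Vect B) : Prop := ∀ o p a, |X o p a| ≤ 1

/-- The conditional expectation of a vector given the node of level `t`. -/
noncomputable def cv (G : Grid L) (t : ℕ) (X : Vect B) : Vect B :=
  fun o p a => cndAt G (B.H o) t (fun q => X o q a) p

theorem cv_bd {X : Vect B} (h : Bd X) (t : ℕ) : Bd (cv G t X) :=
  fun o p a => abs_cndAt_le_one _ t (fun q => h o q a) p

theorem cv_congr (X : Vect B) (t : ℕ) {o : B.Om} {p p' : Fin L → B.Z}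
    (h : ∀ c : Fin L, (c : ℕ) < t → p c = p' c) : cv G t X o p = cv G t X o p' :=
  funext fun _ => cndAt_congr G _ t _ h

theorem E1_cnd (t : ℕ) (φ : B.Om → (Fin L → B.Z) → ℝ) :
    E1 G B (fun o p => cndAt G (B.H o) t (φ o) p) = E1 G B φ := by
  simp only [E1_eq, cndAt_cndAt _ (Nat.zero_le t)]

/-- A function of the node of level `t` may be multiplied inside. -/
theorem E1_tower (t : ℕ) (g φ : B.Om → (Fin L → B.Z) → ℝ)
    (hg : ∀ o p p', (∀ c : Fin L, (c : ℕ) < t → p c = p' c) → g o p = g o p') :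
    E1 G B (fun o p => g o p * cndAt G (B.H o) t (φ o) p) = E1 G B fun o p => g o p * φ o p := by
  simp only [E1_eq]
  exact sum_congr rfl fun o _ => by rw [cndAt_tower G (B.H o) (Nat.zero_le t) (g o) (φ o) (hg o)]

/-- The mean distance of two vectors. -/
noncomputable def dist1 (G : Grid L) (X Y : Vect B) : ℝ :=
  E1 G B fun o p => mean fun a => |X o p a - Y o p a|

/-- The mean square of the conditional expectation. -/
noncomputable def qn (G : Grid L) (X : Vect B) (t : ℕ) : ℝ :=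
  E1 G B fun o p => mean fun a => cv G t X o p a ^ 2

/-- The covariance matrix given the node of level `t`. -/
noncomputable def covM (G : Grid L) (t : ℕ) (X : Vect B) (o : B.Om) (p : Fin L → B.Z) (a b : Fin N) : ℝ :=
  cndAt G (B.H o) t (fun q => X o q a * X o q b) p - cv G t X o p a * cv G t X o p b

/-- The mean square of the covariance matrix given the node of level `t`. -/
noncomputable def hs (G : Grid L) (t : ℕ) (X : Vect B) : ℝ :=
  E1 G B fun o p => mean fun a => mean fun b => covM G t X o p a b ^ 2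

theorem hs_nonneg (t : ℕ) (X : Vect B) : 0 ≤ hs G t X :=
  E1_nonneg fun _ _ => mean_nonneg fun _ => mean_nonneg fun _ => sq_nonneg _

theorem dist1_self (X : Vect B) : dist1 G X X = 0 := by
  simp [dist1, E1, mean, sysE_const]

theorem dist1_nonneg (X Y : Vect B) : 0 ≤ dist1 G X Y :=
  E1_nonneg fun _ _ => mean_nonneg fun _ => abs_nonneg _

theorem dist1_comm (X Y : Vect B) : dist1 G X Y = dist1 G Y X := by
  simp only [dist1, abs_sub_comm]

theorem dist1_triangle (X Y W : Vect B) : dist1 G X W ≤ dist1 G X Y + dist1 G Y W := by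
  refine le_trans (sysE_le _ fun o ξ _ => ?_) (sysE_add _ _ _).le
  rw [← mean_add]
  exact mean_le_mean fun a => abs_sub_le _ _ _

theorem dist1_cv (t : ℕ) (X Y : Vect B) : dist1 G (cv G t X) (cv G t Y) ≤ dist1 G X Y := by
  refine le_trans (E1_le fun o p => ?_) (E1_cnd t fun o p => mean fun a => |X o p a - Y o p a|).le
  rw [cndAt_mean]
  refine mean_le_mean fun a => ?_
  rw [cv, cv, ← cndAt_sub]
  exact abs_cndAt_le _ _ _ _

theorem qn_nonneg (X : Vect B) (t : ℕ) : 0 ≤ qn G X t :=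
  E1_nonneg fun _ _ => mean_nonneg fun _ => sq_nonneg _

theorem qn_le_one {X : Vect B} (h : Bd X) (t : ℕ) : qn G X t ≤ 1 :=
  (E1_le fun o p => mean_le_one fun a => by
    nlinarith [abs_le.1 (cv_bd (G := G) h t o p a), sq_abs (cv G t X o p a)]).trans_eq (sysE_const _ 1)

theorem qn_top (X : Vect B) {t : ℕ} (ht : L ≤ t) : qn G X t = qn G X L := by
  simp only [qn, cv, cndAt_top G _ ht, cndAt_top G _ le_rfl]

theorem qn_sub (X : Vect B) {t s : ℕ} (hts : t ≤ s) :
    (E1 G B fun o p => mean fun a => (cv G s X o p a - cv G t X o p a) ^ 2) = qn G X s - qn G X t := by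
  have hcross : (E1 G B fun o p => mean fun a => cv G t X o p a * cv G s X o p a) = qn G X t := by
    simp only [qn, E1, sysE_mean]
    congr 1
    funext a
    have e1 := E1_tower (G := G) (B := B) s (fun o p => cv G t X o p a) (fun o q => X o q a)
      fun o p p' h => congrFun (cv_congr X t fun c hc => h c (hc.trans_le hts)) a
    have e2 := E1_tower (G := G) (B := B) t (fun o p => cv G t X o p a) (fun o q => X o q a)
      fun o p p' h => congrFun (cv_congr X t h) a
    simp only [E1] at e1 e2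
    simp only [sq]
    exact e1.trans e2.symm
  have e : ∀ o p, (mean fun a => (cv G s X o p a - cv G t X o p a) ^ 2)
      = (mean fun a => cv G s X o p a ^ 2) +
        ((-2) * (mean fun a => cv G t X o p a * cv G s X o p a) + mean fun a => cv G t X o p a ^ 2) := by
    intro o p
    rw [← mean_mul_left, ← mean_add, ← mean_add]
    congr 1
    funext a
    ring
  simp only [e]
  simp only [qn, E1, sysE_add, sysE_mul] at hcross ⊢
  linarith

theorem qn_mono (X : Vect B) {t s : ℕ} (hts : t ≤ s) : qn G X t ≤ qn G X s :=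
  sub_nonneg.1 ((E1_nonneg fun _ _ => mean_nonneg fun _ => sq_nonneg _).trans_eq (qn_sub X hts))

theorem dist1_incr (X : Vect B) {t s t' s' : ℕ} (ht : t' ≤ t) (hts : t ≤ s) (hs' : s ≤ s') {θ : ℝ}
    (hθ : qn G X s' - qn G X t' ≤ θ) : dist1 G (cv G s X) (cv G t X) ≤ √θ := by
  have h1 := qn_mono (G := G) X ht
  have h2 := qn_mono (G := G) X hs'
  calc dist1 G (cv G s X) (cv G t X)
      = B.E G (Shape.one L) fun o ξ => |(mean fun a => |cv G s X o (ξ 0) a - cv G t X o (ξ 0) a|)| := by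
        simp only [dist1, E1, abs_of_nonneg (mean_nonneg fun _ => abs_nonneg _)]
    _ ≤ √(B.E G (Shape.one L) fun o ξ => (mean fun a => |cv G s X o (ξ 0) a - cv G t X o (ξ 0) a|) ^ 2) :=
        sysE_le_sqrt _ _
    _ ≤ √(qn G X s - qn G X t) := by
        rw [← qn_sub X hts]
        exact sqrt_le_sqrt (sysE_le _ fun o ξ _ => (sq_mean_le _).trans_eq (by simp only [sq_abs]))
    _ ≤ √θ := sqrt_le_sqrt (by linarith)

/-! ### Replicas at prescribed places -/

/-- `g` sees the class of `k` at level `τ` only through its node. -/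
def Indep {α : Type*} {Z : Type} (Q : Shape L m) (k : Fin m) (τ : ℕ)
    (g : (Fin m → Fin L → Z) → α) : Prop :=
  ∀ ξ ξ', (∀ z, z ∉ Q.cls τ k → ξ z = ξ' z) →
    (∀ z ∈ Q.cls τ k, ∀ c : Fin L, (c : ℕ) < τ → ξ z c = ξ' z c) → g ξ = g ξ'

/-- The mean product of two vectors. -/
noncomputable def ip (u v : Fin N → ℝ) : ℝ := mean fun a => u a * v a

theorem ip_sub (u v w : Fin N → ℝ) : ip u v - ip u w = ip u fun a => v a - w a := by
  simp only [ip, ← mean_sub, mul_sub]

theorem abs_ip_le {u : Fin N → ℝ} (v : Fin N → ℝ) (hu : ∀ a, |u a| ≤ 1) : |ip u v| ≤ mean fun a => |v a| :=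
  (abs_mean_le _).trans (mean_le_mean fun a => by
    rw [abs_mul]; exact mul_le_of_le_one_left (abs_nonneg _) (hu a))

theorem sysE_single (Q : Shape L m) (k : Fin m) {τ : ℕ} (hτ : τ ≤ L)
    (g : B.Om → (Fin m → Fin L → B.Z) → ℝ) (hg : ∀ o, Indep Q k τ (g o))
    (ψ : B.Om → (Fin L → B.Z) → ℝ) :
    B.E G Q (fun o ξ => g o ξ * ψ o (ξ k))
      = B.E G Q fun o ξ => g o ξ * cndAt G (B.H o) τ (ψ o) (ξ k) := by
  classical
  set s := univ.filter fun z => z = k ∨ z ∉ Q.cls τ k with hs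
  set e : Fin s.card ↪ Fin m := (s.orderEmbOfFin rfl).toEmbedding
  have hrange : ∀ z, (∃ c, e c = z) ↔ z = k ∨ z ∉ Q.cls τ k := fun z => by
    have h := Finset.range_orderEmbOfFin s rfl
    have h' : (∃ c, e c = z) ↔ z ∈ s := by
      rw [← Finset.mem_coe, ← h]; rfl
    rw [h']; simp [hs]
  obtain ⟨k', hk'⟩ := (hrange k).2 (Or.inl rfl)
  set g' : B.Om → (Fin s.card → Fin L → B.Z) → ℝ := fun o η => g o (Function.extend e η fun _ => η k')
  have hgg : ∀ o, ∀ ξ ∈ Q.consistent, g o ξ = g' o fun c => ξ (e c) := by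
    intro o ξ hξ
    refine hg o _ _ (fun z hz => ?_) fun z hz c hc => ?_
    · obtain ⟨d, rfl⟩ := (hrange z).2 (Or.inr hz)
      rw [e.injective.extend_apply]
    · by_cases hd : ∃ d, e d = z
      · obtain ⟨d, rfl⟩ := hd
        rw [e.injective.extend_apply]
      · rw [Function.extend_apply' _ _ _ hd]
        simp only [hk']
        exact ((mem_consistent Q).1 hξ k z c (hc.trans_le ((mem_cls Q).1 hz))).symm
  have key : ∀ o (φ : (Fin L → B.Z) → ℝ), (B.w o * Q.E G (B.H o) fun ξ => g o ξ * φ (ξ k))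
      = B.w o * (Q.comap e).E G (B.H o) fun η => g' o η * φ (η k') := by
    intro o φ
    congr 1
    rw [← marginalStmt L m s.card B.Z G (B.H o) Q e fun η => g' o η * φ (η k')]
    simp only [Shape.E]
    congr 1
    refine sum_congr rfl fun ξ hξ => ?_
    rw [hgg o ξ hξ, hk']
  simp only [Sys.E, key]
  refine sum_congr rfl fun o _ => ?_
  congr 1
  set T := Q.comap e
  have hout : ∀ j, j ∈ T.cls τ k' ↔ j = k' := fun j => by
    rw [mem_cls]
    show τ ≤ Q.J (e k') (e j) ↔ _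
    rw [hk']
    refine ⟨fun hj => ?_, fun hj => by rw [hj, hk', Q.self]; exact hτ⟩
    rcases (hrange (e j)).1 ⟨j, rfl⟩ with h | h
    · exact e.injective (h.trans hk'.symm)
    · exact absurd ((mem_cls Q).2 hj) h
  have hsp := splitStmt L s.card 1 s.card B.Z G (B.H o) T τ k'
    ⟨fun _ => k', fun x y _ => Subsingleton.elim x y⟩ (Function.Embedding.refl _) k'
    (fun α => ψ o (α 0)) (g' o) hτ
    (fun j => by rw [hout]; exact ⟨fun h => ⟨0, h.symm⟩, fun ⟨_, h⟩ => h.symm⟩) rfl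
    (fun j => ⟨fun _ => (em (j = k')).imp id fun h h' => h ((hout j).1 h'), fun _ => ⟨j, rfl⟩⟩) ?_
  · have e1 : T.comap (Function.Embedding.refl _) = T := rfl
    rw [e1, comap_one] at hsp
    simp only [mul_comm (g' o _)]
    exact hsp
  · intro η η' h1 h2
    refine hg o _ _ (fun z hz => ?_) fun z hz c hc => ?_
    · obtain ⟨d, rfl⟩ := (hrange z).2 (Or.inr hz)
      rw [e.injective.extend_apply, e.injective.extend_apply]
      refine h1 d fun hd => hz ?_
      rw [hd, hk']
      exact self_mem_cls Q hτ k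
    · by_cases hd : ∃ d, e d = z
      · obtain ⟨d, rfl⟩ := hd
        rw [e.injective.extend_apply, e.injective.extend_apply]
        by_cases hdk : d = k'
        · subst hdk; exact h2 c hc
        · rw [h1 d hdk]
      · rw [Function.extend_apply' _ _ _ hd, Function.extend_apply' _ _ _ hd]
        exact h2 c hc

/-- A vector against its conditional expectation, seen through `W`. -/
theorem sysE_ip_cov (Q : Shape L m) (k : Fin m) {τ : ℕ} (hτ : τ ≤ L) (X : Vect B)
    (W : B.Om → (Fin m → Fin L → B.Z) → Fin N → ℝ) (hW : ∀ o, Indep Q k τ (W o))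
    (hb : ∀ o ξ a, |W o ξ a| ≤ 1) :
    B.E G Q (fun o ξ => |ip (W o ξ) fun a => X o (ξ k) a - cv G τ X o (ξ k) a|)
      ≤ √(√(hs G τ X)) := by
  refine (sysE_le_sqrt _ _).trans (sqrt_le_sqrt ?_)
  set D : Fin N → B.Om → (Fin L → B.Z) → ℝ := fun a o q => X o q a - cv G τ X o q a
  have e1 : B.E G Q (fun o ξ => (ip (W o ξ) fun a => X o (ξ k) a - cv G τ X o (ξ k) a) ^ 2)
      = B.E G Q fun o ξ => mean fun a => mean fun b => (W o ξ a * W o ξ b) * covM G τ X o (ξ k) a b := by
    have e : ∀ o ξ, (ip (W o ξ) fun a => X o (ξ k) a - cv G τ X o (ξ k) a) ^ 2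
        = mean fun a => mean fun b => (W o ξ a * W o ξ b) * (D a o (ξ k) * D b o (ξ k)) := fun o ξ => by
      rw [sq, ip, mean_mul_mean]
      simp only [D, mul_mul_mul_comm]
    simp only [e, sysE_mean]
    congr 1; funext a; congr 1; funext b
    refine (sysE_single Q k hτ (fun o ξ => W o ξ a * W o ξ b)
      (fun o ξ ξ' h h' => by simp only [hW o ξ ξ' h h']) fun o q => D a o q * D b o q).trans
      (sysE_congr Q fun o ξ _ => ?_)
    congr 1
    have hc : ∀ (a : Fin N), ∀ q ∈ fib τ (ξ k), cv G τ X o q a = cv G τ X o (ξ k) a :=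
      fun a q hq => congrFun (cv_congr X τ (mem_fib.1 hq)) a
    have e2 : (fun q => D a o q * D b o q) = fun q => (X o q a * X o q b - cv G τ X o q b * X o q a)
        + (cv G τ X o q a * cv G τ X o q b - cv G τ X o q a * X o q b) := funext fun q => by
      simp only [D]; ring
    rw [e2, cndAt_add, cndAt_sub, cndAt_sub, cndAt_mul_const G _ (hc b)]
    have h3 := cndAt_mul_const G (B.H o) (t := τ) (g := fun q => cv G τ X o q a * cv G τ X o q b)
      (ψ := fun _ => 1) (p := ξ k) fun q hq => by simp only [hc a q hq, hc b q hq]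
    simp only [mul_one, cndAt_one] at h3
    have h4 := cndAt_mul_const G (B.H o) (t := τ) (g := fun q => cv G τ X o q a)
      (ψ := fun q => X o q b) (p := ξ k) (hc a)
    rw [h3, h4]
    simp only [covM, cv]
    ring
  rw [e1]
  set A : B.Om → (Fin L → B.Z) → ℝ := fun o p => mean fun a => mean fun b => |covM G τ X o p a b|
  refine (sysE_le Q (ψ := fun o ξ => |A o (ξ k)|) fun o ξ _ => le_trans ?_ (le_abs_self _)).trans ?_
  · refine mean_le_mean fun a => mean_le_mean fun b => ?_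
    refine (le_abs_self _).trans ?_
    rw [abs_mul]
    exact mul_le_of_le_one_left (abs_nonneg _) (abs_mul_le_one (hb o ξ a) (hb o ξ b))
  refine (sysE_le_sqrt Q _).trans (sqrt_le_sqrt ?_)
  rw [sysE_at Q k fun o p => A o p ^ 2]
  refine E1_le fun o p => (sq_mean_le _).trans (mean_le_mean fun a => (sq_mean_le _).trans_eq ?_)
  simp only [sq_abs]

theorem sysE_ip_dist (Q : Shape L m) (k : Fin m) (X Y : Vect B)
    (W : B.Om → (Fin m → Fin L → B.Z) → Fin N → ℝ) (hb : ∀ o ξ a, |W o ξ a| ≤ 1) :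
    B.E G Q (fun o ξ => |ip (W o ξ) fun a => X o (ξ k) a - Y o (ξ k) a|) ≤ dist1 G X Y :=
  (sysE_le Q fun o ξ _ => abs_ip_le _ (hb o ξ)).trans_eq
    (sysE_at Q k fun o p => mean fun a => |X o p a - Y o p a|)

/-- Two replicas with join `j`. -/
theorem sysE_pair (Q : Shape L m) {r u : Fin m} {j : ℕ} (hj : Q.J r u = j) (hjL : j < L)
    (φ ψ : B.Om → (Fin L → B.Z) → ℝ) :
    B.E G Q (fun o ξ => φ o (ξ r) * ψ o (ξ u))
      = E1 G B fun o p => cndAt G (B.H o) j (φ o) p * cndAt G (B.H o) j (ψ o) p := by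
  have hne : r ≠ u := fun h => by subst h; rw [Q.self] at hj; omega
  set e : Fin 2 ↪ Fin m := ⟨![r, u], fun x y h => by fin_cases x <;> fin_cases y <;> simp_all⟩
  set e1 : Fin 1 ↪ Fin 2 := ⟨fun _ => 0, fun x y _ => Subsingleton.elim x y⟩
  have hat : (Q.comap e).Attached e1 1 0 j := by
    refine ⟨fun z hz => ⟨0, ?_⟩, fun c => ?_, ?_, fun c => ?_⟩
    · fin_cases z
      · rfl
      · exact absurd rfl hz
    · show (0 : Fin 2) ≠ 1
      decide
    · show Q.J u r = j
      rw [Q.symm, hj]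
    · show Q.J u r ≤ j
      rw [Q.symm, hj]
  refine (sysE_marginal Q e fun o η => φ o (η 0) * ψ o (η 1)).trans ?_
  have hR := E1_tower (G := G) (B := B) j (fun o p => cndAt G (B.H o) j (ψ o) p) φ
    fun o p p' h => cndAt_congr G _ j _ h
  simp only [mul_comm (cndAt G _ j (ψ _) _)] at hR
  rw [hR]
  simp only [Sys.E, E1]
  refine sum_congr rfl fun o _ => ?_
  congr 1
  have := E_attach hat G (B.H o) (fun η => φ o (η 0)) (ψ o)
  rw [comap_one] at this
  exact this

/-- Three replicas, the first separated at `j` from the two others. -/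
theorem sysE_triple (Q : Shape L m) {r u v : Fin m} {j : ℕ} (hru : Q.J r u = j) (hrv : Q.J r v = j)
    (hjL : j < L) (φ ψ χ : B.Om → (Fin L → B.Z) → ℝ) :
    B.E G Q (fun o ξ => φ o (ξ r) * (ψ o (ξ u) * χ o (ξ v)))
      = E1 G B fun o p => cndAt G (B.H o) j (φ o) p * cndAt G (B.H o) j
          (fun q => cndAt G (B.H o) (Q.J u v) (ψ o) q * cndAt G (B.H o) (Q.J u v) (χ o) q) p := by
  have hju : j ≤ Q.J u v := by
    have := Q.ultra u r v; rw [Q.symm u r, hru, hrv] at this; omega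
  have ht : ∀ o p, cndAt G (B.H o) j
      (fun q => cndAt G (B.H o) (Q.J u v) (ψ o) q * cndAt G (B.H o) (Q.J u v) (χ o) q) p
      = cndAt G (B.H o) j (fun q => ψ o q * cndAt G (B.H o) (Q.J u v) (χ o) q) p := fun o p => by
    rw [show (fun q => cndAt G (B.H o) (Q.J u v) (ψ o) q * cndAt G (B.H o) (Q.J u v) (χ o) q) =
      fun q => cndAt G (B.H o) (Q.J u v) (χ o) q * cndAt G (B.H o) (Q.J u v) (ψ o) q from
      funext fun q => mul_comm _ _, cndAt_tower G _ hju _ _ fun q q' h => cndAt_congr G _ _ _ h]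
    exact congrArg (fun f => cndAt G (B.H o) j f p) (funext fun q => mul_comm _ _)
  simp only [ht]
  by_cases huv : u = v
  · subst huv
    rw [Q.self, sysE_pair Q hru hjL φ fun o q => ψ o q * χ o q]
    simp only [cndAt_top G _ le_rfl]
  have hne : r ≠ u := fun h => by subst h; rw [Q.self] at hru; omega
  have hne' : r ≠ v := fun h => by subst h; rw [Q.self] at hrv; omega
  set e : Fin 3 ↪ Fin m := ⟨![r, u, v], fun x y h => by fin_cases x <;> fin_cases y <;> simp_all⟩
  set e1 : Fin 2 ↪ Fin 3 := ⟨![0, 1], fun x y h => by fin_cases x <;> fin_cases y <;> simp_all⟩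
  have hat : (Q.comap e).Attached e1 2 1 (Q.J u v) := by
    refine ⟨fun z hz => ?_, fun c => ?_, ?_, fun c => ?_⟩
    · fin_cases z
      · exact ⟨0, rfl⟩
      · exact ⟨1, rfl⟩
      · simp at hz
    · fin_cases c
      · show (0 : Fin 3) ≠ 2
        decide
      · show (1 : Fin 3) ≠ 2
        decide
    · show Q.J v u = _
      exact Q.symm _ _
    · fin_cases c
      · show Q.J v r ≤ _
        rw [Q.symm, hrv]; exact hju
      · exact (Q.symm v u).le
  refine (sysE_marginal Q e fun o η => φ o (η 0) * (ψ o (η 1) * χ o (η 2))).trans ?_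
  have hp := sysE_pair (G := G) (B := B) ((Q.comap e).comap e1) (r := 0) (u := 1) hru hjL φ
    fun o q => ψ o q * cndAt G (B.H o) (Q.J u v) (χ o) q
  refine Eq.trans ?_ hp
  simp only [Sys.E]
  refine sum_congr rfl fun o _ => ?_
  congr 1
  have := E_attach hat G (B.H o) (fun η => φ o (η 0) * ψ o (η 1)) (χ o)
  rw [show (fun η : Fin 3 → Fin L → B.Z => φ o (η 0) * (ψ o (η 1) * χ o (η 2))) =
    fun η => φ o (η (e1 0)) * ψ o (η (e1 1)) * χ o (η 2) from funext fun η => (mul_assoc _ _ _).symm]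
  refine this.trans (congrArg _ (funext fun η => ?_))
  simp only [mul_assoc]

end Vale.Agent.P168.Conc
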