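import Vale.Agent.P168.Conc.Count

/-!
# P168, concentration: multioverlaps concentrate given the shape
-/

open Real Finset

namespace Vale.Agent.P168.Conc

variable {L N l d : ℕ} {B : Sys L N}

/-- The deviation at one placement. -/
noncomputable def devAt (B : Sys L N) (G : Grid L) (Q : Pos L 1) : ℝ :=
  B.E G Q.S fun _ ξ => |overlap Q.col (B.spins ξ) - B.E G Q.S fun _ ξ' => overlap Q.col (B.spins ξ')|

theorem abs_overlap_le {m : ℕ} (col : List (Fin m)) (σ : Fin m → Fin N → Bool) : |overlap col σ| ≤ 1 := by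
  refine abs_mean_le_one fun a => ?_
  induction col with
  | nil => simp
  | cons x col ih =>
    rw [List.map_cons, List.prod_cons]
    exact abs_mul_le_one (by cases σ x a <;> simp [spin]) ih

theorem devAt_le_two (G : Grid L) (Q : Pos L 1) : devAt B G Q ≤ 2 := by
  refine (sysE_le _ fun o ξ _ => ?_).trans_eq (sysE_const _ 2)
  refine (abs_sub _ _).trans (le_trans (add_le_add (abs_overlap_le _ _) ((abs_sysE_le _ _).trans
    ((sysE_le _ fun o ξ _ => abs_overlap_le _ _).trans_eq (sysE_const _ 1)))) (by norm_num))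

theorem seqMean_eq (G : Grid L) (d : ℕ) (Φ : Pos L 1 → ℝ) :
    seqMean G d Φ = sq' G d (start (Shape.one L) 0) Φ / d.factorial := rfl

theorem seqMean_mono (G : Grid L) (d : ℕ) {Φ Ψ : Pos L 1 → ℝ}
    (h : ∀ Q, Ok (Shape.one L) 0 (d + 1) Q → Φ Q ≤ Ψ Q) : seqMean G d Φ ≤ seqMean G d Ψ := by
  rw [seqMean_eq, seqMean_eq]
  exact div_le_div_of_nonneg_right
    (sq'_mono (Ok.start _ _) fun Q hQ => h Q (by rwa [Nat.add_comm] at hQ)) (Nat.cast_nonneg _)

theorem seqMean_add (G : Grid L) (d : ℕ) (Φ Ψ : Pos L 1 → ℝ) :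
    seqMean G d (fun Q => Φ Q + Ψ Q) = seqMean G d Φ + seqMean G d Ψ := by
  simp only [seqMean_eq, sq'_add, add_div]

theorem seqMean_mul (G : Grid L) (d : ℕ) (c : ℝ) (Φ : Pos L 1 → ℝ) :
    seqMean G d (fun Q => c * Φ Q) = c * seqMean G d Φ := by
  simp only [seqMean_eq, sq'_mul, mul_div_assoc]

theorem seqMean_const (G : Grid L) (d : ℕ) (c : ℝ) : seqMean G d (fun _ => c) = c := by
  have h := seqMean_mul G d c fun _ => 1
  simp only [mul_one] at h
  rw [h, seqMean_eq, sq'_total d (Ok.start _ _)]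
  show c * ((∏ j ∈ range d, (((1 : ℕ) : ℝ) + j)) / _) = c
  rw [Nat.cast_one, prod_one_add_range, div_self (Nat.cast_ne_zero.2 d.factorial_ne_zero), mul_one]

theorem sq'_sum {α : Type*} (s : Finset α) (Φ : α → Pos L 1 → ℝ) (G : Grid L) (q : ℕ) (P : Pos L 1) :
    sq' G q P (fun Q => ∑ a ∈ s, Φ a Q) = ∑ a ∈ s, sq' G q P (Φ a) := by
  simp only [sq', place_sum, mul_sum]

/-- The colours of a full placement as a map. -/
theorem ok_emb {Q : Pos L 1} (h : Ok (Shape.one L) 0 (d + 1) Q) :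
    ∃ emb : Fin (d + 1) ↪ Fin Q.n, (∀ a c, Q.S.J (emb a) (emb c) = joinMat d Q.joins a c) ∧
      ∀ f : Fin Q.n → ℝ, (Q.col.map f).prod = ∏ a, f (emb a) := by
  have hl := h.len
  refine ⟨⟨fun a => Q.col[(a : ℕ)]'(by rw [hl]; exact a.2), fun a c e => Fin.ext ?_⟩, fun a c => ?_, fun f => ?_⟩
  · exact (h.nodup.getElem_inj_iff).1 e
  · exact (joinMat_eq Q a c (by rw [hl]; exact a.2) (by rw [hl]; exact c.2)).symm
  · rw [← List.prod_ofFn]
    congr 1
    refine List.ext_getElem (by simp only [List.length_map, List.length_ofFn, hl]) fun i h1 h2 => ?_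
    simp only [List.getElem_map, List.getElem_ofFn]
    rfl

/-- The indicator of a good shape with its increments. -/
noncomputable def tail (B : Sys L N) (G : Grid L) (l d : ℕ) (Q : Pos L 1) : ℝ :=
  haveI := Classical.propDecidable
  if Good l L (joinMat d Q.joins) then theta G B (joinMat d Q.joins) else 0

theorem bad_nonneg (l : ℕ) (Q : Pos L 1) : 0 ≤ bad l Q := by
  unfold bad; split_ifs <;> norm_num

theorem tail_nonneg (G : Grid L) (l d : ℕ) (Q : Pos L 1) : 0 ≤ tail B G l d Q := by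
  unfold tail; split_ifs
  · exact theta_nonneg _
  · exact le_rfl

theorem dev_nonneg {D : ℕ} {ε z : ℝ} (hz : 0 ≤ z) : 0 ≤ dev D ε z :=
  mul_nonneg two_pos.le (add_nonneg (omz_nonneg hz) (sqrt_nonneg _))

theorem devAt_le (hL : 0 < L) {D : ℕ} {η ε θ z : ℝ} (hId : B.Ident (uniformGrid L hL) (2 * D + 2) η)
    (hε : 0 < ε) (hε1 : ε ≤ 1) (hεl : ε ≤ (l : ℝ) / L) (hl8 : l + 8 ≤ L) (hd : d ≤ D) (hθ : 0 < θ)
    (hzθ : √θ ≤ z) (hzη : η * (L : ℝ) ^ numP D ≤ z) (hzL : 1 / (L : ℝ) ≤ z) {Q : Pos L 1}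
    (hQ : Ok (Shape.one L) 0 (d + 1) Q) :
    devAt B (uniformGrid L hL) Q
      ≤ dev D ε z + (2 * bad l Q + 2 / θ * tail B (uniformGrid L hL) l d Q) := by
  classical
  set G := uniformGrid L hL
  have h2 := devAt_le_two (B := B) G Q
  have hb : 0 ≤ 2 * bad l Q := by have := bad_nonneg l Q; positivity
  have ht : 0 ≤ 2 / θ * tail B G l d Q := mul_nonneg (by positivity) (tail_nonneg G l d Q)
  have hdev : 0 ≤ dev D ε z := dev_nonneg ((sqrt_nonneg _).trans hzθ)
  by_cases hg : Good l L Q.S.J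
  swap
  · have : bad l Q = 1 := if_neg hg
    linarith
  obtain ⟨emb, hJ, hprod⟩ := ok_emb hQ
  have hM : joinMat d Q.joins = (Q.S.comap emb).J := funext₂ fun a c => (hJ a c).symm
  have hg' : Good l L (Q.S.comap emb).J := hg.comap emb emb.injective
  by_cases hth : theta G B (Q.S.comap emb).J ≤ θ
  · have h := dev_good hL hId hε hε1 hεl hl8 hd hg' (incr_of_theta hth) hzθ hzη hzL Q.S emb
      fun a c => rfl
    have e : devAt B G Q = B.E G Q.S (fun o ξ => |(mean fun a => zprod B emb o ξ a) -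
        B.E G Q.S fun o ξ => mean fun a => zprod B emb o ξ a|) := by
      have e0 : (B.E G Q.S fun _ ξ => overlap Q.col (B.spins ξ))
          = B.E G Q.S fun o ξ => mean fun a => zprod B emb o ξ a :=
        sysE_congr _ fun o ξ _ => overlap_eq emb Q.col hprod o ξ
      unfold devAt
      rw [e0]
      exact sysE_congr _ fun o ξ _ => by rw [overlap_eq emb Q.col hprod o ξ]
    linarith
  · have e : tail B G l d Q = theta G B (Q.S.comap emb).J := by
      unfold tail; rw [hM, if_pos hg']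
    have : 2 ≤ 2 / θ * tail B G l d Q := by
      rw [e, div_mul_eq_mul_div, le_div_iff₀ hθ]
      linarith [not_le.1 hth]
    linarith

theorem seqMean_bad (hL : 0 < L) {D : ℕ} (hl : l < L) (hd : d ≤ D) :
    seqMean (uniformGrid L hL) d (bad l)
      ≤ D * ((2 * (D + 1) : ℕ) : ℝ) ^ D * (((l : ℝ) + 9 + 11 * ((D + 1 : ℕ) : ℝ) ^ 2) / L) := by
  rw [seqMean_eq]
  have h := bad_le hL hl (D + 1) d 1 (start (Shape.one L) 0) (Ok.start _ _) (by omega) Good.one
  have h0 : 0 ≤ sq' (uniformGrid L hL) d (start (Shape.one L) 0) (bad l) :=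
    le_of_eq_of_le (by rw [sq'_mul, zero_mul]) (sq'_mono (Ok.start _ _)
      (Φ := fun Q => 0 * bad l Q) fun Q _ => by rw [zero_mul]; exact bad_nonneg l Q)
  refine ((div_le_self h0 (Nat.one_le_cast.2 d.factorial_pos)).trans h).trans ?_
  refine mul_le_mul_of_nonneg_right (mul_le_mul (Nat.cast_le.2 hd) (pow_le_pow_right₀ ?_ hd)
    (by positivity) (by positivity)) (by positivity)
  exact_mod_cast (by omega : 1 ≤ 2 * (D + 1))

theorem seqMean_tail (hL : 0 < L) {D : ℕ} (hd : d ≤ D) :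
    seqMean (uniformGrid L hL) d (tail B (uniformGrid L hL) l d)
      ≤ upK D * (3 * ((d + 1 : ℕ) : ℝ) * ((d + 1) * (d + 1) : ℕ) *
          ((((d + 1) * (d + 1) : ℕ) : ℝ) + 4) ^ ((d + 1) * (d + 1)) / L) := by
  classical
  set G := uniformGrid L hL
  set P0 := start (Shape.one L) 0
  set S : Finset (MatL L (d + 1)) := univ.filter fun f => Good l L (natM f)
  let ind : MatL L (d + 1) → Pos L 1 → ℝ := fun f Q => if joinMat d Q.joins = natM f then 1 else 0
  have hle : ∀ Q, Ok (Shape.one L) 0 (d + 1) Q →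
      tail B G l d Q ≤ ∑ f ∈ S, theta G B (natM f) * ind f Q := by
    intro Q hQ
    have hnn : ∀ f ∈ S, 0 ≤ theta G B (natM f) * ind f Q := fun f _ =>
      mul_nonneg (theta_nonneg _) (by simp only [ind]; split_ifs <;> norm_num)
    unfold tail
    split_ifs with hg
    · obtain ⟨emb, hJ, -⟩ := ok_emb hQ
      let f : MatL L (d + 1) := fun p => ⟨joinMat d Q.joins p.1 p.2, Nat.lt_succ_of_le (by
        rw [← hJ]; exact le_top _ _ _)⟩
      have hf : natM f = joinMat d Q.joins := rfl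
      refine le_trans (le_of_eq ?_) (single_le_sum hnn (mem_filter.2 ⟨mem_univ f, hf ▸ hg⟩))
      simp [ind, hf]
    · exact sum_nonneg hnn
  have hone : ∀ f ∈ S, sq' G d P0 (ind f) ≤ upK D * (1 / (L : ℝ)) ^ (offs (natM f)).card := by
    intro f hf
    have hg : Good l L (natM f) := (mem_filter.1 hf).2
    have hoL : L ∉ offs (natM f) := fun h => by
      obtain ⟨a, c, hac, e⟩ := mem_offs.1 h
      have := hg.high a c hac; omega
    have hcard : (offs (natM f)).card ≤ numP D := offs_card_le.trans (by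
      have : (d + 1) ^ 2 ≤ (D + 1) ^ 2 := Nat.pow_le_pow_left (by omega) 2
      unfold numP; omega)
    have h := place_bound hL (Shape.one L) 0 (offs (natM f)) (fun _ _ => hoL) hoL (D := D) (q := d)
      (P := numP D) (by omega) (by omega) hcard (Φ := ind f) (A := 1) zero_le_one fun Q hQ => ?_
    · rw [mul_one] at h
      refine le_trans ?_ h
      rw [sq']
      exact (le_abs_self _).trans_eq (by rw [abs_mul, abs_pow, abs_neg, abs_one, one_pow, one_mul])
    · by_cases e : joinMat d Q.joins = natM f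
      · have hs : offs (natM f) ⊆ seen (offs (natM f)) Q := fun v hv => by
          obtain ⟨a, c, hac, hv'⟩ := mem_offs.1 hv
          refine mem_seen.2 ⟨hv, Q.col[(a : ℕ)]'(by rw [hQ.len]; exact a.2), List.getElem_mem _,
            Q.col[(c : ℕ)]'(by rw [hQ.len]; exact c.2), ?_⟩
          rw [← joinMat_eq Q a c (by rw [hQ.len]; exact a.2) (by rw [hQ.len]; exact c.2), e]
          exact hv'
        rw [if_pos hs]
        simp [ind, e]
      · simp only [ind, if_neg e, abs_zero]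
        split_ifs <;> norm_num
  rw [seqMean_eq]
  have h0 : 0 ≤ sq' G d P0 (tail B G l d) :=
    le_of_eq_of_le (by rw [sq'_mul, zero_mul]) (sq'_mono (Ok.start _ _)
      (Φ := fun Q => 0 * tail B G l d Q) fun Q _ => by rw [zero_mul]; exact tail_nonneg G l d Q)
  refine (div_le_self h0 (Nat.one_le_cast.2 d.factorial_pos)).trans ?_
  refine (sq'_mono (Ok.start _ _) fun Q hQ => hle Q (by rwa [Nat.add_comm] at hQ)).trans ?_
  rw [sq'_sum]
  refine le_trans (sum_le_sum (g := fun f => upK D * ((1 / (L : ℝ)) ^ (offs (natM f)).card *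
    theta G B (natM f))) fun f hf => ?_) ?_
  · rw [sq'_mul]
    refine (mul_le_mul_of_nonneg_left (hone f hf) (theta_nonneg _)).trans_eq ?_
    ring
  · rw [← mul_sum]
    exact mul_le_mul_of_nonneg_left (sum_theta hL S fun f hf => (mem_filter.1 hf).2) (upK_nonneg D)

end Vale.Agent.P168.Conc

namespace Vale.Agent.P168

open Filter Topology Conc

/-- Multioverlaps concentrate given the shape. -/
theorem concStmt : ConcStmt := by
  intro D e he
  set Kb : ℝ := D * ((2 * (D + 1) : ℕ) : ℝ) ^ D with hKb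
  have hKb0 : 0 ≤ Kb := by positivity
  set ε : ℝ := min (1 / 2) (e / (8 * (Kb + 1))) with hεdef
  have hε : 0 < ε := lt_min (by norm_num) (by positivity)
  have hε2 : ε ≤ 1 / 2 := min_le_left _ _
  have hεK : 2 * Kb * ε ≤ e / 4 := by
    calc 2 * Kb * ε ≤ 2 * (Kb + 1) * (e / (8 * (Kb + 1))) :=
          mul_le_mul (by linarith) (min_le_right _ _) hε.le (by linarith)
      _ = e / 4 := by field_simp; ring
  obtain ⟨δ, hδ, hdev⟩ := Metric.tendsto_nhds_nhds.1 (dev_tendsto D ε) (e / 4) (by positivity)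
  set z : ℝ := δ / 2 with hzdef
  have hz : 0 < z := by positivity
  have hdevz : dev D ε z ≤ e / 4 := by
    have := hdev (x := z) (by
      rw [Real.dist_eq, sub_zero, abs_of_pos hz]; linarith)
    rw [Real.dist_eq, sub_zero] at this
    exact (le_abs_self _).trans this.le
  set θ : ℝ := z ^ 2 with hθdef
  have hθ : 0 < θ := by positivity
  set K3 : ℝ := upK D * (3 * ((D + 1 : ℕ) : ℝ) * ((D + 1) * (D + 1) : ℕ) *
    ((((D + 1) * (D + 1) : ℕ) : ℝ) + 4) ^ ((D + 1) * (D + 1))) with hK3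
  have hK30 : 0 ≤ K3 := mul_nonneg (upK_nonneg D) (by positivity)
  set c2 : ℝ := 2 * Kb * (10 + 11 * ((D + 1 : ℕ) : ℝ) ^ 2) with hc2
  have hc20 : 0 ≤ c2 := by positivity
  obtain ⟨L₀, hL₀⟩ := exists_nat_gt
    (max (max (1 / z) 18) (max (4 * c2 / e) (4 * (2 / θ * K3) / e)))
  refine ⟨L₀, fun L hL hLL => ?_⟩
  have hLr : (L₀ : ℝ) ≤ L := Nat.cast_le.2 hLL
  have hb1 : 1 / z < L :=
    lt_of_lt_of_le (lt_of_le_of_lt ((le_max_left _ _).trans (le_max_left _ _)) hL₀) hLr
  have hb2 : (18 : ℝ) < L :=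
    lt_of_lt_of_le (lt_of_le_of_lt ((le_max_right _ _).trans (le_max_left _ _)) hL₀) hLr
  have hb3 : 4 * c2 / e < L :=
    lt_of_lt_of_le (lt_of_le_of_lt ((le_max_left _ _).trans (le_max_right _ _)) hL₀) hLr
  have hb4 : 4 * (2 / θ * K3) / e < L :=
    lt_of_lt_of_le (lt_of_le_of_lt ((le_max_right _ _).trans (le_max_right _ _)) hL₀) hLr
  have hLpos : (0 : ℝ) < L := Nat.cast_pos.2 hL
  set η₀ : ℝ := z / (L : ℝ) ^ numP D with hη₀
  have hη₀p : 0 < η₀ := by positivity
  refine ⟨2 / η₀, by positivity, fun N hN B η hId d hd => ?_⟩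
  set G := uniformGrid L hL
  have hη : 0 ≤ η := (abs_nonneg _).trans (hId 0 1 (by omega) (by omega) (Shape.one L) 0 (fun _ => 0)
    (fun _ => 0) (fun _ => by simp) (fun _ => by simp) fun _ _ _ => rfl)
  have hsd : B.seqDev G d = seqMean G d (devAt B G) := rfl
  rw [hsd]
  by_cases hcase : η ≤ η₀
  swap
  · refine ((seqMean_mono G d fun Q _ => devAt_le_two G Q).trans_eq (seqMean_const G d 2)).trans ?_
    have : 2 ≤ 2 / η₀ * η := by
      rw [div_mul_eq_mul_div, le_div_iff₀ hη₀p]; linarith [not_le.1 hcase]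
    linarith
  set l : ℕ := ⌈ε * L⌉₊ with hl
  have hlε : ε ≤ (l : ℝ) / L := by rw [le_div_iff₀ hLpos]; exact Nat.le_ceil _
  have hlu : (l : ℝ) < ε * L + 1 := Nat.ceil_lt_add_one (by positivity)
  have hl8 : l + 8 ≤ L := by
    have : (l : ℝ) + 8 ≤ L := by nlinarith
    exact_mod_cast this
  have hzθ : √θ ≤ z := le_of_eq (sqrt_sq hz.le)
  have hzη : η * (L : ℝ) ^ numP D ≤ z := by
    rw [hη₀, le_div_iff₀ (by positivity)] at hcase; exact hcase
  have hzL : 1 / (L : ℝ) ≤ z := by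
    rw [div_le_iff₀ hLpos]
    rw [div_lt_iff₀ hz] at hb1
    linarith
  refine (seqMean_mono G d fun Q hQ =>
    devAt_le hL hId hε (by linarith) hlε hl8 hd hθ hzθ hzη hzL hQ).trans ?_
  rw [seqMean_add, seqMean_add, seqMean_mul, seqMean_mul, seqMean_const]
  have hbad : 2 * seqMean G d (bad l) ≤ e / 2 := by
    have h1 := seqMean_bad (D := D) hL (show l < L by omega) hd
    have h2 : ((l : ℝ) + 9 + 11 * ((D + 1 : ℕ) : ℝ) ^ 2) / L
        ≤ ε + (10 + 11 * ((D + 1 : ℕ) : ℝ) ^ 2) / L := by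
      rw [div_le_iff₀ hLpos, add_mul, div_mul_cancel₀ _ hLpos.ne']; linarith
    have h3 : 2 * Kb * ((10 + 11 * ((D + 1 : ℕ) : ℝ) ^ 2) / L) ≤ e / 4 := by
      rw [← mul_div_assoc, div_le_iff₀ hLpos, ← hc2]
      rw [div_lt_iff₀ he] at hb3
      linarith
    have h4 := mul_le_mul_of_nonneg_left h2 hKb0
    rw [← hKb] at h1
    linarith
  have htail : 2 / θ * seqMean G d (tail B G l d) ≤ e / 4 := by
    have h1 := seqMean_tail (B := B) (l := l) hL hd
    have h2 : seqMean G d (tail B G l d) ≤ K3 / L := by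
      refine h1.trans ?_
      rw [← mul_div_assoc, hK3]
      refine div_le_div_of_nonneg_right (mul_le_mul_of_nonneg_left ?_ (upK_nonneg D)) hLpos.le
      have hn : d + 1 ≤ D + 1 := by omega
      have hnn : (d + 1) * (d + 1) ≤ (D + 1) * (D + 1) := Nat.mul_le_mul hn hn
      gcongr ?_ * ?_ * ?_
      · gcongr
      · exact_mod_cast hnn
      · refine (pow_le_pow_left₀ (by positivity) (add_le_add (Nat.cast_le.2 hnn) le_rfl) _).trans
          (pow_le_pow_right₀ ?_ hnn)
        have : (0 : ℝ) ≤ ((D + 1) * (D + 1) : ℕ) := Nat.cast_nonneg _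
        linarith
    have h3 := mul_le_mul_of_nonneg_left h2 (show (0 : ℝ) ≤ 2 / θ by positivity)
    refine h3.trans ?_
    rw [← mul_div_assoc, div_le_iff₀ hLpos]
    rw [div_lt_iff₀ he] at hb4
    linarith
  have hC : 0 ≤ 2 / η₀ * η := by positivity
  linarith

end Vale.Agent.P168
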