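import Vale.Agent.P168.Conc.Place

/-!
# P168, concentration: good shapes, patterns of colours and their weights
-/

open Real Finset

namespace Vale.Agent.P168.Conc

variable {L l b n q k : ℕ}

/-- A good matrix of joins: levels above `l`, far apart, one node per level. -/
structure Good (l L : ℕ) (J : Fin n → Fin n → ℕ) : Prop where
  self : ∀ a, J a a = L
  symm : ∀ a c, J a c = J c a
  ultra : ∀ a c e, min (J a c) (J c e) ≤ J a e
  low : ∀ a c, a ≠ c → l < J a c
  high : ∀ a c, a ≠ c → J a c + 8 ≤ L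
  sep : ∀ a c a' c', a ≠ c → a' ≠ c' → J a c < J a' c' → J a c + 6 ≤ J a' c'
  node : ∀ a c a' c', a ≠ c → a' ≠ c' → J a c = J a' c' → J a c ≤ J a a'

theorem Good.comap {J : Fin n → Fin n → ℕ} (h : Good l L J) {a : ℕ} (e : Fin a → Fin n)
    (he : Function.Injective e) : Good l L fun x y => J (e x) (e y) where
  self := fun x => h.self _
  symm := fun x y => h.symm _ _
  ultra := fun x y z => h.ultra _ _ _
  low := fun x y hxy => h.low _ _ (he.ne hxy)
  high := fun x y hxy => h.high _ _ (he.ne hxy)
  sep := fun x y x' y' h1 h2 => h.sep _ _ _ _ (he.ne h1) (he.ne h2)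
  node := fun x y x' y' h1 h2 => h.node _ _ _ _ (he.ne h1) (he.ne h2)

theorem Good.one : Good l L (Shape.one L).J where
  self := fun _ => rfl
  symm := fun _ _ => rfl
  ultra := fun _ _ _ => by simp [Shape.one]
  low := fun a c h => absurd (Subsingleton.elim a c) h
  high := fun a c h => absurd (Subsingleton.elim a c) h
  sep := fun a c _ _ h => absurd (Subsingleton.elim a c) h
  node := fun a c _ _ h => absurd (Subsingleton.elim a c) h

/-! ### Shapes built from shapes -/

/-- All levels moved by `σ`. -/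
def shiftS (S : Shape L n) (σ : ℕ) (h : ∀ a c, a ≠ c → S.J a c + σ < L) : Shape L n where
  J := fun a c => if a = c then L else S.J a c + σ
  self := fun a => if_pos rfl
  ne := fun a c hac => by rw [if_neg hac]; exact h a c hac
  symm := fun a c => by
    by_cases hac : a = c
    · subst hac; rfl
    · rw [if_neg hac, if_neg (Ne.symm hac), S.symm]
  ultra := fun a c e => by
    by_cases hae : a = e
    · rw [if_pos hae]
      split_ifs with h1 h2 h2
      · exact (min_self L).le
      · exact min_le_left _ _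
      · exact min_le_right _ _
      · exact (min_le_left _ _).trans (h a c h1).le
    · rw [if_neg hae]
      by_cases h1 : a = c
      · subst h1; rw [if_pos rfl, if_neg hae]; exact min_le_right _ _
      by_cases h2 : c = e
      · subst h2; rw [if_neg h1, if_pos rfl]; exact min_le_left _ _
      rw [if_neg h1, if_neg h2]
      have := S.ultra a c e
      omega

/-- Two shapes in two children of a node of level `j`. -/
def join2 (j : ℕ) {n₁ n₂ : ℕ} (S₁ : Shape L n₁) (S₂ : Shape L n₂) (hj : j < L)
    (h₁ : ∀ a c, j ≤ S₁.J a c) (h₂ : ∀ a c, j ≤ S₂.J a c) : Shape L (n₁ + n₂) where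
  J := Fin.addCases (fun a => Fin.addCases (fun c => S₁.J a c) fun _ => j)
    (fun a => Fin.addCases (fun _ => j) fun c => S₂.J a c)
  self := fun a => by
    induction a using Fin.addCases with
    | left a => simp [S₁.self]
    | right a => simp [S₂.self]
  ne := fun a c hac => by
    induction a using Fin.addCases with
    | left a =>
      induction c using Fin.addCases with
      | left c => simpa using S₁.ne a c fun e => hac (congrArg _ e)
      | right c => simpa using hj
    | right a =>
      induction c using Fin.addCases with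
      | left c => simpa using hj
      | right c => simpa using S₂.ne a c fun e => hac (congrArg _ e)
  symm := fun a c => by
    induction a using Fin.addCases with
    | left a => induction c using Fin.addCases with
      | left c => simpa using S₁.symm a c
      | right c => simp
    | right a => induction c using Fin.addCases with
      | left c => simp
      | right c => simpa using S₂.symm a c
  ultra := fun a c e => by
    induction a using Fin.addCases with
    | left a =>
      induction c using Fin.addCases with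
      | left c =>
        induction e using Fin.addCases with
        | left e => simpa using S₁.ultra a c e
        | right e => simp
      | right c =>
        induction e using Fin.addCases with
        | left e => simpa using h₁ a e
        | right e => simp
    | right a =>
      induction c using Fin.addCases with
      | left c =>
        induction e using Fin.addCases with
        | left e => simp
        | right e => simpa using h₂ a e
      | right c =>
        induction e using Fin.addCases with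
        | left e => simp
        | right e => simpa using S₂.ultra a c e

theorem shiftS_good {S : Shape L n} {σ : ℕ} (h : ∀ a c, a ≠ c → S.J a c + σ < L) {a c : Fin n} (hac : a ≠ c) :
    (shiftS S σ h).J a c = S.J a c + σ := if_neg hac

theorem offs_shift {S : Shape L n} {σ : ℕ} (h : ∀ a c, a ≠ c → S.J a c + σ < L) :
    offs (shiftS S σ h).J = (offs S.J).image (· + σ) := by
  ext t
  simp only [mem_offs, mem_image]
  constructor
  · rintro ⟨a, c, hac, rfl⟩; exact ⟨_, ⟨a, c, hac, rfl⟩, (shiftS_good h hac).symm⟩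
  · rintro ⟨_, ⟨a, c, hac, rfl⟩, rfl⟩; exact ⟨a, c, hac, shiftS_good h hac⟩

/-! ### Joins of the colours -/

theorem joinMat_eq (P : Pos L b) (a c : Fin (q + 1)) (ha : (a : ℕ) < P.col.length)
    (hc : (c : ℕ) < P.col.length) :
    joinMat q P.joins a c = P.S.J P.col[(a : ℕ)] P.col[(c : ℕ)] := by
  simp [joinMat, Pos.joins, List.getD_eq_getElem?_getD, ha, hc]

/-- The indicator of one pattern of the joins, up to renaming the colours after the first. -/
noncomputable def kap (Sp : Fin (q + 1) → Fin (q + 1) → ℕ) (M : Fin (q + 1) → Fin (q + 1) → ℕ) : ℝ :=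
  haveI := Classical.propDecidable
  if ∃ e : Equiv.Perm (Fin (q + 1)), e 0 = 0 ∧ ∀ a c, M (e a) (e c) = Sp a c then 1 else 0

theorem kap_nonneg (Sp M : Fin (q + 1) → Fin (q + 1) → ℕ) : 0 ≤ kap Sp M := by
  unfold kap; split_ifs <;> norm_num

theorem abs_kap_le (Sp M : Fin (q + 1) → Fin (q + 1) → ℕ) : |kap Sp M| ≤ 1 := by
  unfold kap; split_ifs <;> norm_num

theorem kap_self (Sp : Fin (q + 1) → Fin (q + 1) → ℕ) : kap Sp Sp = 1 := by
  rw [kap, if_pos ⟨1, rfl, fun _ _ => rfl⟩]

theorem kap_perm (Sp : Fin (q + 1) → Fin (q + 1) → ℕ) (e : Equiv.Perm (Fin (q + 1))) (M) (he : e 0 = 0) :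
    kap Sp (fun a c => M (e a) (e c)) = kap Sp M := by
  have : (∃ e' : Equiv.Perm (Fin (q + 1)), e' 0 = 0 ∧ ∀ a c, M (e (e' a)) (e (e' c)) = Sp a c) ↔
      ∃ e' : Equiv.Perm (Fin (q + 1)), e' 0 = 0 ∧ ∀ a c, M (e' a) (e' c) = Sp a c := by
    constructor
    · rintro ⟨e', h0, h⟩; exact ⟨e'.trans e, by simp [h0, he], fun a c => by simpa using h a c⟩
    · rintro ⟨e', h0, h⟩
      refine ⟨e'.trans e.symm, ?_, fun a c => by simpa using h a c⟩
      simp only [Equiv.trans_apply, h0]
      exact e.injective (by simp [he])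
  unfold kap
  by_cases h : ∃ e' : Equiv.Perm (Fin (q + 1)), e' 0 = 0 ∧ ∀ a c, M (e' a) (e' c) = Sp a c
  · rw [if_pos h, if_pos (this.2 h)]
  · rw [if_neg h, if_neg fun h' => h (this.1 h')]

variable {S : Shape L b} {r : Fin b}

/-- Colours with a given pattern. -/
theorem kap_emb {Q : Pos L b} (h : Ok S r (q + 1) Q) {Sp : Fin (q + 1) → Fin (q + 1) → ℕ}
    (hk : kap Sp (joinMat q Q.joins) ≠ 0) :
    ∃ emb : Fin (q + 1) → Fin Q.n, emb 0 = Q.base r ∧ (∀ z ∈ Q.col, ∃ a, emb a = z) ∧
      (∀ a, emb a ∈ Q.col) ∧ (∀ a c, Q.S.J (emb a) (emb c) = Sp a c) ∧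
      ∀ f : Fin Q.n → ℝ, (Q.col.map f).prod = ∏ a, f (emb a) := by
  unfold kap at hk
  split_ifs at hk with he
  · obtain ⟨e, he0, he⟩ := he
    have hlen := h.len
    refine ⟨fun a => Q.col[((e a : Fin (q + 1)) : ℕ)]'(by rw [hlen]; exact (e a).2), ?_, ?_,
      fun a => List.getElem_mem _, fun a c => ?_, fun f => ?_⟩
    · have hh := h.head
      rw [List.head?_eq_getElem?] at hh
      obtain ⟨hlt, hh⟩ := List.getElem?_eq_some_iff.1 hh
      simp only [he0]
      exact hh
    · intro z hz
      obtain ⟨i, hi, rfl⟩ := List.getElem_of_mem hz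
      exact ⟨e.symm ⟨i, by omega⟩, by simp⟩
    · rw [← he a c, joinMat_eq Q _ _ (by rw [hlen]; exact (e a).2) (by rw [hlen]; exact (e c).2)]
    · rw [Equiv.prod_comp e fun a : Fin (q + 1) => f (Q.col[(a : ℕ)]'(by rw [hlen]; exact a.2)),
        ← List.prod_ofFn]
      congr 1
      refine List.ext_getElem (by simp only [List.length_map, List.length_ofFn, hlen]) fun i h1 h2 => ?_
      simp only [List.getElem_map, List.getElem_ofFn]
  · exact absurd rfl hk

/-! ### The weight of one pattern from below -/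

/-- The levels of the pattern that the first `k + 1` colours do not have. -/
def todo (Sp : Fin (q + 1) → Fin (q + 1) → ℕ) (k : ℕ) : Finset ℕ :=
  offs Sp \ (univ.filter fun p : Fin (q + 1) × Fin (q + 1) =>
    p.1 ≠ p.2 ∧ (p.1 : ℕ) ≤ k ∧ (p.2 : ℕ) ≤ k).image fun p => Sp p.1 p.2

theorem attW_lower (hL : 0 < L) {m : ℕ} (S : Shape L m) {ε : ℝ} (hε : 0 ≤ ε) (hε1 : ε ≤ 1) {t : ℕ}
    (ht : t < L) (hεt : ε ≤ (t : ℝ) / L) (i : Fin m) :
    ε / (m : ℝ) ^ 2 * (if ∃ z, S.J i z = t then 1 else 1 / (L : ℝ)) ≤ S.attW (uniformGrid L hL) i t := by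
  have hm : (1 : ℝ) ≤ m := by exact_mod_cast Nat.one_le_iff_ne_zero.2 fun h => by subst h; exact i.elim0
  have ha : (0 : ℝ) < S.sz (t + 1) i := Nat.cast_pos.2 (sz_pos S ht i)
  have hb : (S.sz t i : ℝ) ≤ m := by exact_mod_cast (card_le_univ _).trans_eq (Fintype.card_fin _)
  have e1 : (uniformGrid L hL).m (t + 1) = (uniformGrid L hL).m t + 1 / L := by
    show ((t + 1 : ℕ) : ℝ) / L = (t : ℝ) / L + 1 / L
    push_cast; ring
  have ht0 : (0 : ℝ) ≤ (uniformGrid L hL).m t := le_trans hε hεt
  rw [Shape.attW, e1]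
  split_ifs with h
  · obtain ⟨z, hz⟩ := h
    have hlt : S.sz (t + 1) i < S.sz t i := card_lt_card
      ⟨fun y hy => (mem_cls S).2 (by have := (mem_cls S).1 hy; omega), fun hsub => by
        have h1 := (mem_cls S).1 (hsub ((mem_cls S).2 hz.ge))
        omega⟩
    have hlt' : (S.sz (t + 1) i : ℝ) + 1 ≤ S.sz t i := by exact_mod_cast hlt
    set a := (S.sz (t + 1) i : ℝ)
    set c := (uniformGrid L hL).m t
    have hb0 : 0 < (S.sz t i : ℝ) := by linarith
    rw [mul_one]
    calc ε / (m : ℝ) ^ 2 ≤ c / (m : ℝ) ^ 2 := div_le_div_of_nonneg_right hεt (sq_nonneg _)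
      _ ≤ c / (a * (a + 1)) := div_le_div_of_nonneg_left ht0 (by positivity) (by nlinarith)
      _ = c / a - c / (a + 1) := by field_simp; ring
      _ ≤ (c + 1 / L) / a - c / S.sz t i :=
        sub_le_sub (div_le_div_of_nonneg_right (le_add_of_nonneg_right (by positivity)) ha.le)
          (div_le_div_of_nonneg_left ht0 (by positivity) hlt')
  · simp only [not_exists] at h
    rw [sz_succ_eq S h, add_div, add_sub_cancel_left]
    have hb0 : 0 < (S.sz t i : ℝ) := Nat.cast_pos.2 (sz_pos S ht.le i)
    calc ε / (m : ℝ) ^ 2 * (1 / L) ≤ 1 / (S.sz t i : ℝ) * (1 / L) := by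
          refine mul_le_mul_of_nonneg_right ?_ (by positivity)
          rw [div_le_div_iff₀ (by positivity) hb0]
          nlinarith
      _ = _ := by ring

theorem sq'_lower (hL : 0 < L) (Sp : Shape L (q + 1)) {ε : ℝ} (hε : 0 ≤ ε) (hε1 : ε ≤ 1)
    (hlow : ∀ a c, a ≠ c → ε ≤ (Sp.J a c : ℝ) / L)
    (hnode : ∀ a c a' c', a ≠ c → a' ≠ c' → Sp.J a c = Sp.J a' c' → Sp.J a c ≤ Sp.J a a') :
    ∀ (e k : ℕ) (P : Pos L 1), k + e = q → Ok (Shape.one L) 0 (k + 1) P →
      (∀ a c : Fin (q + 1), (a : ℕ) ≤ k → (c : ℕ) ≤ k → joinMat q P.joins a c = Sp.J a c) →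
      (ε / ((q : ℝ) + 1) ^ 2) ^ e * (1 / (L : ℝ)) ^ (todo Sp.J k).card
        ≤ sq' (uniformGrid L hL) e P fun Q => kap Sp.J (joinMat q Q.joins) := by
  intro e
  induction e with
  | zero =>
    intro k P hk _ hpre
    rw [sq', Pos.place, show joinMat q P.joins = Sp.J from
      funext₂ fun a c => hpre a c (by omega) (by omega), kap_self]
    rw [pow_zero, pow_zero, one_mul, one_mul]
    exact pow_le_one₀ (by positivity) (by rw [div_le_one (Nat.cast_pos.2 hL)]; exact_mod_cast hL)
  | succ e ih =>
    intro k P hk h hpre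
    classical
    have hlen := h.len
    let nw : Fin (q + 1) := ⟨k + 1, by omega⟩
    obtain ⟨a0, ha0, hmax⟩ := exists_max_image (univ.filter fun a : Fin (q + 1) => (a : ℕ) ≤ k)
      (fun a => Sp.J nw a) ⟨0, by simp⟩
    simp only [mem_filter, mem_univ, true_and] at ha0 hmax
    have hne : nw ≠ a0 := fun e => by rw [← e] at ha0; simp [nw] at ha0
    have htL : Sp.J nw a0 < L := Sp.ne _ _ hne
    set t : Fin L := ⟨Sp.J nw a0, htL⟩ with ht
    set i := P.col[(a0 : ℕ)]'(by omega) with hi
    have hrow : ∀ c : Fin (q + 1), (hc : (c : ℕ) ≤ k) →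
        min (t : ℕ) (P.S.J i (P.col[(c : ℕ)]'(by omega))) = Sp.J nw c := fun c hc => by
      have e := hpre a0 c ha0 hc
      rw [joinMat_eq P a0 c (by omega) (by omega)] at e
      rw [hi, e]
      have h1 := Sp.ultra nw a0 c; have h2 := Sp.ultra a0 nw c; have h3 := hmax c hc
      have h4 := Sp.symm a0 nw
      show min (Sp.J nw a0) _ = _
      omega
    have hpre' : ∀ a c : Fin (q + 1), (a : ℕ) ≤ k + 1 → (c : ℕ) ≤ k + 1 →
        joinMat q (P.new i t).joins a c = Sp.J a c := by
      intro a c ha hc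
      have hl' : (P.new i t).col.length = k + 2 := by simp [Pos.new, hlen]
      rw [joinMat_eq _ a c (by omega) (by omega)]
      show (P.S.extJ i t) ((P.col.map Fin.castSucc ++ [Fin.last P.n])[(a : ℕ)]'(by simp [hlen]; omega))
        ((P.col.map Fin.castSucc ++ [Fin.last P.n])[(c : ℕ)]'(by simp [hlen]; omega)) = _
      have get : ∀ x : Fin (q + 1), (hx : (x : ℕ) ≤ k + 1) →
          (x = nw ∧ (P.col.map Fin.castSucc ++ [Fin.last P.n])[(x : ℕ)]'(by simp [hlen]; omega) = Fin.last P.n) ∨
          ∃ hx' : (x : ℕ) ≤ k, (P.col.map Fin.castSucc ++ [Fin.last P.n])[(x : ℕ)]'(by simp [hlen]; omega)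
            = (P.col[(x : ℕ)]'(by omega)).castSucc := fun x hx => by
        by_cases hx' : (x : ℕ) ≤ k
        · exact Or.inr ⟨hx', by rw [List.getElem_append_left (by simp [hlen]; omega)]; simp⟩
        · refine Or.inl ⟨Fin.ext (by simp [nw]; omega), ?_⟩
          rw [List.getElem_append_right (by simp [hlen]; omega)]
          simp
      rcases get a ha with ⟨rfl, e1⟩ | ⟨ha', e1⟩ <;> rcases get c hc with ⟨rfl, e2⟩ | ⟨hc', e2⟩ <;>
        simp only [e1, e2]
      · simp [Shape.extJ, Sp.self]
      · simpa [Shape.extJ] using hrow c hc'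
      · rw [Sp.symm]; simpa [Shape.extJ] using hrow a ha'
      · simp only [Shape.extJ, Fin.snoc_castSucc]
        rw [← hpre a c ha' hc', joinMat_eq P a c (by omega) (by omega)]
    have hεt : ε ≤ ((t : ℕ) : ℝ) / L := hlow nw a0 hne
    have hw := attW_lower hL P.S hε hε1 t.2 hεt i
    have hin : todo Sp.J (k + 1) ⊆ todo Sp.J k := sdiff_subset_sdiff le_rfl
      (image_subset_image fun p hp => by simp at hp ⊢; omega)
    have hdrop : (¬ ∃ z, P.S.J i z = t) → (todo Sp.J (k + 1)).card + 1 ≤ (todo Sp.J k).card := by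
      intro hno
      have hmem : Sp.J nw a0 ∈ todo Sp.J k := by
        refine mem_sdiff.2 ⟨mem_offs.2 ⟨_, _, hne, rfl⟩, fun hm => hno ?_⟩
        simp only [mem_image, mem_filter, mem_univ, true_and] at hm
        obtain ⟨⟨a, c⟩, ⟨hac, ha, hc⟩, hv⟩ := hm
        simp only at hac ha hc hv
        have h1 := hnode a0 nw a c (Ne.symm hne) hac (by rw [Sp.symm, hv])
        rw [Sp.symm a0 nw] at h1
        have h2 := Sp.ultra a0 a c; have h3 := Sp.ultra a a0 c; have h4 := Sp.symm a a0
        have hx : Sp.J a0 a = Sp.J nw a0 ∨ Sp.J a0 c = Sp.J nw a0 := by omega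
        rcases hx with hx | hx
        · exact ⟨P.col[(a : ℕ)]'(by omega), by
            rw [hi, ← joinMat_eq P a0 a (by omega) (by omega), hpre a0 a ha0 ha]; exact hx⟩
        · exact ⟨P.col[(c : ℕ)]'(by omega), by
            rw [hi, ← joinMat_eq P a0 c (by omega) (by omega), hpre a0 c ha0 hc]; exact hx⟩
      refine Nat.lt_iff_add_one_le.1 (card_lt_card ⟨hin, fun hsub => ?_⟩)
      refine (mem_sdiff.1 (hsub hmem)).2 (mem_image.2 ⟨(nw, a0), ?_, rfl⟩)
      simp [hne, nw]; omega
    have hn : (P.n : ℝ) ≤ q + 1 := by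
      have := h.size
      exact_mod_cast (by omega : P.n ≤ q + 1)
    have ih' := ih (k + 1) (P.new i t) (by omega) (h.new i t) hpre'
    set c := ε / ((q : ℝ) + 1) ^ 2
    set μ : ℝ := 1 / L
    have hμ0 : 0 ≤ μ := by positivity
    have hμ1 : μ ≤ 1 := by
      rw [div_le_one (Nat.cast_pos.2 hL)]; exact_mod_cast hL
    have hnn : ∀ (i : Fin P.n) (t : Fin L), 0 ≤ P.S.attW (uniformGrid L hL) i t *
        sq' (uniformGrid L hL) e (P.new i t) fun Q => kap Sp.J (joinMat q Q.joins) := fun i t => by
      refine mul_nonneg (attW_nonneg _ _ t.2 i) ?_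
      have := sq'_mono (G := uniformGrid L hL) (h.new i t) (q := e)
        (Φ := fun Q => 0 * kap Sp.J (joinMat q Q.joins))
        (Ψ := fun Q => kap Sp.J (joinMat q Q.joins)) fun Q _ => by simpa using kap_nonneg _ _
      rw [sq'_mul, zero_mul] at this
      exact this
    rw [sq'_succ h]
    refine le_trans ?_ ((single_le_sum (fun t _ => hnn i t) (mem_univ t)).trans
      (single_le_sum (fun i _ => sum_nonneg fun t _ => hnn i t) (mem_univ i)))
    have hcn : c ≤ ε / (P.n : ℝ) ^ 2 := by
      have hp : (1 : ℝ) ≤ P.n := by exact_mod_cast (show 1 ≤ P.n from Fin.pos i)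
      exact div_le_div_of_nonneg_left hε (by positivity) (by gcongr)
    set ω : ℝ := if ∃ z, P.S.J i z = t then 1 else μ with hω
    have hω0 : 0 ≤ ω := by rw [hω]; split_ifs <;> positivity
    refine le_trans ?_ (mul_le_mul ((mul_le_mul_of_nonneg_right hcn hω0).trans hw) ih' (by positivity)
      (attW_nonneg _ _ t.2 i))
    have hpow : μ ^ (todo Sp.J k).card ≤ ω * μ ^ (todo Sp.J (k + 1)).card := by
      rw [hω]
      split_ifs with hb
      · rw [one_mul]; exact pow_le_pow_of_le_one hμ0 hμ1 (card_le_card hin)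
      · rw [← pow_succ']; exact pow_le_pow_of_le_one hμ0 hμ1 (hdrop hb)
    calc c ^ (e + 1) * μ ^ (todo Sp.J k).card
        ≤ c ^ (e + 1) * (ω * μ ^ (todo Sp.J (k + 1)).card) := mul_le_mul_of_nonneg_left hpow (by positivity)
      _ = _ := by ring

/-! ### Bad shapes are rare -/

/-- Levels that make a good shape bad. -/
def near (l L : ℕ) {m : ℕ} (J : Fin m → Fin m → ℕ) : Finset ℕ :=
  Ico (L - 8) L ∪ (offs J).biUnion fun v => Ico (v - 5) (v + 6)

theorem good_ext {m : ℕ} {S : Shape L m} (h : Good l L S.J) (i : Fin m) (t : Fin L) (hl : l < (t : ℕ))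
    (ht : (t : ℕ) ∉ near l L S.J ∨ ∃ z, S.J i z = t) : Good l L (S.ext i t t.2).J := by
  have hn : (∃ z, z ≠ i ∧ S.J i z = t) ∨ ((t : ℕ) + 8 ≤ L ∧ ∀ a c, a ≠ c →
      (t : ℕ) + 6 ≤ S.J a c ∨ S.J a c + 6 ≤ t) := by
    rcases ht with ht | ⟨z, hz⟩
    · right
      simp only [near, mem_union, mem_biUnion, mem_Ico, not_or, not_exists, not_and] at ht
      have := t.2
      refine ⟨by omega, fun a c hac => ?_⟩
      have := ht.2 (S.J a c) (mem_offs.2 ⟨a, c, hac, rfl⟩)
      omega
    · refine Or.inl ⟨z, fun e => ?_, hz⟩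
      subst e; rw [S.self] at hz; have := t.2; omega
  -- a pair of the new shape is old, or has the new level, and is then near the new replica
  have hpair : ∀ x y : Fin (m + 1), x ≠ y → (∃ a c, a ≠ c ∧ (S.ext i t t.2).J x y = S.J a c ∧
      (S.J a c ≤ (S.ext i t t.2).J x a.castSucc ∧ S.J a c ≤ (S.ext i t t.2).J x c.castSucc)) ∨
      ((S.ext i t t.2).J x y = t ∧ (t : ℕ) ≤ (S.ext i t t.2).J x (Fin.last m)) := by
    intro x y hxy
    show (∃ a c, a ≠ c ∧ S.extJ i t x y = S.J a c ∧ _) ∨ _
    simp only [Shape.ext]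
    have via : ∀ a : Fin m, min (t : ℕ) (S.J i a) ≠ t → (a ≠ i ∧ min (t : ℕ) (S.J i a) = S.J i a) :=
      fun a ha => ⟨fun e => ha (by subst e; rw [S.self]; exact min_eq_left t.2.le), by omega⟩
    induction x using Fin.lastCases with
    | last =>
      induction y using Fin.lastCases with
      | last => exact absurd rfl hxy
      | cast y =>
        by_cases hy : min (t : ℕ) (S.J i y) = t
        · exact Or.inr ⟨by simpa [Shape.extJ] using hy, by simp [Shape.extJ]⟩
        · obtain ⟨hyi, hy'⟩ := via y hy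
          refine Or.inl ⟨i, y, hyi.symm, by simpa [Shape.extJ] using hy', ?_, ?_⟩ <;>
            simp [Shape.extJ, S.self] <;> omega
    | cast x =>
      induction y using Fin.lastCases with
      | last =>
        by_cases hy : min (t : ℕ) (S.J i x) = t
        · exact Or.inr ⟨by simpa [Shape.extJ] using hy, by simp [Shape.extJ]; omega⟩
        · obtain ⟨hyi, hy'⟩ := via x hy
          refine Or.inl ⟨x, i, hyi, by simpa [Shape.extJ, S.symm x i] using hy', ?_, ?_⟩ <;>
            simp [Shape.extJ, S.self, S.symm x i]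
          all_goals have := le_top S i x
          all_goals omega
      | cast y =>
        refine Or.inl ⟨x, y, fun e => hxy (congrArg _ e), by simp [Shape.extJ], ?_, ?_⟩ <;>
          simp [Shape.extJ, S.self]
        exact le_top S x y
  set S' := S.ext i t t.2
  refine ⟨S'.self, S'.symm, S'.ultra, fun x y hxy => ?_, fun x y hxy => ?_, fun x y x' y' h1 h2 hlt => ?_,
    fun x y x' y' h1 h2 heq => ?_⟩
  · rcases hpair x y hxy with ⟨a, c, hac, e, -⟩ | ⟨e, -⟩
    · rw [e]; exact h.low a c hac
    · rw [e]; exact hl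
  · rcases hpair x y hxy with ⟨a, c, hac, e, -⟩ | ⟨e, -⟩
    · rw [e]; exact h.high a c hac
    · rw [e]
      rcases hn with ⟨z, hzi, hz⟩ | ⟨h8, -⟩
      · rw [← hz]; exact h.high i z hzi.symm
      · exact h8
  · rcases hpair x y h1 with ⟨a, c, hac, e, -⟩ | ⟨e, -⟩ <;>
      rcases hpair x' y' h2 with ⟨a', c', hac', e', -⟩ | ⟨e', -⟩ <;> rw [e, e'] at hlt ⊢
    · exact h.sep a c a' c' hac hac' hlt
    · rcases hn with ⟨z, hzi, hz⟩ | ⟨-, hfar⟩
      · rw [← hz] at hlt ⊢; exact h.sep a c i z hac hzi.symm hlt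
      · have := hfar a c hac; omega
    · rcases hn with ⟨z, hzi, hz⟩ | ⟨-, hfar⟩
      · rw [← hz] at hlt ⊢; exact h.sep i z a' c' hzi.symm hac' hlt
      · have := hfar a' c' hac'; omega
    · omega
  · -- both pairs lie in the node of their common level
    have hold : ∀ a c : Fin m, S'.J a.castSucc c.castSucc = S.J a c := fun a c => by
      simp [S', Shape.ext, Shape.extJ]
    have hlast : ∀ a : Fin m, S'.J a.castSucc (Fin.last m) = min (t : ℕ) (S.J i a) := fun a => by
      simp [S', Shape.ext, Shape.extJ]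
    rcases hpair x y h1 with ⟨a, c, hac, e, hxa, hxc⟩ | ⟨e, hx⟩ <;>
      rcases hpair x' y' h2 with ⟨a', c', hac', e', hxa', hxc'⟩ | ⟨e', hx'⟩
    · have hh := h.node a c a' c' hac hac' (by omega)
      have := S'.ultra x a.castSucc a'.castSucc; have := S'.ultra x a'.castSucc x'
      have := S'.symm x' a'.castSucc; have := hold a a'
      omega
    · rcases hn with ⟨z, hzi, hz⟩ | ⟨-, hfar⟩
      · have hh := h.node a c i z hac hzi.symm (by omega)
        have := S'.ultra x a.castSucc i.castSucc; have := S'.ultra x i.castSucc (Fin.last m)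
        have := S'.ultra x (Fin.last m) x'
        have := S'.symm x' (Fin.last m); have := hold a i
        have hi := hlast i
        rw [S.self, min_eq_left t.2.le] at hi
        omega
      · exfalso; have := hfar a c hac; omega
    · rcases hn with ⟨z, hzi, hz⟩ | ⟨-, hfar⟩
      · have hh := h.node a' c' i z hac' hzi.symm (by omega)
        have := S'.ultra x' a'.castSucc i.castSucc; have := S'.ultra x' i.castSucc (Fin.last m)
        have := S'.ultra x (Fin.last m) x'
        have := S'.symm x' (Fin.last m); have := hold a' i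
        have hi := hlast i
        rw [S.self, min_eq_left t.2.le] at hi
        omega
      · exfalso; have := hfar a' c' hac'; omega
    · have := S'.ultra x (Fin.last m) x'; have := S'.symm x' (Fin.last m)
      omega

theorem card_near_le {m : ℕ} (J : Fin m → Fin m → ℕ) : (near l L J).card ≤ 8 + 11 * m ^ 2 := by
  refine (card_union_le _ _).trans (add_le_add (by simp; omega) ?_)
  refine (card_biUnion_le_card_mul _ _ 11 fun v _ => by simp; omega).trans ?_
  rw [Nat.mul_comm]
  refine Nat.mul_le_mul_left _ (card_image_le.trans ((card_le_univ _).trans_eq ?_))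
  simp [sq]

/-- The indicator of a bad shape. -/
noncomputable def bad (l : ℕ) (Q : Pos L b) : ℝ :=
  haveI := Classical.propDecidable
  if Good l L Q.S.J then 0 else 1

theorem bad_le (hL : 0 < L) (hl : l < L) (M : ℕ) : ∀ (e k : ℕ) (P : Pos L 1),
    Ok (Shape.one L) 0 k P → k + e ≤ M → Good l L P.S.J →
      sq' (uniformGrid L hL) e P (bad l)
        ≤ e * ((2 * M : ℕ) : ℝ) ^ e * (((l : ℝ) + 9 + 11 * M ^ 2) / L) := by
  intro e
  induction e with
  | zero => intro k P _ _ hg; simp [sq', Pos.place, bad, hg]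
  | succ e ih =>
    intro k P h hM hg
    classical
    rw [sq'_succ h]
    set G := uniformGrid L hL
    set δ := ((l : ℝ) + 9 + 11 * M ^ 2) / L with hδ
    have hn : P.n ≤ M := by have := h.size; omega
    set T := ((2 * M : ℕ) : ℝ) ^ e with hT
    have hT0 : 0 ≤ T := by positivity
    have htot : ∀ i (t : Fin L), sq' G e (P.new i t) (bad l) ≤ T := fun i t => by
      refine (sq'_mono (h.new i t) (Ψ := fun _ => 1) fun Q _ => by unfold bad; split_ifs <;> norm_num).trans ?_
      rw [sq'_total e (h.new i t)]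
      refine (prod_le_prod (fun j _ => by positivity) fun j hj => ?_).trans_eq
        (by rw [prod_const, card_range])
      show ((P.n + 1 : ℕ) : ℝ) + (j : ℝ) ≤ ((2 * M : ℕ) : ℝ)
      have := mem_range.1 hj
      have := h.size
      exact_mod_cast (by omega : P.n + 1 + j ≤ 2 * M)
    have hone : ∀ i (t : Fin L), P.S.attW G i t * sq' G e (P.new i t) (bad l)
        ≤ P.S.attW G i t * (e * T * δ) + ((if (t : ℕ) ≤ l then P.S.attW G i t else 0)
          + if (t : ℕ) ∈ near l L P.S.J then 1 / (L : ℝ) else 0) * T := fun i t => by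
      have hw := attW_nonneg P.S G t.2 i
      have hi1 : (0 : ℝ) ≤ if (t : ℕ) ≤ l then P.S.attW G i t else 0 := by split_ifs <;> simp [hw]
      have hi2 : (0 : ℝ) ≤ if (t : ℕ) ∈ near l L P.S.J then 1 / (L : ℝ) else 0 := by
        split_ifs <;> positivity
      have hrest : 0 ≤ P.S.attW G i t * (e * T * δ) := by positivity
      by_cases hgood : l < (t : ℕ) ∧ ((t : ℕ) ∉ near l L P.S.J ∨ ∃ z, P.S.J i z = t)
      · exact (mul_le_mul_of_nonneg_left (ih (k + 1) _ (h.new i t) (by omega)
          (good_ext hg i t hgood.1 hgood.2)) hw).trans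
          (le_add_of_nonneg_right (mul_nonneg (add_nonneg hi1 hi2) hT0))
      · refine le_trans ?_ (le_add_of_nonneg_left hrest)
        refine (mul_le_mul_of_nonneg_left (htot i t) hw).trans (mul_le_mul_of_nonneg_right ?_ hT0)
        by_cases htl : (t : ℕ) ≤ l
        · rw [if_pos htl]; exact le_add_of_nonneg_right hi2
        · have hh : (t : ℕ) ∈ near l L P.S.J ∧ ∀ z, P.S.J i z ≠ t := by
            simp only [not_and, not_or, not_not, not_exists] at hgood
            exact hgood (by omega)
          rw [if_pos hh.1]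
          exact (attW_unif hL P.S t.2 hh.2).trans (le_add_of_nonneg_left hi1)
    refine (sum_le_sum fun i _ => sum_le_sum fun t _ => hone i t).trans ?_
    have hw1 : ∀ i, ∑ t : Fin L, P.S.attW G i t = 1 := fun i => by
      rw [Fin.sum_univ_eq_sum_range (fun t => P.S.attW G i t), range_eq_Ico,
        sum_attW _ _ (Nat.zero_le L), G.m_zero, zero_div, sub_zero]
    have hlo : ∀ i, ∑ t : Fin L, (if (t : ℕ) ≤ l then P.S.attW G i t else 0) ≤ ((l : ℝ) + 1) / L := by
      intro i
      rw [Fin.sum_univ_eq_sum_range (fun t => if t ≤ l then P.S.attW G i t else 0), ← sum_filter,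
        show (range L).filter (fun t => t ≤ l) = Ico 0 (l + 1) by ext; simp; omega]
      have e2 := sum_attW P.S G (s := l + 1) hl i
      have e1 := sum_Ico_consecutive (fun t => P.S.attW G i t) (Nat.zero_le (l + 1)) hl
      have e3 := sum_attW P.S G (Nat.zero_le L) i
      rw [G.m_zero, zero_div, sub_zero] at e3
      have hm : G.m (l + 1) / P.S.sz (l + 1) i ≤ ((l : ℝ) + 1) / L := by
        refine (div_le_self ?_ (Nat.one_le_cast.2 (sz_pos P.S hl i))).trans_eq ?_
        · show (0 : ℝ) ≤ ((l + 1 : ℕ) : ℝ) / L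
          positivity
        · show ((l + 1 : ℕ) : ℝ) / L = _
          push_cast; rfl
      linarith
    have hnear : ∀ i : Fin P.n, ∑ t : Fin L, (if (t : ℕ) ∈ near l L P.S.J then 1 / (L : ℝ) else 0)
        ≤ ((8 : ℝ) + 11 * M ^ 2) / L := by
      intro i
      rw [← sum_filter, sum_const, nsmul_eq_mul, mul_one_div]
      refine div_le_div_of_nonneg_right ?_ (Nat.cast_nonneg _)
      have hc : (univ.filter fun t : Fin L => (t : ℕ) ∈ near l L P.S.J).card ≤ 8 + 11 * M ^ 2 :=
        (card_le_card_of_injOn (fun t : Fin L => (t : ℕ)) (fun t ht => (mem_filter.1 ht).2)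
          fun x _ y _ hxy => Fin.ext hxy).trans ((card_near_le _).trans (by gcongr))
      exact_mod_cast hc
    have hsum : ∀ i, ∑ t : Fin L, (P.S.attW G i t * (e * T * δ) + ((if (t : ℕ) ≤ l then P.S.attW G i t
        else 0) + if (t : ℕ) ∈ near l L P.S.J then 1 / (L : ℝ) else 0) * T) ≤ ((e : ℝ) + 1) * T * δ := by
      intro i
      rw [sum_add_distrib, ← sum_mul, ← sum_mul, hw1, one_mul, sum_add_distrib]
      have h1 := hlo i; have h2 := hnear i
      have : ((l : ℝ) + 1) / L + ((8 : ℝ) + 11 * M ^ 2) / L = δ := by rw [hδ]; ring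
      nlinarith
    refine (sum_le_sum fun i _ => hsum i).trans ?_
    rw [sum_const, card_univ, Fintype.card_fin, nsmul_eq_mul, pow_succ]
    have h0 : 0 ≤ ((e : ℝ) + 1) * T * δ := by positivity
    have : (P.n : ℝ) ≤ ((2 * M : ℕ) : ℝ) := by exact_mod_cast (by omega : P.n ≤ 2 * M)
    refine (mul_le_mul_of_nonneg_right this h0).trans_eq ?_
    push_cast
    simp only [T]
    push_cast
    ring

end Vale.Agent.P168.Conc
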