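import Vale.Agent.P168.Tree.Totals
import Vale.Agent.P168.Perturb.Defs

/-!
# P168, concentration: bounds and identities for placements
-/

open Real Finset

namespace Vale.Agent.P168.Conc

variable {L b n : ℕ} {G : Grid L}

/-- The pairwise levels of a matrix of joins. -/
def offs (J : Fin n → Fin n → ℕ) : Finset ℕ :=
  (univ.filter fun p : Fin n × Fin n => p.1 ≠ p.2).image fun p => J p.1 p.2

theorem mem_offs {J : Fin n → Fin n → ℕ} {t : ℕ} : t ∈ offs J ↔ ∃ a c, a ≠ c ∧ J a c = t := by
  simp [offs]

/-- The start of a placement. -/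
def start (S : Shape L b) (r : Fin b) : Pos L b := ⟨b, S, id, [r]⟩

/-- A position with `k` colours over the base `S` with root colour `r`. -/
structure Ok (S : Shape L b) (r : Fin b) (k : ℕ) (Q : Pos L b) : Prop where
  nodup : Q.col.Nodup
  len : Q.col.length = k
  head : Q.col.head? = some (Q.base r)
  inj : Function.Injective Q.base
  base : ∀ c c', Q.S.J (Q.base c) (Q.base c') = S.J c c'
  rest : ∀ z, z ∉ Q.col → ∃ c, Q.base c = z
  size : Q.n + 1 ≤ b + k

variable {S : Shape L b} {r : Fin b} {k : ℕ} {P : Pos L b}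

theorem Ok.start (S : Shape L b) (r : Fin b) : Ok S r 1 (start S r) where
  nodup := List.nodup_singleton _
  len := rfl
  head := rfl
  inj := fun _ _ h => h
  base := fun _ _ => rfl
  rest := fun z _ => ⟨z, rfl⟩
  size := le_rfl

theorem Ok.hit (h : Ok S r k P) {l : Fin P.n} (hl : l ∉ P.col) : Ok S r (k + 1) (P.hit l) where
  nodup := nodup_hit P h.nodup hl
  len := by simp [Pos.hit, h.len]
  head := by simp [Pos.hit, h.head]
  inj := h.inj
  base := h.base
  rest := fun z hz => h.rest z fun hz' => hz (List.mem_append_left _ hz')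
  size := Nat.le_succ_of_le h.size

theorem Ok.new (h : Ok S r k P) (i : Fin P.n) (t : Fin L) : Ok S r (k + 1) (P.new i t) where
  nodup := nodup_new P h.nodup i t
  len := by simp [Pos.new, h.len]
  head := by simp [Pos.new, List.head?_append, h.head]
  inj := (Fin.castSucc_injective _).comp h.inj
  base := fun c c' => by simpa [Pos.new, Shape.ext, Shape.extJ] using h.base c c'
  rest := fun z hz => by
    induction z using Fin.lastCases with
    | last => exact absurd (List.mem_append_right _ (List.mem_singleton_self _)) hz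
    | cast z =>
      obtain ⟨c, hc⟩ := h.rest z fun hz' => hz (List.mem_append_left _ (List.mem_map_of_mem hz'))
      exact ⟨c, congrArg Fin.castSucc hc⟩
  size := by have := h.size; show P.n + 1 + 1 ≤ _; omega

theorem Ok.root_mem (h : Ok S r k P) : P.base r ∈ P.col :=
  List.mem_of_mem_head? h.head

theorem Ok.full {S : Shape L 1} {r : Fin 1} {P : Pos L 1} (h : Ok S r k P) (z : Fin P.n) : z ∈ P.col :=
  by_contra fun hz => by
    obtain ⟨c, rfl⟩ := h.rest z hz
    rw [Subsingleton.elim c r] at hz
    exact hz h.root_mem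

/-! ### Linearity and congruence -/

theorem place_congr {q : ℕ} : ∀ {k : ℕ} {P : Pos L b}, Ok S r k P → ∀ {Φ Ψ : Pos L b → ℝ},
    (∀ Q, Ok S r (k + q) Q → Φ Q = Ψ Q) → P.place G q Φ = P.place G q Ψ := by
  induction q with
  | zero => intro k P h Φ Ψ e; exact e P h
  | succ q ih =>
    intro k P h Φ Ψ e
    have e' : ∀ Q, Ok S r (k + 1 + q) Q → Φ Q = Ψ Q := fun Q hQ =>
      e Q (by rwa [show k + (q + 1) = k + 1 + q by omega])
    exact step_congr G P (fun l hl => ih (h.hit hl) e') fun i t => ih (h.new i t) e'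

theorem step_mul (P : Pos L b) (c : ℝ) (Φ : Pos L b → ℝ) :
    P.step G (fun Q => c * Φ Q) = c * P.step G Φ := by
  simp only [Pos.step, mul_sub, mul_sum, mul_left_comm c]

theorem step_add (P : Pos L b) (Φ Ψ : Pos L b → ℝ) :
    P.step G (fun Q => Φ Q + Ψ Q) = P.step G Φ + P.step G Ψ := by
  simp only [Pos.step, mul_add, sum_add_distrib]
  ring

theorem place_mul (c : ℝ) (Φ : Pos L b → ℝ) :
    ∀ (q : ℕ) (P : Pos L b), P.place G q (fun Q => c * Φ Q) = c * P.place G q Φ
  | 0, _ => rfl
  | q + 1, P => by simp only [Pos.place, place_mul c Φ q, step_mul]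

theorem place_add (Φ Ψ : Pos L b → ℝ) :
    ∀ (q : ℕ) (P : Pos L b), P.place G q (fun Q => Φ Q + Ψ Q) = P.place G q Φ + P.place G q Ψ
  | 0, _ => rfl
  | q + 1, P => by simp only [Pos.place, place_add Φ Ψ q, step_add]

theorem place_sub (Φ Ψ : Pos L b → ℝ) (q : ℕ) (P : Pos L b) :
    P.place G q (fun Q => Φ Q - Ψ Q) = P.place G q Φ - P.place G q Ψ := by
  have h := place_add (G := G) Φ (fun Q => (-1) * Ψ Q) q P
  rw [place_mul] at h
  simpa [sub_eq_add_neg] using h

theorem place_sum {α : Type*} (s : Finset α) (Φ : α → Pos L b → ℝ) (q : ℕ) (P : Pos L b) :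
    P.place G q (fun Q => ∑ a ∈ s, Φ a Q) = ∑ a ∈ s, P.place G q (Φ a) := by
  classical
  induction s using Finset.induction_on with
  | empty => simpa using place_mul (G := G) 0 (fun _ => (0 : ℝ)) q P
  | insert a s ha ih => simp only [sum_insert ha, place_add, ih]

/-! ### Prescribed levels cost one mass each -/


/-- The prescribed levels seen from the colours. -/
def seen (Λ : Finset ℕ) (P : Pos L b) : Finset ℕ :=
  Λ.filter fun t => ∃ c ∈ P.col, ∃ z, P.S.J c z = t

theorem mem_seen {Λ : Finset ℕ} {P : Pos L b} {t : ℕ} :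
    t ∈ seen Λ P ↔ t ∈ Λ ∧ ∃ c : Fin P.n, c ∈ P.col ∧ ∃ z, P.S.J c z = t := by
  simp [seen]

theorem sz_succ_eq {n : ℕ} (S : Shape L n) {t : ℕ} {i : Fin n} (h : ∀ z, S.J i z ≠ t) :
    S.sz (t + 1) i = S.sz t i := by
  refine congrArg Finset.card ?_
  ext z
  simp only [mem_cls]
  have := h z
  omega

theorem attW_unif {n : ℕ} (hL : 0 < L) (S : Shape L n) {t : ℕ} (ht : t < L) {i : Fin n}
    (h : ∀ z, S.J i z ≠ t) : S.attW (uniformGrid L hL) i t ≤ 1 / L := by
  rw [Shape.attW, sz_succ_eq S h, ← sub_div]
  have e : ((uniformGrid L hL).m (t + 1) - (uniformGrid L hL).m t) = 1 / L := by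
    show ((t + 1 : ℕ) : ℝ) / L - (t : ℝ) / L = _
    push_cast
    ring
  rw [e]
  exact div_le_self (by positivity) (Nat.one_le_cast.2 (sz_pos S ht.le i))

theorem attW_le_one {n : ℕ} (S : Shape L n) {t : ℕ} (ht : t < L) (i : Fin n) : S.attW G i t ≤ 1 := by
  have h := sum_attW S G (Nat.zero_le L) i
  rw [G.m_zero, zero_div, sub_zero] at h
  rw [← h]
  exact single_le_sum (f := fun t => S.attW G i t)
    (fun s hs => attW_nonneg S G (Finset.mem_Ico.1 hs).2 i) (Finset.mem_Ico.2 ⟨Nat.zero_le _, ht⟩)

theorem place_abs_le (hL : 0 < L) (Λ : Finset ℕ) (hΛ : ∀ c c', S.J c c' ∉ Λ) (hΛL : L ∉ Λ)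
    {Φ : Pos L b → ℝ} {A : ℝ} (hA : 0 ≤ A) (M : ℕ) : ∀ (q k : ℕ) (P : Pos L b), Ok S r k P → b + k + q ≤ M →
      (∀ Q, Ok S r (k + q) Q → |Φ Q| ≤ if Λ ⊆ seen Λ Q then A else 0) →
      |P.place (uniformGrid L hL) q Φ|
        ≤ ((M : ℝ) * (Λ.card + 2)) ^ q * (A * (1 / L : ℝ) ^ (Λ.card - (seen Λ P).card)) := by
  intro q
  induction q with
  | zero =>
    intro k P h _ hΦ
    have := hΦ P h
    rw [pow_zero, one_mul]
    refine this.trans ?_
    split_ifs with hs
    · rw [show seen Λ P = Λ from subset_antisymm (filter_subset _ _) hs, Nat.sub_self, pow_zero, mul_one]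
    · positivity
  | succ q ih =>
    intro k P h hM hΦ
    have hΦ' : ∀ Q, Ok S r (k + 1 + q) Q → |Φ Q| ≤ if Λ ⊆ seen Λ Q then A else 0 := fun Q hQ =>
      hΦ Q (by rwa [show k + (q + 1) = k + 1 + q by omega])
    set G := uniformGrid L hL
    set μ : ℝ := 1 / L with hμ
    set e := Λ.card - (seen Λ P).card
    set C := ((M : ℝ) * (Λ.card + 2)) ^ q
    have hC : 0 ≤ C := by positivity
    have hμ0 : 0 ≤ μ := by positivity
    have hμ1 : μ ≤ 1 := by
      rw [hμ, div_le_one (Nat.cast_pos.2 hL)]; exact_mod_cast hL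
    set X := C * (A * μ ^ e)
    have hX : 0 ≤ X := by positivity
    -- a hit sees nothing new
    have hhit : ∀ l, l ∉ P.col → |(P.hit l).place G q Φ| ≤ X := fun l hl => by
      refine (ih (k + 1) _ (h.hit hl) (by omega) hΦ').trans ?_
      have hsub : (seen Λ (P.hit l)).card ≤ (seen Λ P).card := card_le_card fun t ht => by
        obtain ⟨htΛ, hex⟩ := mem_seen.1 ht
        obtain ⟨c, hc, z, rfl⟩ : ∃ c : Fin P.n, c ∈ P.col ++ [l] ∧ ∃ z, P.S.J c z = t := hex
        refine mem_seen.2 ⟨htΛ, ?_⟩
        rcases List.mem_append.1 hc with hc | hc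
        · exact ⟨c, hc, z, rfl⟩
        · rw [List.mem_singleton] at hc; subst hc
          by_cases hz : z ∈ P.col
          · exact ⟨z, hz, c, P.S.symm z c⟩
          · obtain ⟨a, rfl⟩ := h.rest c hl
            obtain ⟨a', rfl⟩ := h.rest z hz
            exact absurd (h.base a a' ▸ htΛ) (hΛ a a')
      exact mul_le_mul_of_nonneg_left (mul_le_mul_of_nonneg_left
        (pow_le_pow_of_le_one hμ0 hμ1 (by omega)) hA) hC
    -- a new colour pays for what it sees
    have hnew : ∀ i (t : Fin L), P.S.attW G i t * |(P.new i t).place G q Φ|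
        ≤ (P.S.attW G i t + if (t : ℕ) ∈ Λ then 1 else 0) * X := fun i t => by
      have hw := attW_nonneg P.S G t.2 i
      have hsub : seen Λ (P.new i t) ⊆ seen Λ P ∪ {(t : ℕ)} := fun s hs => by
        simp only [mem_union, mem_singleton, mem_seen] at hs ⊢
        obtain ⟨hsΛ, hs⟩ := hs
        obtain ⟨c, hc, z, hcz⟩ : ∃ c : Fin (P.n + 1), c ∈ P.col.map Fin.castSucc ++ [Fin.last P.n] ∧
            ∃ z : Fin (P.n + 1), (P.S.ext i t t.2).J c z = s := hs
        have old : ∀ c z, P.S.J c z = s → c ∈ P.col →
            (s ∈ Λ ∧ ∃ c ∈ P.col, ∃ z, P.S.J c z = s) ∨ s = (t : ℕ) :=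
          fun c z e hc => Or.inl ⟨hsΛ, c, hc, z, e⟩
        have fromi : ∀ z, min (t : ℕ) (P.S.J i z) = s →
            (s ∈ Λ ∧ ∃ c ∈ P.col, ∃ z, P.S.J c z = s) ∨ s = (t : ℕ) := fun z e => by
          rcases le_total (t : ℕ) (P.S.J i z) with hle | hle
          · rw [min_eq_left hle] at e; exact Or.inr e.symm
          · rw [min_eq_right hle] at e
            by_cases hi : i ∈ P.col
            · exact old i z e hi
            by_cases hz : z ∈ P.col
            · exact old z i (by rw [P.S.symm, e]) hz
            obtain ⟨a, rfl⟩ := h.rest i hi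
            obtain ⟨a', rfl⟩ := h.rest z hz
            exact absurd (h.base a a' ▸ e ▸ hsΛ) (hΛ a a')
        induction c using Fin.lastCases with
        | last =>
          induction z using Fin.lastCases with
          | last =>
            exact absurd (((P.S.ext i t t.2).self (Fin.last _)).symm.trans hcz ▸ hsΛ) hΛL
          | cast z => exact fromi z (by simpa [Shape.ext, Shape.extJ] using hcz)
        | cast c =>
          have hc' : c ∈ P.col := by
            simpa [(Fin.castSucc_lt_last c).ne] using hc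
          induction z using Fin.lastCases with
          | last => exact fromi c (by simpa [Shape.ext, Shape.extJ] using hcz)
          | cast z => exact old c z (by simpa [Shape.ext, Shape.extJ] using hcz) hc'
      have hb := ih (k + 1) _ (h.new i t) (by omega) hΦ'
      by_cases hnewt : (t : ℕ) ∈ Λ ∧ (t : ℕ) ∉ seen Λ P
      · rw [if_pos hnewt.1]
        have hnb : ∀ z, P.S.J i z ≠ t := fun z hz => by
          refine hnewt.2 (mem_seen.2 ⟨hnewt.1, ?_⟩)
          by_cases hi : i ∈ P.col
          · exact ⟨i, hi, z, hz⟩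
          by_cases hz' : z ∈ P.col
          · exact ⟨z, hz', i, by rw [P.S.symm, hz]⟩
          obtain ⟨a, rfl⟩ := h.rest i hi
          obtain ⟨a', rfl⟩ := h.rest z hz'
          exact absurd (h.base a a' ▸ hz.symm ▸ hnewt.1) (hΛ a a')
        have hc : (seen Λ (P.new i t)).card ≤ (seen Λ P).card + 1 :=
          (card_le_card hsub).trans ((card_union_le _ _).trans (by simp))
        have he : μ * μ ^ (Λ.card - (seen Λ (P.new i t)).card) ≤ μ ^ e := by
          rw [← pow_succ']
          exact pow_le_pow_of_le_one hμ0 hμ1 (by omega)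
        calc P.S.attW G i t * |(P.new i t).place G q Φ|
            ≤ μ * (C * (A * μ ^ (Λ.card - (seen Λ (P.new i t)).card))) :=
              mul_le_mul (attW_unif hL P.S t.2 hnb) hb (abs_nonneg _) hμ0
          _ = C * (A * (μ * μ ^ (Λ.card - (seen Λ (P.new i t)).card))) := by ring
          _ ≤ X := mul_le_mul_of_nonneg_left (mul_le_mul_of_nonneg_left he hA) hC
          _ ≤ _ := le_mul_of_one_le_left hX (by linarith)
      · have hsub' : seen Λ (P.new i t) ⊆ seen Λ P := fun s hs => by
          rcases mem_union.1 (hsub hs) with h1 | h1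
          · exact h1
          · rw [mem_singleton] at h1; subst h1
            exact not_not.1 fun hh => hnewt ⟨(mem_seen.1 hs).1, hh⟩
        refine (mul_le_mul_of_nonneg_left (hb.trans ?_) hw).trans
          (mul_le_mul_of_nonneg_right (le_add_of_nonneg_right (by split_ifs <;> norm_num)) hX)
        exact mul_le_mul_of_nonneg_left (mul_le_mul_of_nonneg_left
          (pow_le_pow_of_le_one hμ0 hμ1 (Nat.sub_le_sub_left (card_le_card hsub') _)) hA) hC
    have hsum : ∀ i, ∑ t : Fin L, (P.S.attW G i t + if (t : ℕ) ∈ Λ then (1 : ℝ) else 0) ≤ Λ.card + 1 := by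
      intro i
      rw [sum_add_distrib, Fin.sum_univ_eq_sum_range (fun t => P.S.attW G i t), range_eq_Ico,
        sum_attW _ _ (Nat.zero_le L), G.m_zero, zero_div, sub_zero, sum_boole, add_comm]
      gcongr
      exact card_le_card_of_injOn (fun t : Fin L => (t : ℕ)) (fun t ht => (mem_filter.1 ht).2)
        (fun x _ y _ hxy => Fin.ext hxy)
    have hn : (P.n : ℝ) ≤ M := by
      have := h.size
      exact_mod_cast (by omega : P.n ≤ M)
    rw [Pos.place, Pos.step]
    refine (abs_sub _ _).trans ((add_le_add
      ((abs_sum_le_sum_abs _ _).trans (sum_le_card_nsmul _ _ X fun l hl => hhit l (mem_filter.1 hl).2))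
      ((abs_sum_le_sum_abs _ _).trans (sum_le_card_nsmul _ _ ((Λ.card + 1) * X) fun i _ =>
        (abs_sum_le_sum_abs _ _).trans ((sum_le_sum fun t _ => ?_).trans
          ((sum_mul _ _ _).symm.trans_le (mul_le_mul_of_nonneg_right (hsum i) hX)))))).trans ?_)
    · rw [abs_mul, abs_of_nonneg (attW_nonneg P.S G t.2 i)]
      exact hnew i t
    · simp only [nsmul_eq_mul, card_univ, Fintype.card_fin]
      have hcard : ((univ.filter fun l => l ∉ P.col).card : ℝ) ≤ P.n := by
        exact_mod_cast (card_le_univ _).trans_eq (Fintype.card_fin _)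
      calc ((univ.filter fun l => l ∉ P.col).card : ℝ) * X + P.n * ((Λ.card + 1) * X)
          ≤ M * X + M * ((Λ.card + 1) * X) := by gcongr <;> first | exact hcard.trans hn | exact_mod_cast hcard.trans hn
        _ = _ := by simp only [X, C]; ring

/-! ### One base replica: no signs -/

/-- The sum over the placements of one base replica without the sign. -/
noncomputable def sq' (G : Grid L) (q : ℕ) (P : Pos L 1) (Φ : Pos L 1 → ℝ) : ℝ :=
  (-1) ^ q * P.place G q Φ

theorem step_full {P : Pos L b} (h : ∀ z, z ∈ P.col) (Φ : Pos L b → ℝ) :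
    P.step G Φ = -∑ i, ∑ t : Fin L, P.S.attW G i t * Φ (P.new i t) := by
  rw [Pos.step, filter_false_of_mem fun z _ => not_not.2 (h z)]
  simp

theorem sq'_succ {S : Shape L 1} {r : Fin 1} {P : Pos L 1} (h : Ok S r k P) (q : ℕ) (Φ : Pos L 1 → ℝ) :
    sq' G (q + 1) P Φ = ∑ i, ∑ t : Fin L, P.S.attW G i t * sq' G q (P.new i t) Φ := by
  rw [sq', Pos.place, step_full h.full]
  simp only [sq', mul_sum, ← sum_neg_distrib, pow_succ]
  exact sum_congr rfl fun i _ => sum_congr rfl fun t _ => by ring

theorem sq'_mono {S : Shape L 1} {r : Fin 1} {q : ℕ} : ∀ {k : ℕ} {P : Pos L 1}, Ok S r k P →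
    ∀ {Φ Ψ : Pos L 1 → ℝ}, (∀ Q, Ok S r (k + q) Q → Φ Q ≤ Ψ Q) → sq' G q P Φ ≤ sq' G q P Ψ := by
  induction q with
  | zero => intro k P h Φ Ψ e; simpa [sq', Pos.place] using e P h
  | succ q ih =>
    intro k P h Φ Ψ e
    rw [sq'_succ h, sq'_succ h]
    exact sum_le_sum fun i _ => sum_le_sum fun t _ => mul_le_mul_of_nonneg_left
      (ih (h.new i t) fun Q hQ => e Q (by rwa [show k + (q + 1) = k + 1 + q by omega]))
      (attW_nonneg P.S G t.2 i)

theorem sq'_mul (c : ℝ) (Φ : Pos L 1 → ℝ) (q : ℕ) (P : Pos L 1) :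
    sq' G q P (fun Q => c * Φ Q) = c * sq' G q P Φ := by
  rw [sq', sq', place_mul]; ring

theorem sq'_add (Φ Ψ : Pos L 1 → ℝ) (q : ℕ) (P : Pos L 1) :
    sq' G q P (fun Q => Φ Q + Ψ Q) = sq' G q P Φ + sq' G q P Ψ := by
  rw [sq', sq', sq', place_add]; ring

theorem sq'_total {S : Shape L 1} {r : Fin 1} : ∀ (q : ℕ) {k : ℕ} {P : Pos L 1}, Ok S r k P →
    sq' G q P (fun _ => 1) = ∏ j ∈ range q, ((P.n : ℝ) + j)
  | 0, _, _, _ => by simp [sq', Pos.place]
  | q + 1, k, P, h => by
    rw [sq'_succ h, sum_congr rfl fun i _ => sum_congr rfl fun t _ =>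
      congrArg _ (sq'_total q (h.new i t))]
    have hw : ∀ i, ∑ t : Fin L, P.S.attW G i t = 1 := fun i => by
      rw [Fin.sum_univ_eq_sum_range (fun t => P.S.attW G i t), range_eq_Ico,
        sum_attW _ _ (Nat.zero_le L), G.m_zero, zero_div, sub_zero]
    show ∑ i, ∑ t : Fin L, P.S.attW G i t * ∏ j ∈ range q, (((P.n + 1 : ℕ) : ℝ) + j) = _
    simp only [← sum_mul, hw]
    rw [prod_range_succ', sum_const, card_univ, Fintype.card_fin, nsmul_one, mul_comm]
    congr 1
    · exact prod_congr rfl fun j _ => by push_cast; ring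
    · simp

/-! ### The first colour across a level -/

/-- Totals of a function of the joins are functions of the joins. -/
theorem exists_total (q : ℕ) (κ : List (List ℕ) → ℝ) (b : ℕ) :
    ∃ Ψ : List (List ℕ) → ℝ, ∀ P : Pos L b, P.col.Nodup →
      P.place G q (fun Q => κ Q.joins) = Ψ P.joins := by
  classical
  refine ⟨fun J => if h : ∃ P : Pos L b, P.col.Nodup ∧ P.joins = J
    then h.choose.place G q (fun Q => κ Q.joins) else 0, fun P hP => ?_⟩
  have h : ∃ P' : Pos L b, P'.col.Nodup ∧ P'.joins = P.joins := ⟨P, hP, rfl⟩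
  simp only [dif_pos h]
  exact invStmt L b b G q P h.choose κ hP h.choose_spec.1 h.choose_spec.2.symm

/-- The first colour that joins the root colour at `j`. -/
def fc (r : Fin b) (j : ℕ) (P : Pos L b) : Option (Fin P.n) :=
  P.col.find? fun c => decide (P.S.J (P.base r) c = j)

/-- The value read from that colour. -/
def fv (r u : Fin b) (j : ℕ) (F : ℕ → ℝ) (P : Pos L b) : ℝ :=
  match fc r j P with
  | some v => F (P.S.J (P.base u) v)
  | none => 0

theorem fc_hit (r : Fin b) (j : ℕ) (P : Pos L b) (l : Fin P.n) :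
    fc r j (P.hit l) = (fc r j P).or (if P.S.J (P.base r) l = j then some l else none) := by
  show (P.col ++ [l]).find? (fun c => decide (P.S.J (P.base r) c = j)) = _
  rw [List.find?_append]
  by_cases h : P.S.J (P.base r) l = j <;> simp [fc, h]

theorem fc_new (r : Fin b) (j : ℕ) (P : Pos L b) (i : Fin P.n) (t : Fin L) :
    fc r j (P.new i t) = ((fc r j P).map Fin.castSucc).or
      (if min (t : ℕ) (P.S.J i (P.base r)) = j then some (Fin.last _) else none) := by
  show (P.col.map Fin.castSucc ++ [Fin.last P.n]).find?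
    (fun c => decide (P.S.extJ i t (P.base r).castSucc c = j)) = _
  rw [List.find?_append, List.find?_map]
  congr 1
  · congr 2
    funext c
    simp [Shape.extJ]
  · simp only [Shape.extJ, List.find?_cons, List.find?_nil, Fin.snoc_castSucc,
      Fin.snoc_last]
    by_cases h : min (t : ℕ) (P.S.J i (P.base r)) = j <;> simp [h]

/-- Once found, the value is a constant factor. -/
theorem place_found (u : Fin b) {j : ℕ} (F : ℕ → ℝ) (κ : List (List ℕ) → ℝ) :
    ∀ (q : ℕ) (P : Pos L b) (v : Fin P.n), fc r j P = some v →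
      P.place G q (fun Q => κ Q.joins * fv r u j F Q)
        = F (P.S.J (P.base u) v) * P.place G q fun Q => κ Q.joins
  | 0, P, v, hv => by simp [Pos.place, fv, hv, mul_comm]
  | q + 1, P, v, hv => by
    rw [Pos.place, Pos.place, ← step_mul]
    refine step_congr G P (fun l _ => ?_) fun i t => ?_
    · exact place_found u F κ q (P.hit l) v (by rw [fc_hit, hv]; rfl)
    · refine (place_found u F κ q (P.new i t) v.castSucc (by rw [fc_new, hv]; rfl)).trans ?_
      simp [Pos.new, Shape.ext, Shape.extJ]

/-- The balance of one step for the first colour across the level `j`. -/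
theorem step_cross {u : Fin b} {j : ℕ} (hj0 : 1 ≤ j) (hjL : j < L) (hru : S.J r u = j) (h : Ok S r k P)
    (hcol : ∀ c ∈ P.col, P.S.J (P.base r) c ≠ j) {g : ℕ → ℝ} {Φ : Pos L b → ℝ}
    (hhit : ∀ l, l ∉ P.col → Φ (P.hit l) =
      if P.S.J l (P.base r) = j then g (P.S.J l (P.base u)) else 0)
    (hnew : ∀ i (t : Fin L), Φ (P.new i t) =
      if min (t : ℕ) (P.S.J i (P.base r)) = j then g (min (t : ℕ) (P.S.J i (P.base u))) else 0) :
    P.step G Φ = g j * (G.m j - G.m (j + 1))
      + ∑ t ∈ Ico j L, G.m (t + 1) * (g (t + 1) - g t) := by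
  classical
  set R := P.base r
  set U := P.base u
  have hRU : P.S.J R U = j := (h.base r u).trans hru
  have hU : U ∉ P.col := fun hm => hcol U hm hRU
  have hlen : P.col.length = k := h.len
  have hk : 1 ≤ k := hlen ▸ List.length_pos_of_mem h.root_mem
  have hpnd : (P.col ++ [U]).Nodup := nodup_hit P h.nodup hU
  set f : ℕ → ℕ → ℝ := fun x y => if x = j then g y else 0 with hf
  set ψ : List (List ℕ) → ℝ := fun M => f ((M.getD (k + 1) []).getD 0 0) ((M.getD (k + 1) []).getD k 0)
  set hh : Fin P.n → ℕ → ℝ := fun i t => f (min t (P.S.J i R)) (min t (P.S.J i U)) with hhh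
  have hψ : ∀ (i : Fin P.n) (t : ℕ),
      ψ (addRow L (P.hit U).joins ((P.col ++ [U]).map fun c => min t (P.S.J i c))) = hh i t := by
    intro i t
    have hl : (P.hit U).joins.length = k + 1 := by
      show ((P.col ++ [U]).map fun x => (P.col ++ [U]).map fun y => P.S.J x y).length = k + 1
      simp [hlen]
    have e : (addRow L (P.hit U).joins ((P.col ++ [U]).map fun c => min t (P.S.J i c))).getD (k + 1) []
        = (P.col ++ [U]).map (fun c => min t (P.S.J i c)) ++ [L] := by
      rw [addRow, List.getD_append_right _ _ _ _ (by simp [hl])]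
      simp [hl, hlen]
    have hcol0 : ∃ rest, P.col = R :: rest := by
      cases hc : P.col with
      | nil => exact absurd (hc ▸ h.root_mem) List.not_mem_nil
      | cons x rest => exact ⟨rest, by have := h.head; rw [hc] at this; simpa using this⟩
    obtain ⟨rest, hrest⟩ := hcol0
    have hlr : rest.length + 1 = k := by rw [← hlen, hrest]; rfl
    simp only [ψ, e]
    show f _ _ = hh i t
    congr 1
    · simp [hrest]
    · rw [List.getD_append _ _ _ _ (by simp [hlen])]
      simp [List.map_append, List.getD_append_right, hlen]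
  have hstepP : P.step G Φ = (P.hit U).step G (fun Q => ψ Q.joins) + hh U L := by
    unfold Pos.step
    have e1 : ∀ l, l ∉ P.col → Φ (P.hit l) = hh l L := fun l hl => by
      rw [hhit l hl, hhh]
      simp only [hf, min_eq_right (le_top _ _ _)]
    have e2 : ∀ i (t : Fin L), Φ (P.new i t) = ψ ((P.hit U).new i t).joins := fun i t => by
      rw [hnew]
      exact ((congrArg ψ (joins_new (P.hit U) i t)).trans (hψ i t)).symm
    have e3 : ∀ l, ψ ((P.hit U).hit l).joins = hh l L := fun l =>
      (congrArg ψ (joins_hit (P.hit U) l)).trans (hψ l L)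
    have hset : univ.filter (fun l => l ∉ P.col) = insert U (univ.filter fun l => l ∉ (P.col ++ [U])) := by
      ext l
      simp only [mem_filter, mem_univ, true_and, mem_insert, List.mem_append,
        List.mem_singleton, not_or]
      constructor
      · intro hl; exact (em (l = U)).imp id fun hne => ⟨hl, hne⟩
      · rintro (rfl | ⟨hl, -⟩) <;> assumption
    simp only [e2]
    rw [hset, sum_insert (by simp), e1 U hU, sum_congr rfl fun l hl => e1 l fun hl' =>
      (show l ∉ P.col ++ [U] from (mem_filter.1 hl).2) (List.mem_append_left _ hl')]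
    simp only [e3]
    show hh U L + _ - _ = _
    ring!
  rw [hstepP, step_joins G (P.hit U) hpnd ψ, stepJ]
  set cnt : ℕ → Fin P.n → ℕ := fun s c =>
    ((P.col ++ [U]).map fun y => P.S.J c y).countP fun x => decide (s ≤ x)
  have hrow : ∀ c, (((P.col ++ [U]).map fun y => P.S.J c y).map (min L)) = (P.col ++ [U]).map fun y => min L (P.S.J c y) :=
    fun c => by simp
  have hterm : (((P.hit U).joins.map fun row => -ψ (addRow L (P.hit U).joins (row.map (min L))) + ∑ t : Fin L,
        G.m (t + 1) / (row.countP fun x => decide ((t : ℕ) + 1 ≤ x)) *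
          (ψ (addRow L (P.hit U).joins (row.map (min ((t : ℕ) + 1)))) -
            ψ (addRow L (P.hit U).joins (row.map (min (t : ℕ)))))).sum)
      = ∑ c ∈ (P.col ++ [U]).toFinset, (-hh c L + ∑ t ∈ range L,
          G.m (t + 1) / cnt (t + 1) c * (hh c (t + 1) - hh c t)) := by
    rw [List.sum_toFinset _ hpnd]
    congr 1
    show ((P.col ++ [U]).map fun x => (P.col ++ [U]).map fun y => P.S.J x y).map _ = _
    rw [List.map_map]
    refine List.map_congr_left fun c _ => ?_
    simp only [Function.comp_def, List.map_map]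
    rw [hψ c L, Finset.sum_range fun t => G.m (t + 1) / cnt (t + 1) c * (hh c (t + 1) - hh c t)]
    congr 1
    refine sum_congr rfl fun t _ => ?_
    rw [hψ c, hψ c]
  rw [hterm]
  have htf : (P.col ++ [U]).toFinset = insert U P.col.toFinset := by
    ext; simp [or_comm]
  rw [htf, sum_insert (by simpa using hU)]
  set A := P.col.toFinset.filter fun c => j < P.S.J R c with hA
  have hR : R ∈ A := mem_filter.2 ⟨List.mem_toFinset.2 h.root_mem, by rw [P.S.self]; exact hjL⟩
  have hcnt : ∀ s c, cnt s c = ((insert U P.col.toFinset).filter fun y => s ≤ P.S.J c y).card := by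
    intro s c
    simp only [cnt]
    rw [List.countP_map, List.countP_eq_length_filter, ← List.toFinset_card_of_nodup (hpnd.filter _),
      List.toFinset_filter, htf]
    simp
  have hkj : ∀ c, j ≤ P.S.J R c → cnt j c = A.card + 1 := fun c hc => by
    rw [hcnt, show (insert U P.col.toFinset).filter (fun y => j ≤ P.S.J c y) = insert U A from ?_,
      card_insert_of_notMem fun hm => hU (List.mem_toFinset.1 (mem_filter.1 hm).1)]
    ext y
    simp only [mem_filter, mem_insert, hA, List.mem_toFinset]
    have h1 := P.S.ultra R c y; have h2 := P.S.ultra c R y; have h3 := P.S.symm c R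
    constructor
    · rintro ⟨rfl | hy, hj'⟩
      · exact Or.inl rfl
      · have := hcol y hy
        exact Or.inr ⟨hy, by omega⟩
    · rintro (rfl | ⟨hy, hj'⟩)
      · exact ⟨Or.inl rfl, by omega⟩
      · exact ⟨Or.inr hy, by omega⟩
  have hold : ∀ c ∈ P.col.toFinset, -hh c L + ∑ t ∈ range L,
      G.m (t + 1) / cnt (t + 1) c * (hh c (t + 1) - hh c t)
      = if c ∈ A then g j * (G.m j / (A.card + 1) - G.m (j + 1) / A.card) else 0 := by
    intro c hc
    have hc' := List.mem_toFinset.1 hc
    have hne := hcol c hc'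
    have hs := P.S.symm c R
    by_cases hcA : c ∈ A
    · have hgt : j < P.S.J R c := (mem_filter.1 hcA).2
      have hcu : P.S.J c U = j := by
        have h1 := P.S.ultra R c U; have h2 := P.S.ultra c R U
        omega
      have hval : ∀ t, hh c t = if t = j then g j else 0 := fun t => by
        simp only [hhh, hf, hcu, hs]
        by_cases ht : t = j
        · subst ht; simp [hgt.le]
        · rw [if_neg ht, if_neg (by omega)]
      have hk1 : cnt (j + 1) c = A.card := by
        rw [hcnt]
        congr 1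
        ext y
        simp only [mem_filter, mem_insert, hA, List.mem_toFinset]
        have h1 := P.S.ultra R c y; have h2 := P.S.ultra c R y
        constructor
        · rintro ⟨rfl | hy, hj'⟩
          · omega
          · exact ⟨hy, by omega⟩
        · rintro ⟨hy, hj'⟩; exact ⟨Or.inr hy, by omega⟩
      rw [if_pos hcA, hval L, if_neg hjL.ne', neg_zero, zero_add]
      rw [← sum_subset (show ({j - 1, j} : Finset ℕ) ⊆ range L from by
        intro x hx; simp at hx; simp; omega) fun x _ hx => by
          simp only [mem_insert, mem_singleton, not_or] at hx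
          rw [hval, hval, if_neg (by omega), if_neg hx.2, sub_self, mul_zero],
        sum_pair (by omega), show j - 1 + 1 = j by omega, hk1, hkj c hgt.le]
      simp only [hval, if_true, if_neg (show j - 1 ≠ j by omega), if_neg (show j + 1 ≠ j by omega)]
      push_cast
      ring
    · have hlt : P.S.J R c < j := by
        have : ¬ j < P.S.J R c := fun h' => hcA (mem_filter.2 ⟨hc, h'⟩)
        omega
      have hval : ∀ t, hh c t = 0 := fun t => by
        simp only [hhh, hf]
        rw [if_neg (by omega)]
      simp [hval, if_neg hcA]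
  rw [sum_congr rfl hold, sum_ite_mem, inter_eq_right.2 (filter_subset _ _), sum_const, nsmul_eq_mul]
  have hvalU : ∀ t, t ≤ L → hh U t = if j ≤ t then g t else 0 := fun t ht => by
    simp only [hhh, hf, P.S.self, P.S.symm U R, hRU, min_eq_left ht]
    by_cases h' : j ≤ t
    · rw [if_pos (by omega), if_pos h']
    · rw [if_neg (by omega), if_neg h']
  have hkU : ∀ t, j ≤ t → t < L → cnt (t + 1) U = 1 := fun t ht htL => by
    rw [hcnt, card_eq_one]
    refine ⟨U, ?_⟩
    ext y
    simp only [mem_filter, mem_insert, mem_singleton, List.mem_toFinset]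
    constructor
    · rintro ⟨hy | hy, hj'⟩
      · exact hy
      · exfalso
        have h1 := P.S.ultra R U y; have h2 := P.S.ultra U R y; have h3 := P.S.symm U R
        have h4 := P.S.ultra R y U; have h5 := P.S.symm y U
        have := hcol y hy
        omega
    · rintro rfl; exact ⟨Or.inl rfl, by rw [P.S.self]; omega⟩
  have hUsum : ∑ t ∈ range L, G.m (t + 1) / cnt (t + 1) U * (hh U (t + 1) - hh U t)
      = G.m j / (A.card + 1) * g j + ∑ t ∈ Ico j L, G.m (t + 1) * (g (t + 1) - g t) := by
    rw [range_eq_Ico, ← sum_Ico_consecutive _ (Nat.zero_le j) hjL.le]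
    congr 1
    · rw [sum_eq_single_of_mem (j - 1) (by simp; omega) fun t ht hne => by
        simp only [mem_Ico] at ht
        rw [hvalU t (by omega), hvalU (t + 1) (by omega), if_neg (by omega), if_neg (by omega), sub_self,
          mul_zero],
        show j - 1 + 1 = j by omega, hvalU j hjL.le, hvalU (j - 1) (by omega), if_pos le_rfl,
        if_neg (by omega), sub_zero, hkj U (by rw [hRU])]
      push_cast
      ring
    · refine sum_congr rfl fun t ht => ?_
      simp only [mem_Ico] at ht
      rw [hvalU t ht.2.le, hvalU (t + 1) ht.2, hkU t ht.1 ht.2, if_pos ht.1, if_pos (by omega)]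
      simp
  rw [hUsum]
  have hApos : (A.card : ℝ) ≠ 0 := Nat.cast_ne_zero.2 (card_pos.2 ⟨R, hR⟩).ne'
  have : (A.card : ℝ) + 1 ≠ 0 := by positivity
  field_simp
  ring

/-- The ratio of a total with a value read across `j` to the plain total. -/
noncomputable def rho (G : Grid L) (j : ℕ) (F : ℕ → ℝ) : ℝ :=
  F j + (∑ t ∈ Ico j L, G.m (t + 1) * (F (t + 1) - F t)) / (G.m j - G.m (j + 1))

/-- The total with a value read across `j` is `rho` times the plain total. -/
theorem place_cross {u : Fin b} {j : ℕ} (hj0 : 1 ≤ j) (hjL : j < L) (hm : G.m j ≠ G.m (j + 1))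
    (hru : S.J r u = j) (F : ℕ → ℝ) (κ : List (List ℕ) → ℝ) :
    ∀ (q k : ℕ) (P : Pos L b), Ok S r k P → fc r j P = none →
      (∀ Q, Ok S r (k + q) Q → fc r j Q = none → κ Q.joins = 0) →
      P.place G q (fun Q => κ Q.joins * fv r u j F Q) = rho G j F * P.place G q fun Q => κ Q.joins := by
  intro q
  induction q with
  | zero => intro k P h hn hκ; simp [Pos.place, hκ P h hn]
  | succ q ih =>
    intro k P h hn hκ
    classical
    obtain ⟨Ψ, hΨ⟩ := exists_total (G := G) q κ b
    have hκ' : ∀ Q, Ok S r (k + 1 + q) Q → fc r j Q = none → κ Q.joins = 0 := fun Q hQ =>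
      hκ Q (by rwa [show k + (q + 1) = k + 1 + q by omega])
    have hcol : ∀ c ∈ P.col, P.S.J (P.base r) c ≠ j := fun c hc => by
      simpa using List.find?_eq_none.1 hn c hc
    set row := P.col.map fun c => min j (P.S.J (P.base r) c)
    set c0 := Ψ (addRow L P.joins row)
    set ρ := rho G j F
    set Φ : Pos L b → ℝ := fun Q => match fc r j Q with
      | some v => (F (Q.S.J (Q.base u) v) - ρ) * c0
      | none => 0 with hΦ
    rw [Pos.place, Pos.place]
    have e : P.step G (fun Q => Q.place G q fun Q => κ Q.joins * fv r u j F Q)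
        = P.step G fun Q => ρ * Q.place G q (fun Q => κ Q.joins) + Φ Q := by
      refine step_congr G P (fun l hl => ?_) fun i t => ?_
      · have hfc := fc_hit r j P l
        rw [hn, Option.none_or] at hfc
        by_cases hl' : P.S.J (P.base r) l = j
        · rw [if_pos hl'] at hfc
          rw [place_found u F κ q (P.hit l) l hfc, hΨ _ (nodup_hit P h.nodup hl)]
          have hrow : P.col.map (fun c => min L (P.S.J l c)) = row := List.map_congr_left fun c hc => by
            have h1 := P.S.ultra l (P.base r) c; have h2 := P.S.ultra (P.base r) l c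
            have h3 := P.S.symm l (P.base r); have := hcol c hc; have := le_top P.S l c
            have := P.S.ultra (P.base r) c l; have := P.S.symm c l
            omega
          simp only [hΦ, hfc, joins_hit, hrow]
          simp only [c0]
          ring!
        · rw [if_neg hl'] at hfc
          rw [ih (k + 1) _ (h.hit hl) hfc hκ']
          simp [hΦ, hfc]
      · have hfc := fc_new r j P i t
        rw [hn, Option.map_none, Option.none_or] at hfc
        by_cases ht' : min (t : ℕ) (P.S.J i (P.base r)) = j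
        · rw [if_pos ht'] at hfc
          rw [place_found u F κ q (P.new i t) (Fin.last P.n) hfc, hΨ _ (nodup_new P h.nodup i t)]
          have hrow : P.col.map (fun c => min (t : ℕ) (P.S.J i c)) = row :=
            List.map_congr_left fun c hc => by
              have h1 := P.S.ultra i (P.base r) c; have h2 := P.S.ultra (P.base r) i c
              have h3 := P.S.symm i (P.base r); have := hcol c hc
              have := P.S.ultra (P.base r) c i; have := P.S.symm c i
              omega
          simp only [hΦ, hfc, joins_new, hrow]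
          simp only [c0]
          ring!
        · rw [if_neg ht'] at hfc
          rw [ih (k + 1) _ (h.new i t) hfc hκ']
          simp [hΦ, hfc]
    rw [e, step_add, step_mul, add_eq_left]
    rw [step_cross hj0 hjL hru h hcol (g := fun x => (F x - ρ) * c0) (fun l _ => ?_) fun i t => ?_]
    · have hd : G.m j - G.m (j + 1) ≠ 0 := sub_ne_zero.2 hm
      have hs : ∑ t ∈ Ico j L, G.m (t + 1) * ((F (t + 1) - ρ) * c0 - (F t - ρ) * c0)
          = (∑ t ∈ Ico j L, G.m (t + 1) * (F (t + 1) - F t)) * c0 := by
        rw [sum_mul]; exact sum_congr rfl fun t _ => by ring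
      rw [hs]
      simp only [ρ, rho]
      field_simp
      ring
    · have hfc := fc_hit r j P l
      rw [hn, Option.none_or] at hfc
      simp only [hΦ, P.S.symm l (P.base r)]
      by_cases hl' : P.S.J (P.base r) l = j
      · rw [if_pos hl'] at hfc
        rw [hfc]
        simp [hl', Pos.hit, P.S.symm (P.base u) l]
      · rw [if_neg hl'] at hfc
        simp [hfc, hl']
    · have hfc := fc_new r j P i t
      rw [hn, Option.map_none, Option.none_or] at hfc
      simp only [hΦ]
      by_cases ht' : min (t : ℕ) (P.S.J i (P.base r)) = j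
      · rw [if_pos ht'] at hfc
        rw [hfc]
        simp [ht', Pos.new, Shape.ext, Shape.extJ]
      · rw [if_neg ht'] at hfc
        simp [hfc, ht']

end Vale.Agent.P168.Conc
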