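import Vale.Agent.P168.Conc.Stem

/-!
# P168, concentration: the induction on blocks and the overlap of a whole good shape
-/

open Real Finset

namespace Vale.Agent.P168.Conc

variable {L N n l d : ℕ} {B : Sys L N} {S : Shape L n}

/-- The replacement error in the small parameter. -/
noncomputable def omz (D : ℕ) (z h : ℝ) : ℝ :=
  2 * (D + 1 : ℕ) * (√(√h) + 9 * (D + 1 : ℕ) * z) + 2 * (D + 1 : ℕ) * z

/-- One step of the bound on covariances. -/
noncomputable def stp (D : ℕ) (ε z h : ℝ) : ℝ := (2 * z + (z + 8 * omz D z h * upK D) / lowC D ε) / ε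

/-- The bounds on covariances of blocks of at most `a` replicas. -/
noncomputable def hseq (D : ℕ) (ε z : ℝ) : ℕ → ℝ
  | 0 => 0
  | a + 1 => max (hseq D ε z a) (stp D ε z (hseq D ε z a))

/-- The final bound on a good shape. -/
noncomputable def dev (D : ℕ) (ε z : ℝ) : ℝ :=
  2 * (omz D z (hseq D ε z (D + 1)) + √(√(hseq D ε z (D + 1))
    + (z + 5 * omz D z (hseq D ε z (D + 1)) * upK D) / lowC D ε))

theorem dev_tendsto (D : ℕ) (ε : ℝ) : Filter.Tendsto (dev D ε) (nhds 0) (nhds 0) := by
  have hc : ∀ a, Continuous fun z => hseq D ε z a := by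
    intro a
    induction a with
    | zero => exact continuous_const
    | succ a ih => simp only [hseq, stp, omz]; fun_prop
  have h0 : ∀ a, hseq D ε 0 a = 0 := by
    intro a
    induction a with
    | zero => rfl
    | succ a ih => simp [hseq, stp, omz, ih]
  have hdev : Continuous (dev D ε) := by
    have := hc (D + 1)
    unfold dev omz
    fun_prop
  have := hdev.tendsto 0
  rwa [show dev D ε 0 = 0 by simp [dev, omz, h0]] at this

theorem om_le_omz {D : ℕ} {θ z h : ℝ} (hz : √θ ≤ z) : om (D + 1) θ h ≤ omz D z h := by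
  unfold om omz; gcongr

theorem omz_nonneg {D : ℕ} {z h : ℝ} (hz : 0 ≤ z) : 0 ≤ omz D z h := by
  unfold omz; positivity

/-- All blocks have small covariance. -/
theorem ind_all (hL : 0 < L) {D : ℕ} {η ε θ z : ℝ} (hId : B.Ident (uniformGrid L hL) (2 * D + 2) η)
    (hε : 0 < ε) (hε1 : ε ≤ 1) (hεl : ε ≤ (l : ℝ) / L) (hg : Good l L S.J)
    (hI : Incr (uniformGrid L hL) (lx B) S.J θ) (hzθ : √θ ≤ z) (hzη : η * (L : ℝ) ^ numP D ≤ z)
    (hzL : 1 / (L : ℝ) ≤ z) : ∀ a, a ≤ D + 2 →
      Ind S (uniformGrid L hL) B a θ (hseq D ε z (a - 1)) := by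
  intro a
  induction a with
  | zero => exact fun _ => ⟨hI, fun t _ i h => absurd h (Nat.not_lt_zero _)⟩
  | succ a ih =>
    intro ha
    obtain ⟨-, ih⟩ := ih (by omega)
    refine ⟨hI, fun t ht i hcard σ hσ => ?_⟩
    rw [Nat.add_sub_cancel]
    cases a with
    | zero =>
      exfalso
      have := hg.high _ _ (mem_offs.1 ht).choose_spec.choose_spec.1
      have hi : i ∈ cl S.J (t + 1) i :=
        self_mem_cl hg (by obtain ⟨a, c, hac, e⟩ := mem_offs.1 ht; have := hg.high a c hac; omega) i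
      have := card_pos.2 ⟨i, hi⟩
      omega
    | succ a =>
    rw [Nat.add_sub_cancel] at ih
    by_cases hlt : (cl S.J (t + 1) i).card < a + 1
    · exact (ih t ht i hlt σ hσ).trans (le_max_left _ _)
    obtain ⟨x, y, hxy, hxt⟩ := mem_offs.1 ht
    have h8 := hg.high x y hxy
    have hlow := hg.low x y hxy
    have hcl : cl S.J (t + 1) i = cl S.J (t + σ + 2) i := by
      ext c
      simp only [mem_cl]
      by_cases hic : i = c
      · subst hic; rw [S.self]; omega
      · have := hg.sep x y i c hxy hic; omega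
    have hk : (cl S.J (t + σ + 2) i).card = a + 1 := by rw [← hcl]; omega
    let b : Blk S l (t + σ + 2) i a :=
      { good := hg
        le := by omega
        eA := ((cl S.J (t + σ + 2) i).orderEmbOfFin hk).toEmbedding
        range := fun w => by
          have h := Finset.range_orderEmbOfFin (cl S.J (t + σ + 2) i) hk
          rw [← Finset.mem_coe, ← h]
          rfl }
    have hvec : vec (uniformGrid L hL) (lx B) S.J 0 (t + 1) (cl S.J (t + 1) i)
        = b.X (uniformGrid L hL) B := by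
      rw [vec_unary (lx B) (cl S.J (t + 1) i) (show t + 1 ≤ t + σ + 2 by omega) (fun p hp q hq => ?_)
        (by omega), hcl]
      · rfl
      · rw [hcl, mem_cl] at hp hq
        have := S.ultra p i q; have := S.symm p i
        omega
    rw [hvec]
    have hI' : Ind S (uniformGrid L hL) B (a + 1) θ (hseq D ε z a) := ⟨hI, ih⟩
    refine (hs_bound hL hId hε hε1 hεl b (by omega) hI' (j := t + σ + 1) (by omega) (by omega) ?_).trans
      (le_trans ?_ (le_max_right _ _))
    · rcases Nat.eq_zero_or_pos l with h0 | h0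
      · rw [h0, Nat.cast_zero, zero_div] at hεl; linarith
      · exact h0
    have hz0 : 0 ≤ z := (sqrt_nonneg _).trans hzθ
    have hlc : 0 < lowC D ε := by unfold lowC; positivity
    unfold stp
    refine div_le_div_of_nonneg_right (add_le_add ?_ (div_le_div_of_nonneg_right ?_ hlc.le)) hε.le
    · rw [← mul_one_div]; exact mul_le_mul_of_nonneg_left hzL two_pos.le
    · exact add_le_add hzη (mul_le_mul_of_nonneg_right
        (mul_le_mul_of_nonneg_left (om_le_omz hzθ) (by norm_num)) (upK_nonneg D))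

/-- The overlap of a good shape is concentrated. -/
theorem dev_good (hL : 0 < L) {D : ℕ} {η ε θ z : ℝ} (hId : B.Ident (uniformGrid L hL) (2 * D + 2) η)
    (hε : 0 < ε) (hε1 : ε ≤ 1) (hεl : ε ≤ (l : ℝ) / L) (hl8 : l + 8 ≤ L) {S : Shape L (d + 1)}
    (hd : d ≤ D) (hg : Good l L S.J) (hI : Incr (uniformGrid L hL) (lx B) S.J θ) (hzθ : √θ ≤ z)
    (hzη : η * (L : ℝ) ^ numP D ≤ z) (hzL : 1 / (L : ℝ) ≤ z) {m : ℕ} (Q : Shape L m)
    (emb : Fin (d + 1) → Fin m) (hemb : ∀ a c, Q.J (emb a) (emb c) = S.J a c) :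
    B.E (uniformGrid L hL) Q (fun o ξ => |(mean fun a => zprod B emb o ξ a) -
      B.E (uniformGrid L hL) Q fun o ξ => mean fun a => zprod B emb o ξ a|) ≤ dev D ε z := by
  classical
  set G := uniformGrid L hL with hG
  have hl1 : 1 ≤ l := by
    rcases Nat.eq_zero_or_pos l with h0 | h0
    · rw [h0, Nat.cast_zero, zero_div] at hεl; linarith
    · exact h0
  have huniv : cl S.J (l + 1) 0 = univ := eq_univ_of_forall fun c => by
    rw [mem_cl]
    by_cases h : (0 : Fin (d + 1)) = c
    · subst h; rw [S.self]; omega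
    · exact hg.low 0 c h
  let b : Blk S l (l + 1) 0 d :=
    { good := hg
      le := by omega
      eA := Function.Embedding.refl _
      range := fun w => by simp [huniv] }
  set H := hseq D ε z (D + 1) with hH
  obtain ⟨-, hsmall⟩ := ind_all hL hId hε hε1 hεl hg hI hzθ hzη hzL (D + 2) le_rfl
  have hI' : Ind S G B (d + 1) θ H := ⟨hI, fun t ht i hc => hsmall t ht i (by omega)⟩
  set X := b.X G B with hX
  set Ω := omz D z H with hΩ
  have hz0 : 0 ≤ z := (sqrt_nonneg _).trans hzθ
  have hΩ0 : 0 ≤ Ω := omz_nonneg hz0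
  have hΩb : om (d + 1) θ H ≤ Ω := (om_mono (by omega) θ H).trans (om_le_omz hzθ)
  set y : B.Om → (Fin L → B.Z) → ℝ := fun o p => mean fun a => X o p a with hy
  set g := E1 G B y with hg'
  have hy1 : ∀ o p, |y o p| ≤ 1 := fun o p => abs_mean_le_one fun a => b.X_bd o p a
  have hg1 : |g| ≤ 1 := (abs_sysE_le _ _).trans ((sysE_le _ fun o ξ _ => hy1 o _).trans_eq (sysE_const _ 1))
  have hone : ∀ σ (hσ : σ ≤ 2) (m : ℕ) (Q : Shape L m) (e : Fin (d + 1) → Fin m),
      (∀ a c, Q.J (e a) (e c) = (b.sh σ hσ).J a c) →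
      B.E G Q (fun o ξ => |(mean fun a => zprod B e o ξ a) - y o (ξ (e 0))|) ≤ Ω :=
    fun σ hσ m Q e he => (b.single hI' le_rfl hσ Q e he 0).trans hΩb
  have hsh0 : ∀ a c, (b.sh 0 (by norm_num)).J a c = S.J a c := fun a c => by
    show (if a = c then L else S.J a c + 0) = _
    by_cases h : a = c
    · subst h; rw [if_pos rfl, S.self]
    · rw [if_neg h, Nat.add_zero]
  -- the root equation
  have hge0 : ∀ a c, l ≤ (b.sh 0 (by norm_num)).J a c := fun a c => by
    have := b.sh_ge (σ := 0) (by norm_num) a c; omega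
  set T : Shape L (1 + (d + 1)) := join2 l (Shape.one L) (b.sh 0 (by norm_num)) (by omega)
    (fun _ _ => by show l ≤ L; omega) hge0 with hT
  set Sp : Shape L (d + 1) := b.sh 1 (by norm_num) with hSp
  set r : Fin (1 + (d + 1)) := Fin.castAdd (d + 1) 0
  set u : Fin (1 + (d + 1)) := Fin.natAdd 1 (0 : Fin (d + 1))
  set f : (Fin (1 + (d + 1)) → Fin N → Bool) → ℝ :=
    fun σs => mean fun a => ∏ w : Fin (d + 1), spin (σs (Fin.natAdd 1 w) a) with hf
  set κl : List (List ℕ) → ℝ := fun M => kap Sp.J (joinMat d M) with hκl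
  set Λ := (offs S.J).image (· + 1) with hΛ
  set K := E1 G B fun o p => cndAt G (B.H o) l (y o) p * cndAt G (B.H o) l (y o) p with hK
  have hf1 : ∀ σs, |f σs| ≤ 1 := fun σs => abs_mean_le_one fun a => by
    rw [abs_prod]
    exact prod_le_one (fun _ _ => abs_nonneg _) fun w _ => by cases σs (Fin.natAdd 1 w) a <;> simp [spin]
  have hTr : T.J r u = l := by simp only [T, r, u, join2, Fin.addCases_left, Fin.addCases_right]
  have hEf : |B.E G T (fun _ ξ => f (B.spins ξ)) - g| ≤ Ω := by
    rw [hg', ← sysE_at T u y]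
    refine (sysE_abs_sub_le _ _ _).trans ?_
    exact hone 0 (by norm_num) _ T (fun w => Fin.natAdd 1 w) fun a c => by
      simp only [T, join2, Fin.addCases_right]
  have hEf1 : |B.E G T (fun _ ξ => f (B.spins ξ))| ≤ 1 :=
    (abs_sysE_le _ _).trans ((sysE_le _ fun o ξ _ => hf1 _).trans_eq (sysE_const _ 1))
  have hΛv : ∀ v ∈ Λ, ∃ a c, a ≠ c ∧ v = S.J a c + 1 := fun v hv => by
    simp only [hΛ, mem_image, mem_offs] at hv
    obtain ⟨_, ⟨a, c, hac, rfl⟩, rfl⟩ := hv
    exact ⟨a, c, hac, rfl⟩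
  have hΛL : L ∉ Λ := fun h => by
    obtain ⟨a, c, hac, e⟩ := hΛv L h
    have := hg.high a c hac; omega
  have hΛT : ∀ a a', T.J a a' ∉ Λ := fun a a' hin => by
    obtain ⟨p, q, hpq, e⟩ := hΛv _ hin
    have h1 := hg.high p q hpq; have h2 := hg.low p q hpq
    have hbad : ∀ x y : Fin (d + 1), (b.sh 0 (by norm_num)).J x y = S.J p q + 1 → False := fun x y h => by
      rw [hsh0] at h
      by_cases hxy : x = y
      · subst hxy; rw [S.self] at h; omega
      · have := hg.sep p q x y hpq hxy; omega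
    induction a using Fin.addCases with
    | left a =>
      induction a' using Fin.addCases with
      | left a' => simp only [T, join2, Fin.addCases_left, Shape.one] at e; omega
      | right a' => simp only [T, join2, Fin.addCases_left, Fin.addCases_right] at e; omega
    | right a =>
      induction a' using Fin.addCases with
      | left a' => simp only [T, join2, Fin.addCases_left, Fin.addCases_right] at e; omega
      | right a' => simp only [T, join2, Fin.addCases_right] at e; exact hbad a a' e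
  have hΛP : Λ.card ≤ numP D := card_image_le.trans (offs_card_le.trans (by
    have : (d + 1) ^ 2 ≤ (D + 1) ^ 2 := Nat.pow_le_pow_left (by omega) 2
    unfold numP; omega))
  set μ : ℝ := 1 / L with hμ
  have hμ0 : 0 < μ := by positivity
  set Uμ := μ ^ Λ.card with hUμ
  have hbound : ∀ {c : ℕ} (T' : Shape L c) (r' : Fin c), (∀ a a', T'.J a a' ∉ Λ) → c ≤ 2 * D + 2 →
      ∀ (Φ : Pos L c → ℝ) (A : ℝ), 0 ≤ A →
      (∀ Q, Ok T' r' (d + 1) Q → |Φ Q| ≤ A ∧ (κl Q.joins = 0 → Φ Q = 0)) →
      |(start T' r').place G d Φ| ≤ upK D * A * Uμ := by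
    intro c T' r' hav hc Φ A hA hΦ
    refine place_bound hL T' r' Λ hav hΛL hc (by omega) hΛP hA fun Q hQ => ?_
    by_cases hne : κl Q.joins = 0
    · rw [(hΦ Q hQ).2 hne, abs_zero]; split_ifs <;> linarith
    · have hs : Λ ⊆ seen Λ Q := fun v hv => ?_
      · rw [if_pos hs]
        exact (hΦ Q hQ).1
      obtain ⟨e, -, -, hmem, hJ, -⟩ := kap_emb hQ hne
      obtain ⟨a, a', haa, rfl⟩ := hΛv v hv
      exact mem_seen.2 ⟨hv, _, hmem a, e a', by
        rw [hJ]; simp only [Sp, Blk.sh, shiftS_good _ haa]; rfl⟩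
  have hav1 : ∀ a a', (Shape.one L).J a a' ∉ Λ := fun _ _ => hΛL
  set T0 := Pos.place G d (start (Shape.one L) 0) fun Q => κl Q.joins with hT0
  have hT0u : |T0| ≤ upK D * Uμ := by
    have := hbound (Shape.one L) 0 hav1 (by omega) (fun Q => κl Q.joins) 1 zero_le_one
      fun Q _ => ⟨abs_kap_le _ _, id⟩
    rwa [mul_one] at this
  have hR1 : |(Pos.place G d (start (Shape.one L) 0) fun Q => κl Q.joins *
      B.E G Q.S fun _ ξ => overlap Q.col (B.spins ξ)) - g * T0| ≤ upK D * Ω * Uμ := by
    rw [← place_mul, ← place_sub]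
    refine hbound (Shape.one L) 0 hav1 (by omega) _ _ hΩ0 fun Q hQ => ⟨?_, fun h0 => by simp [h0]⟩
    by_cases hne : κl Q.joins = 0
    · simp [hne, hΩ0]
    obtain ⟨e, -, -, -, hJ, hprod⟩ := kap_emb hQ hne
    rw [mul_comm g, ← mul_sub, abs_mul]
    refine (mul_le_of_le_one_left (abs_nonneg _) (abs_kap_le _ _)).trans ?_
    rw [hg', ← sysE_at Q.S (e 0) y]
    refine (sysE_abs_sub_le _ _ _).trans (le_trans (le_of_eq (sysE_congr _ fun o ξ _ => ?_))
      (hone 1 (by norm_num) _ Q.S e hJ))
    rw [overlap_eq e Q.col hprod o ξ]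
  have hL1 : |((start T r).place G d fun Q => κl Q.joins * B.E G Q.S fun _ ξ =>
      f (fun c => B.spins ξ (Q.base c)) * overlap Q.col (B.spins ξ)) - K * T0| ≤ upK D * (2 * Ω) * Uμ := by
    rw [hT0, ← place_start hL T r κl, ← place_mul, ← place_sub]
    refine hbound T r hΛT (by omega) _ _ (by positivity) fun Q hQ => ⟨?_, fun h0 => by simp [h0]⟩
    by_cases hne : κl Q.joins = 0
    · simp [hne, hΩ0]
    obtain ⟨e, hr, -, -, hJ, hprod⟩ := kap_emb hQ hne
    rw [mul_comm K, ← mul_sub, abs_mul]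
    refine (mul_le_of_le_one_left (abs_nonneg _) (abs_kap_le _ _)).trans ?_
    have hRU : Q.S.J (Q.base r) (Q.base u) = l := (hQ.base r u).trans hTr
    have hval : B.E G Q.S (fun o ξ => y o (ξ (Q.base r)) * y o (ξ (Q.base u))) = K :=
      sysE_pair Q.S hRU (by omega) y y
    rw [← hval]
    refine (sysE_abs_sub_le _ _ _).trans ?_
    have d1 := hone 0 (by norm_num) _ Q.S (fun w => Q.base (Fin.natAdd 1 w)) fun a c => by
      rw [hQ.base]; simp only [T, join2, Fin.addCases_right]
    have d2 := hone 1 (by norm_num) _ Q.S e hJ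
    refine le_trans (sysE_le _ fun o ξ _ => ?_)
      ((sysE_add _ _ _).le.trans ((add_le_add d2 d1).trans (le_of_eq (two_mul Ω).symm)))
    have eF : f (fun c => B.spins ξ (Q.base c))
        = mean fun a => zprod B (fun w => Q.base (Fin.natAdd 1 w)) o ξ a := rfl
    rw [eF, overlap_eq e Q.col hprod o ξ, hr, mul_comm (y o (ξ (Q.base r)))]
    exact abs_mul_sub_le (abs_mean_le_one fun a => zprod_bd _ _ _ _) (hy1 _ _)
  have hid := hId d (1 + (d + 1)) (by omega) (by omega) T r f (kap Sp.J) hf1 (abs_kap_le _)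
    (fun e M he => kap_perm Sp.J e M he)
  have hη0 : 0 ≤ η := (abs_nonneg _).trans hid
  have hmain : |K - g * g| * |T0| ≤ η + 5 * Ω * upK D * Uμ := by
    rw [← abs_mul]
    set A1 := (start T r).place G d fun Q => κl Q.joins * B.E G Q.S fun _ ξ =>
      f (fun c => B.spins ξ (Q.base c)) * overlap Q.col (B.spins ξ) with hA1
    set A2 := Pos.place G d (start (Shape.one L) 0) fun Q => κl Q.joins *
      B.E G Q.S fun _ ξ => overlap Q.col (B.spins ξ) with hA2
    set e0 := B.E G T (fun _ ξ => f (B.spins ξ))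
    have hid' : |A1 - e0 * A2| ≤ η := hid
    have e : (K - g * g) * T0
        = -(A1 - K * T0) + (A1 - e0 * A2) + e0 * (A2 - g * T0) + (e0 - g) * (g * T0) := by ring
    rw [e]
    have h1 : |e0 * (A2 - g * T0)| ≤ upK D * Ω * Uμ := by
      rw [abs_mul]; exact (mul_le_of_le_one_left (abs_nonneg _) hEf1).trans hR1
    have h2 : |(e0 - g) * (g * T0)| ≤ Ω * (upK D * Uμ) := by
      rw [abs_mul, abs_mul]
      exact mul_le_mul hEf ((mul_le_of_le_one_left (abs_nonneg _) hg1).trans hT0u) (by positivity) hΩ0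
    have := abs_add_le (-(A1 - K * T0) + (A1 - e0 * A2) + e0 * (A2 - g * T0)) ((e0 - g) * (g * T0))
    have := abs_add_le (-(A1 - K * T0) + (A1 - e0 * A2)) (e0 * (A2 - g * T0))
    have := abs_add_le (-(A1 - K * T0)) (A1 - e0 * A2)
    rw [abs_neg] at this
    have : 0 ≤ Ω * upK D * Uμ := mul_nonneg (mul_nonneg hΩ0 (upK_nonneg D)) (pow_nonneg hμ0.le _)
    linarith
  have hlo : lowC D ε * Uμ ≤ |T0| := by
    refine total_lower hL Sp hε hε1 (by omega) (e := Λ.card) ?_ (fun a c hac => ?_) fun a c a' c' h1 h2 he => ?_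
    · exact (card_le_card (offs_shift _).le).trans le_rfl
    · refine hεl.trans (div_le_div_of_nonneg_right ?_ (Nat.cast_nonneg _))
      have : l + 1 + 1 ≤ Sp.J a c := b.sh_ge (σ := 1) (by norm_num) a c
      exact_mod_cast (by omega : l ≤ Sp.J a c)
    · simp only [Sp, Blk.sh, shiftS_good _ h1, shiftS_good _ h2] at he ⊢
      have h := hg.node a c a' c' h1 h2 (by simpa [Blk.SA, Shape.comap, b] using he)
      by_cases e : a = a'
      · subst e
        rw [(shiftS _ 1 _).self]
        have := hg.high a c h1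
        show S.J a c + 1 ≤ L
        omega
      · rw [shiftS_good _ e]
        show S.J a c + 1 ≤ S.J a a' + 1
        omega
  have hc : 0 < lowC D ε := by unfold lowC; positivity
  have hU : 1 ≤ Uμ * (L : ℝ) ^ numP D := by
    rw [hUμ, hμ, one_div, inv_pow]
    refine le_trans (le_of_eq (inv_mul_cancel₀ (pow_ne_zero _ (Nat.cast_ne_zero.2 hL.ne'))).symm)
      (mul_le_mul_of_nonneg_left (pow_le_pow_right₀ (Nat.one_le_cast.2 hL) hΛP) (by positivity))
  have hres : |K - g * g| ≤ (z + 5 * Ω * upK D) / lowC D ε := by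
    rw [le_div_iff₀ hc]
    refine le_of_mul_le_mul_right ?_ (show 0 < Uμ by rw [hUμ]; positivity)
    calc |K - g * g| * lowC D ε * Uμ = |K - g * g| * (lowC D ε * Uμ) := by ring
      _ ≤ |K - g * g| * |T0| := mul_le_mul_of_nonneg_left hlo (abs_nonneg _)
      _ ≤ η + 5 * Ω * upK D * Uμ := hmain
      _ ≤ η * (Uμ * (L : ℝ) ^ numP D) + 5 * Ω * upK D * Uμ := by
        linarith [le_mul_of_one_le_right hη0 hU]
      _ = (η * (L : ℝ) ^ numP D + 5 * Ω * upK D) * Uμ := by ring
      _ ≤ _ := mul_le_mul_of_nonneg_right (by linarith) (pow_nonneg hμ0.le _)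
  -- the variance at the root
  have hhs : hs G l X ≤ H := by
    have hI1 : Ind S (uniformGrid L hL) B (d + 1) θ (hseq D ε z D) := by
      obtain ⟨-, h2⟩ := ind_all hL hId hε hε1 hεl hg hI hzθ hzη hzL (D + 1) (by omega)
      exact ⟨hI, fun t ht i hc => h2 t ht i (by omega)⟩
    refine (hs_bound hL hId hε hε1 hεl b (by omega) hI1 le_rfl (by omega) hl1).trans
      (le_trans ?_ (le_max_right _ _))
    unfold stp
    refine div_le_div_of_nonneg_right (add_le_add ?_ (div_le_div_of_nonneg_right ?_ hc.le)) hε.le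
    · rw [← mul_one_div]; exact mul_le_mul_of_nonneg_left hzL two_pos.le
    · exact add_le_add hzη (mul_le_mul_of_nonneg_right
        (mul_le_mul_of_nonneg_left (om_le_omz hzθ) (by norm_num)) (upK_nonneg D))
  have hvar : (E1 G B fun o p => (y o p - g) ^ 2) ≤ √H + (z + 5 * Ω * upK D) / lowC D ε := by
    have e1 : (E1 G B fun o p => (y o p - g) ^ 2) = (E1 G B fun o p => y o p * y o p) - g * g := by
      have e : ∀ o p, (y o p - g) ^ 2 = (y o p * y o p - (2 * g) * y o p) + g * g := fun o p => by ring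
      simp only [e, E1, sysE_add, sysE_sub, sysE_mul, sysE_const]
      simp only [hg', E1]
      ring
    have e2 : (E1 G B fun o p => y o p * y o p) - K
        = E1 G B fun o p => mean fun a => mean fun c => covM G l X o p a c := by
      rw [hK, ← E1_cnd l (fun o p => y o p * y o p)]
      simp only [E1, ← sysE_sub]
      congr 1; funext o ξ
      simp only [hy, mean_mul_mean, cndAt_mean, covM, cv, ← mean_sub]
    have e3 : (E1 G B fun o p => mean fun a => mean fun c => covM G l X o p a c) ≤ √H := by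
      refine le_trans ?_ (sqrt_le_sqrt hhs)
      refine ((sysE_le _ fun o ξ _ => le_abs_self _).trans (sysE_le_sqrt _ _)).trans (sqrt_le_sqrt ?_)
      exact sysE_le _ fun o ξ _ => (sq_mean_le _).trans (mean_le_mean fun a => sq_mean_le _)
    have := (le_abs_self _).trans hres
    linarith
  -- the deviation in `Q`
  set R : B.Om → (Fin m → Fin L → B.Z) → ℝ := fun o ξ => mean fun a => zprod B emb o ξ a with hR
  have hdev : B.E G Q (fun o ξ => |R o ξ - g|)
      ≤ Ω + √(√H + (z + 5 * Ω * upK D) / lowC D ε) := by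
    refine (sysE_le Q fun o ξ _ => abs_sub_le _ (y o (ξ (emb 0))) _).trans
      ((sysE_add Q _ _).le.trans (add_le_add (hone 0 (by norm_num) _ Q emb fun a c => by rw [hemb, hsh0]) ?_))
    refine (sysE_le_sqrt Q fun o ξ => y o (ξ (emb 0)) - g).trans (sqrt_le_sqrt ?_)
    rw [sysE_at Q (emb 0) fun o p => (y o p - g) ^ 2]
    exact hvar
  have hmean : |B.E G Q R - g| ≤ B.E G Q fun o ξ => |R o ξ - g| := by
    have := sysE_abs_sub_le (G := G) Q R fun _ _ => g
    rwa [sysE_const] at this
  refine (sysE_le Q fun o ξ _ => abs_sub_le _ g _).trans ((sysE_add Q _ _).le.trans ?_)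
  rw [sysE_const, abs_sub_comm g]
  show _ ≤ dev D ε z
  unfold dev
  linarith

end Vale.Agent.P168.Conc
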