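import Vale.Agent.P168.Conc.Block

/-!
# P168, concentration: what the identity says about the covariance of one block
-/

open Real Finset

namespace Vale.Agent.P168.Conc

variable {L N n l k t1 j : ℕ} {B : Sys L N} {G : Grid L} {S : Shape L n} {i : Fin n}

/-- The value of a product of two pairs whose second replicas join at `t`. -/
noncomputable def crossF (G : Grid L) (j : ℕ) (X : Vect B) (t : ℕ) : ℝ :=
  E1 G B fun o p => mean fun a => mean fun b =>
    cndAt G (B.H o) j (fun q => X o q a * X o q b) p *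
      cndAt G (B.H o) j (fun q => cv G t X o q a * cv G t X o q b) p

theorem cndAt_sq (G : Grid L) {Z : Type} [Fintype Z] [DecidableEq Z] [Nonempty Z] (H : (Fin L → Z) → ℝ)
    (t : ℕ) (f : (Fin L → Z) → ℝ) (p : Fin L → Z) :
    cndAt G H t f p ^ 2 ≤ cndAt G H t (fun q => f q ^ 2) p := by
  have h := cndAt_mono G H t (φ := fun q => 2 * cndAt G H t f p * f q - cndAt G H t f p ^ 2)
    (ψ := fun q => f q ^ 2) (fun q => by nlinarith [sq_nonneg (f q - cndAt G H t f p)]) p
  rw [cndAt_sub, cndAt_mul_left, cndAt_const] at h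
  linarith

/-- A quadratic form of second moments is a second moment. -/
theorem cndAt_ip_sq (X : Vect B) (t : ℕ) (o : B.Om) (u : Fin N → ℝ) (p : Fin L → B.Z) :
    (mean fun a => mean fun b => cndAt G (B.H o) t (fun q => X o q a * X o q b) p * (u a * u b))
      = cndAt G (B.H o) t (fun q => ip u (X o q) ^ 2) p := by
  have e : ∀ q, ip u (X o q) ^ 2 = mean fun a => mean fun b => (u a * u b) * (X o q a * X o q b) :=
    fun q => by rw [sq, ip, mean_mul_mean]; simp only [mul_mul_mul_comm]
  simp only [e, cndAt_mean, cndAt_mul_left]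
  simp only [mul_comm]

theorem E1_mean {α : Type*} [Fintype α] (φ : α → B.Om → (Fin L → B.Z) → ℝ) :
    (E1 G B fun o p => mean fun a => φ a o p) = mean fun a => E1 G B (φ a) :=
  sysE_mean _ _

theorem crossF_eq (X : Vect B) {j t : ℕ} :
    crossF G j X t = E1 G B fun o p => mean fun a => mean fun b =>
      cndAt G (B.H o) j (fun q => X o q a * X o q b) p * (cv G t X o p a * cv G t X o p b) := by
  simp only [crossF, E1_mean]
  congr 1; funext a; congr 1; funext b
  exact E1_tower (G := G) (B := B) j (fun o p => cndAt G (B.H o) j (fun q => X o q a * X o q b) p)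
    (fun o q => cv G t X o q a * cv G t X o q b) fun o p p' h => cndAt_congr G _ j _ h

theorem crossF_mono (X : Vect B) {j t : ℕ} (hjt : j ≤ t) : crossF G j X t ≤ crossF G j X (t + 1) := by
  rw [crossF_eq, crossF_eq]
  set M : B.Om → (Fin L → B.Z) → Fin N → Fin N → ℝ :=
    fun o p a b => cndAt G (B.H o) j (fun q => X o q a * X o q b) p
  set x : ℕ → Vect B := fun s => cv G s X
  -- the cross terms equal the lower level
  have hc : ∀ a b, (E1 G B fun o p => (M o p a b * x t o p a) * x (t + 1) o p b)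
      = E1 G B fun o p => (M o p a b * x t o p a) * x t o p b := fun a b => by
    have e1 := E1_tower (G := G) (B := B) (t + 1) (fun o p => M o p a b * x t o p a) (fun o q => X o q b)
      fun o p p' h => by
        simp only [M, x, cndAt_congr G (B.H o) j _ fun c hc => h c (by omega),
          cv_congr X t fun c hc => h c (Nat.lt_succ_of_lt hc)]
    have e2 := E1_tower (G := G) (B := B) t (fun o p => M o p a b * x t o p a) (fun o q => X o q b)
      fun o p p' h => by
        simp only [M, x, cndAt_congr G (B.H o) j _ fun c hc => h c (by omega), cv_congr X t h]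
    exact e1.trans e2.symm
  have hsym : ∀ o p a b, M o p a b = M o p b a := fun o p a b => by simp only [M, mul_comm]
  have hc' : ∀ a b, (E1 G B fun o p => (M o p a b * x (t + 1) o p a) * x t o p b)
      = E1 G B fun o p => (M o p a b * x t o p a) * x t o p b := fun a b => by
    have := hc b a
    simp only [fun o p => hsym o p b a] at this
    refine Eq.trans ?_ (this.trans ?_) <;> (congr 1; funext o p; ring)
  have key : (E1 G B fun o p => mean fun a => mean fun b => M o p a b *
      ((x (t + 1) o p a - x t o p a) * (x (t + 1) o p b - x t o p b)))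
      = (E1 G B fun o p => mean fun a => mean fun b => M o p a b * (x (t + 1) o p a * x (t + 1) o p b))
        - E1 G B fun o p => mean fun a => mean fun b => M o p a b * (x t o p a * x t o p b) := by
    simp only [E1_mean, ← mean_sub]
    congr 1; funext a; congr 1; funext b
    have e1 := hc a b
    have e2 := hc' a b
    simp only [E1] at e1 e2 ⊢
    have e : ∀ o p, M o p a b * ((x (t + 1) o p a - x t o p a) * (x (t + 1) o p b - x t o p b))
        = (M o p a b * (x (t + 1) o p a * x (t + 1) o p b) + M o p a b * (x t o p a * x t o p b))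
          - (M o p a b * x t o p a * x (t + 1) o p b + M o p a b * x (t + 1) o p a * x t o p b) :=
      fun o p => by ring
    simp only [e, sysE_sub, sysE_add]
    rw [e1, e2]
    simp only [mul_assoc]
    ring
  have h0 : 0 ≤ E1 G B fun o p => mean fun a => mean fun b => M o p a b *
      ((x (t + 1) o p a - x t o p a) * (x (t + 1) o p b - x t o p b)) :=
    E1_nonneg fun o p => by
      rw [cndAt_ip_sq X j o (fun a => x (t + 1) o p a - x t o p a) p]
      exact (cndAt_const _ _ _ _).symm.le.trans (cndAt_mono G _ j (φ := fun _ => 0) (fun q => sq_nonneg _) p)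
  rw [key] at h0
  exact sub_nonneg.1 h0

theorem crossF_range {X : Vect B} (hX : Bd X) (j t : ℕ) : |crossF G j X t| ≤ 1 := by
  refine (abs_sysE_le _ _).trans ((sysE_le _ fun o ξ _ => ?_).trans_eq (sysE_const _ 1))
  exact abs_mean_le_one fun a => abs_mean_le_one fun b => abs_mul_le_one
    (abs_cndAt_le_one _ _ (fun q => abs_mul_le_one (hX o q a) (hX o q b)) _)
    (abs_cndAt_le_one _ _ (fun q => abs_mul_le_one (cv_bd hX _ o q a) (cv_bd hX _ o q b)) _)

theorem hs_le_crossF (X : Vect B) {j : ℕ} (hj : j ≤ L) :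
    hs G j X ≤ crossF G j X L - crossF G j X j := by
  have eL : crossF G j X L = E1 G B fun o p => mean fun a => mean fun b =>
      cndAt G (B.H o) j (fun q => X o q a * X o q b) p ^ 2 := by
    simp only [crossF, cv, cndAt_top G _ le_rfl, sq]
  rw [eL, crossF_eq, E1, E1, hs, E1, ← sysE_sub]
  refine sysE_le _ fun o ξ _ => ?_
  set p := ξ 0
  set m := cv G j X o p
  have e : ∀ a b, cndAt G (B.H o) j (fun q => X o q a * X o q b) p ^ 2
      - cndAt G (B.H o) j (fun q => X o q a * X o q b) p * (m a * m b)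
      = covM G j X o p a b ^ 2 + (cndAt G (B.H o) j (fun q => X o q a * X o q b) p * (m a * m b)
          - (m a * m a) * (m b * m b)) := fun a b => by
    simp only [covM, m]; ring
  simp only [← mean_sub, e, mean_add]
  refine le_add_of_nonneg_right ?_
  rw [show (mean fun a => mean fun b => cndAt G (B.H o) j (fun q => X o q a * X o q b) p * (m a * m b)
      - (m a * m a) * (m b * m b))
      = (mean fun a => mean fun b => cndAt G (B.H o) j (fun q => X o q a * X o q b) p * (m a * m b))
        - mean fun a => mean fun b => (m a * m a) * (m b * m b) by simp only [mean_sub]]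
  rw [cndAt_ip_sq X j o m p, ← mean_mul_mean, sub_nonneg, ← sq]
  have e2 : (mean fun a => m a * m a) = cndAt G (B.H o) j (fun q => ip m (X o q)) p := by
    simp only [ip, cndAt_mean, cndAt_mul_left, m, cv]
  rw [e2]
  exact cndAt_sq G _ j _ p

/-- The number of levels of two shifted blocks. -/
def numP (D : ℕ) : ℕ := 2 * (D + 1) ^ 2

/-- The constant of the upper bound. -/
noncomputable def upK (D : ℕ) : ℝ := ((4 * D + 4 : ℕ) * ((numP D : ℝ) + 2)) ^ (2 * D + 2)

/-- The constant of the lower bound. -/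
noncomputable def lowC (D : ℕ) (ε : ℝ) : ℝ := (ε / ((2 * D + 2 : ℕ) : ℝ) ^ 2) ^ (2 * D + 2)

theorem upK_nonneg (D : ℕ) : 0 ≤ upK D := by unfold upK; positivity

/-- The levels of the block moved by one and by two. -/
def Blk.lam (b : Blk S l t1 i k) : Finset ℕ :=
  (offs b.SA.J).image (· + 1) ∪ (offs b.SA.J).image (· + 2)

theorem Blk.lam_mem (b : Blk S l t1 i k) {v : ℕ} (hv : v ∈ b.lam) :
    ∃ a c, a ≠ c ∧ (v = b.SA.J a c + 1 ∨ v = b.SA.J a c + 2) := by
  simp only [Blk.lam, mem_union, mem_image, mem_offs] at hv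
  rcases hv with ⟨_, ⟨a, c, h, rfl⟩, rfl⟩ | ⟨_, ⟨a, c, h, rfl⟩, rfl⟩
  · exact ⟨a, c, h, Or.inl rfl⟩
  · exact ⟨a, c, h, Or.inr rfl⟩

theorem Blk.goodA (b : Blk S l t1 i k) : Good l L b.SA.J := b.good.comap _ b.eA.injective

theorem offs_card_le {J : Fin n → Fin n → ℕ} : (offs J).card ≤ n ^ 2 :=
  (card_image_le.trans (card_filter_le _ _)).trans_eq (by simp [sq])

theorem Blk.lam_card (b : Blk S l t1 i k) {D : ℕ} (hk : k + 1 ≤ D + 1) : b.lam.card ≤ numP D := by
  refine (card_union_le _ _).trans ((add_le_add card_image_le card_image_le).trans ?_)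
  have h1 : (offs b.SA.J).card ≤ (k + 1) ^ 2 := offs_card_le
  have h2 : (k + 1) ^ 2 ≤ (D + 1) ^ 2 := Nat.pow_le_pow_left hk 2
  unfold numP
  omega

/-- The base of a test never has a prescribed level. -/
theorem Blk.lam_avoid (b : Blk S l t1 i k) {v : ℕ} (hv : v = L ∨ v ≤ j ∨ ∃ a c, a ≠ c ∧ v = b.SA.J a c)
    (hj : j < t1) : v ∉ b.lam := by
  intro hl
  obtain ⟨a, c, hac, hlam⟩ := b.lam_mem hl
  have h8 := b.goodA.high a c hac
  have hge := b.ge a c
  rcases hv with h | h | ⟨a', c', hac', h⟩
  · omega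
  · omega
  · have := b.goodA.sep a' c' a c hac' hac
    have := b.goodA.sep a c a' c' hac hac'
    omega

theorem Blk.lam_L (b : Blk S l t1 i k) (hj : j < t1) : L ∉ b.lam := b.lam_avoid (j := j) (Or.inl rfl) hj

/-- The covariance of a block is small. -/
theorem hs_bound (hL : 0 < L) {D : ℕ} {η ε θ h : ℝ} (hId : B.Ident (uniformGrid L hL) (2 * D + 2) η)
    (hε : 0 < ε) (hε1 : ε ≤ 1) (hεl : ε ≤ (l : ℝ) / L) (b : Blk S l t1 i k) (hk : k + 1 ≤ D + 1)
    (hI : Ind S (uniformGrid L hL) B (k + 1) θ h) (hlj : l ≤ j) (hjt : j < t1) (hl0 : 1 ≤ l) :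
    hs (uniformGrid L hL) j (b.X (uniformGrid L hL) B)
      ≤ (2 / L + (η * (L : ℝ) ^ numP D + 8 * om (D + 1) θ h * upK D) / lowC D ε) / ε := by
  classical
  set G := uniformGrid L hL with hG
  have hjL : j < L := by have := b.le; omega
  set X := b.X G B with hX
  set Ω := om (D + 1) θ h with hΩ
  have hΩ0 : 0 ≤ Ω := om_nonneg _ _ _
  -- the test and the pattern
  have hge : ∀ σ (hσ : σ ≤ 2) a c, j ≤ (b.sh σ hσ).J a c := fun σ hσ a c => by
    have := b.sh_ge hσ a c; omega
  set T : Shape L (k + 1 + (k + 1)) := join2 j (b.sh 0 (by norm_num)) (b.sh 0 (by norm_num)) hjL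
    (hge 0 _) (hge 0 _) with hT
  set Sp : Shape L (k + 1 + k + 1) := join2 (n₁ := k + 1) (n₂ := k + 1) j (b.sh 1 (by norm_num)) (b.sh 2 le_rfl) hjL (hge 1 _) (hge 2 _)
    with hSp
  set r : Fin (k + 1 + (k + 1)) := Fin.castAdd (k + 1) 0
  set u : Fin (k + 1 + (k + 1)) := Fin.natAdd (k + 1) 0
  set f : (Fin (k + 1 + (k + 1)) → Fin N → Bool) → ℝ := fun σs => mean fun a => ∏ z, spin (σs z a) with hf
  set g := qn G X j
  set κl : List (List ℕ) → ℝ := fun M => kap Sp.J (joinMat (k + 1 + k) M) with hκl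
  have hf1 : ∀ σs, |f σs| ≤ 1 := fun σs => abs_mean_le_one fun a => by
    rw [abs_prod]
    exact prod_le_one (fun _ _ => abs_nonneg _) fun z _ => by cases σs z a <;> simp [spin]
  have hTr : T.J r u = j := by simp only [T, r, u, join2, Fin.addCases_left, Fin.addCases_right]
  have hpairv : ∀ (m : ℕ) (Q : Shape L m) (x y : Fin m), Q.J x y = j →
      B.E G Q (fun o ξ => ip (X o (ξ x)) (X o (ξ y))) = g := fun m Q x y hxy => by
    simp only [ip, sysE_mean, g, qn, E1_mean, sq, cv]
    congr 1; funext a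
    exact sysE_pair Q hxy hjL (fun o q => X o q a) (fun o q => X o q a)
  -- the averaged products of a pattern
  have hblock : ∀ σ₁ σ₂ (h₁ : σ₁ ≤ 2) (h₂ : σ₂ ≤ 2) (m : ℕ) (Q : Shape L m)
      (emb : Fin (k + 1 + (k + 1)) → Fin m),
      (∀ a c, Q.J (emb a) (emb c) = (join2 j (b.sh σ₁ h₁) (b.sh σ₂ h₂) hjL (hge _ h₁) (hge _ h₂)).J a c) →
      ∀ a1, B.E G Q (fun o ξ => |(mean fun a => zprod B emb o ξ a) -
        ip (X o (ξ (emb (Fin.castAdd (k + 1) 0)))) (X o (ξ (emb (Fin.natAdd (k + 1) a1))))|) ≤ 2 * Ω :=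
    fun σ₁ σ₂ h₁ h₂ m Q emb he a1 => (b.double hI le_rfl h₁ h₂ hjt Q emb hjL he 0 a1).trans
      (mul_le_mul_of_nonneg_left (om_mono hk θ h) two_pos.le)
  -- the right side
  have hEf : |B.E G T (fun _ ξ => f (B.spins ξ)) - g| ≤ 2 * Ω := by
    rw [← hpairv _ T r u hTr]
    exact (sysE_abs_sub_le _ _ _).trans (hblock 0 0 (by norm_num) (by norm_num) _ T id (fun a c => rfl) 0)
  have hEf1 : |B.E G T (fun _ ξ => f (B.spins ξ))| ≤ 1 :=
    (abs_sysE_le _ _).trans ((sysE_le _ fun o ξ _ => hf1 _).trans_eq (sysE_const _ 1))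
  have hg1 : |g| ≤ 1 := by
    rw [abs_of_nonneg (qn_nonneg _ _)]; exact qn_le_one b.X_bd _
  have hseen : ∀ {c : ℕ} {T' : Shape L c} {r' : Fin c} (Q : Pos L c), Ok T' r' (k + 1 + k + 1) Q →
      κl Q.joins ≠ 0 → b.lam ⊆ seen b.lam Q := by
    intro c T' r' Q hQ hne v hv
    obtain ⟨emb, -, -, hmem, hJ, -⟩ := kap_emb hQ hne
    obtain ⟨a, a', haa, hv'⟩ := b.lam_mem hv
    refine mem_seen.2 ⟨hv, ?_⟩
    rcases hv' with rfl | rfl
    · exact ⟨_, hmem (Fin.castAdd (k + 1) a), emb (Fin.castAdd (k + 1) a'), by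
        rw [hJ]; simp only [Sp, join2, Blk.sh, Fin.addCases_left, Fin.addCases_right, shiftS_good _ haa]⟩
    · exact ⟨_, hmem (Fin.natAdd (k + 1) a), emb (Fin.natAdd (k + 1) a'), by
        rw [hJ]; simp only [Sp, join2, Blk.sh, Fin.addCases_left, Fin.addCases_right, shiftS_good _ haa]⟩
  have hbound : ∀ {c : ℕ} (T' : Shape L c) (r' : Fin c), (∀ a a', T'.J a a' ∉ b.lam) → c ≤ 2 * D + 2 →
      ∀ (Φ : Pos L c → ℝ) (A : ℝ), 0 ≤ A →
      (∀ Q, Ok T' r' (k + 1 + k + 1) Q → |Φ Q| ≤ A ∧ (κl Q.joins = 0 → Φ Q = 0)) →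
      |(start T' r').place G (k + 1 + k) Φ| ≤ upK D * A * (1 / L : ℝ) ^ b.lam.card := by
    intro c T' r' hav hc Φ A hA hΦ
    refine place_bound hL T' r' b.lam hav (b.lam_L hjt) hc (by omega) (b.lam_card hk) hA fun Q hQ => ?_
    by_cases hne : κl Q.joins = 0
    · rw [(hΦ Q hQ).2 hne, abs_zero]; split_ifs <;> linarith
    · rw [if_pos (hseen Q hQ hne)]; exact (hΦ Q hQ).1
  have havT : ∀ a a', T.J a a' ∉ b.lam := fun a a' => by
    refine b.lam_avoid (j := j) ?_ hjt
    induction a using Fin.addCases with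
    | left a =>
      induction a' using Fin.addCases with
      | left a' =>
        simp only [T, join2, Fin.addCases_left, Blk.sh, shiftS]
        by_cases e : a = a'
        · exact Or.inl (if_pos e)
        · exact Or.inr (Or.inr ⟨a, a', e, by simp [e]⟩)
      | right a' => exact Or.inr (Or.inl (by simp only [T, join2, Fin.addCases_left, Fin.addCases_right, le_refl]))
    | right a =>
      induction a' using Fin.addCases with
      | left a' => exact Or.inr (Or.inl (by simp only [T, join2, Fin.addCases_left, Fin.addCases_right, le_refl]))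
      | right a' =>
        simp only [T, join2, Fin.addCases_right, Blk.sh, shiftS]
        by_cases e : a = a'
        · exact Or.inl (if_pos e)
        · exact Or.inr (Or.inr ⟨a, a', e, by simp [e]⟩)
  have hav1 : ∀ a a', (Shape.one L).J a a' ∉ b.lam := fun _ _ => b.lam_L hjt
  set T0 := Pos.place G (k + 1 + k) (start (Shape.one L) 0) fun Q => κl Q.joins with hT0
  set μ : ℝ := 1 / L with hμ
  have hμ0 : 0 < μ := by positivity
  set Uμ := μ ^ b.lam.card with hUμ
  have hT0u : |T0| ≤ upK D * Uμ := by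
    have := hbound (Shape.one L) 0 hav1 (by omega) (fun Q => κl Q.joins) 1 zero_le_one
      fun Q _ => ⟨abs_kap_le _ _, id⟩
    rwa [mul_one] at this
  -- right total
  have hR1 : |(Pos.place G (k + 1 + k) (start (Shape.one L) 0) fun Q => κl Q.joins *
      B.E G Q.S fun _ ξ => overlap Q.col (B.spins ξ)) - g * T0| ≤ upK D * (2 * Ω) * Uμ := by
    rw [← place_mul, ← place_sub]
    refine hbound (Shape.one L) 0 hav1 (by omega) _ _ (by positivity) fun Q hQ => ⟨?_, fun h0 => by simp [h0]⟩
    by_cases hne : κl Q.joins = 0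
    · simp [hne]; positivity
    obtain ⟨emb, -, -, -, hJ, hprod⟩ := kap_emb hQ hne
    rw [mul_comm g, ← mul_sub, abs_mul]
    refine (mul_le_of_le_one_left (abs_nonneg _) (abs_kap_le _ _)).trans ?_
    rw [← hpairv _ Q.S (emb (Fin.castAdd (k + 1) 0)) (emb (Fin.natAdd (k + 1) (0 : Fin (k + 1)))) (by rw [hJ]; simp only [Sp, join2, Fin.addCases_left, Fin.addCases_right])]
    refine (sysE_abs_sub_le _ _ _).trans (le_trans (le_of_eq (sysE_congr _ fun o ξ _ => ?_))
      (hblock 1 2 (by norm_num) le_rfl _ Q.S emb hJ 0))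
    rw [overlap_eq emb Q.col hprod o ξ]
  -- left total
  set F := crossF G j X with hF
  have hm : G.m j - G.m (j + 1) = -μ := by
    show (j : ℝ) / L - ((j + 1 : ℕ) : ℝ) / L = _
    push_cast; rw [hμ]; ring
  have hfc : ∀ Q, Ok T r (k + 1 + k + 1) Q → κl Q.joins ≠ 0 → ∀ emb : Fin (k + 1 + (k + 1)) → Fin Q.n,
      emb r = Q.base r → (∀ z ∈ Q.col, ∃ a, emb a = z) → (∀ a, emb a ∈ Q.col) →
      (∀ a c, Q.S.J (emb a) (emb c) = Sp.J a c) →
      ∃ a1, fc r j Q = some (emb (Fin.natAdd (k + 1) a1)) := by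
    intro Q hQ _ emb hr hcov hmem hJ
    rcases hv : fc r j Q with _ | v
    · have := List.find?_eq_none.1 hv _ (hmem (Fin.natAdd (k + 1) 0))
      simp only [← hr, hJ, Sp, r, join2, Fin.addCases_left, Fin.addCases_right, decide_eq_true_eq, not_true] at this
    · have hvmem := List.mem_of_find?_eq_some hv
      have hvj : Q.S.J (Q.base r) v = j := by simpa using List.find?_some hv
      obtain ⟨a, rfl⟩ := hcov v hvmem
      rw [← hr, hJ] at hvj
      induction a using Fin.addCases with
      | left a =>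
        exfalso
        have h1 : (b.sh 1 (by norm_num)).J 0 a = j := by simpa only [Sp, r, join2, Fin.addCases_left, Fin.addCases_right] using hvj
        have := b.sh_ge (σ := 1) (by norm_num) 0 a
        omega
      | right a => exact ⟨a, rfl⟩
  have hL1 : |((start T r).place G (k + 1 + k) fun Q => κl Q.joins * B.E G Q.S fun _ ξ =>
      f (fun c => B.spins ξ (Q.base c)) * overlap Q.col (B.spins ξ))
      - (start T r).place G (k + 1 + k) fun Q => κl Q.joins * fv r u j F Q| ≤ upK D * (4 * Ω) * Uμ := by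
    rw [← place_sub]
    refine hbound T r havT (by omega) _ _ (by positivity) fun Q hQ => ⟨?_, fun h0 => by simp [h0]⟩
    by_cases hne : κl Q.joins = 0
    · simp [hne]; positivity
    obtain ⟨emb, hr, hcov, hmem, hJ, hprod⟩ := kap_emb hQ hne
    have hr' : emb r = Q.base r := hr
    obtain ⟨a1, hv⟩ := hfc Q hQ hne emb hr' hcov hmem hJ
    rw [← mul_sub, abs_mul]
    refine (mul_le_of_le_one_left (abs_nonneg _) (abs_kap_le _ _)).trans ?_
    simp only [fv, hv]
    set R := Q.base r
    set U := Q.base u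
    set V := emb (Fin.natAdd (k + 1) a1)
    have hRU : Q.S.J R U = j := (hQ.base r u).trans hTr
    have hRV : Q.S.J R V = j := by
      rw [show R = emb r from hr'.symm, hJ]
      simp only [Sp, r, join2, Fin.addCases_left, Fin.addCases_right]
    have hval : B.E G Q.S (fun o ξ => ip (X o (ξ R)) (X o (ξ U)) * ip (X o (ξ R)) (X o (ξ V)))
        = F (Q.S.J U V) := by
      have e : ∀ o (ξ : Fin Q.n → Fin L → B.Z), ip (X o (ξ R)) (X o (ξ U)) * ip (X o (ξ R)) (X o (ξ V))
          = mean fun a => mean fun c => (X o (ξ R) a * X o (ξ R) c) * (X o (ξ U) a * X o (ξ V) c) := by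
        intro o ξ
        rw [ip, ip, mean_mul_mean]
        simp only [mul_mul_mul_comm]
      rw [sysE_congr Q.S fun o ξ _ => e o ξ]
      simp only [sysE_mean]
      simp only [F, crossF, E1_mean, cv]
      congr 1; funext a; congr 1; funext c
      exact sysE_triple Q.S hRU hRV hjL (fun o q => X o q a * X o q c) (fun o q => X o q a) fun o q => X o q c
    rw [← hval]
    refine (sysE_abs_sub_le _ _ _).trans ?_
    have d1 := hblock 0 0 (by norm_num) (by norm_num) _ Q.S Q.base (fun a c => hQ.base a c) 0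
    have d2 := hblock 1 2 (by norm_num) le_rfl _ Q.S emb hJ a1
    refine le_trans (sysE_le _ fun o ξ _ => ?_)
      ((sysE_add _ _ _).le.trans ((add_le_add d2 d1).trans (le_of_eq (by ring))))
    rw [show emb (Fin.castAdd (k + 1) 0) = R from hr']
    have eF : f (fun c => B.spins ξ (Q.base c)) = mean fun a => zprod B Q.base o ξ a := rfl
    rw [eF, overlap_eq emb Q.col hprod o ξ]
    exact abs_mul_sub_le (abs_mean_le_one fun a => zprod_bd _ _ _ _)
      (abs_ip_one (b.X_bd o _) (b.X_bd o _))
  have hρ : (start T r).place G (k + 1 + k) (fun Q => κl Q.joins * fv r u j F Q) = rho G j F * T0 := by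
    rw [place_cross (by omega) hjL (fun e => by rw [e, sub_self] at hm; linarith) hTr F κl (k + 1 + k) 1 _
      (Ok.start T r) (by simp [fc, start, T.self, hjL.ne']) fun Q hQ hnone => ?_, place_start hL T r κl]
    by_contra hne
    have hQ' : Ok T r (k + 1 + k + 1) Q := by convert hQ using 1; omega
    obtain ⟨emb, hr, hcov, hmem, hJ, -⟩ := kap_emb hQ' hne
    obtain ⟨a1, hv⟩ := hfc Q hQ' hne emb hr hcov hmem hJ
    simp [hnone] at hv
  have hid := hId (k + 1 + k) (k + 1 + (k + 1)) (by omega) (by omega) T r f (kap Sp.J) hf1 (abs_kap_le _)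
    (fun e M he => kap_perm Sp.J e M he)
  have hη0 : 0 ≤ η := (abs_nonneg _).trans hid
  have hmain : |rho G j F - g * g| * |T0| ≤ η + 8 * Ω * upK D * Uμ := by
    rw [← abs_mul]
    set A1 := (start T r).place G (k + 1 + k) fun Q => κl Q.joins * B.E G Q.S fun _ ξ =>
      f (fun c => B.spins ξ (Q.base c)) * overlap Q.col (B.spins ξ) with hA1
    set A2 := Pos.place G (k + 1 + k) (start (Shape.one L) 0) fun Q => κl Q.joins *
      B.E G Q.S fun _ ξ => overlap Q.col (B.spins ξ) with hA2
    set e0 := B.E G T (fun _ ξ => f (B.spins ξ))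
    have hid' : |A1 - e0 * A2| ≤ η := hid
    rw [hρ] at hL1
    have e : (rho G j F - g * g) * T0
        = -(A1 - rho G j F * T0) + (A1 - e0 * A2) + e0 * (A2 - g * T0) + (e0 - g) * (g * T0) := by ring
    rw [e]
    have h1 : |e0 * (A2 - g * T0)| ≤ upK D * (2 * Ω) * Uμ := by
      rw [abs_mul]; exact (mul_le_of_le_one_left (abs_nonneg _) hEf1).trans hR1
    have h2 : |(e0 - g) * (g * T0)| ≤ 2 * Ω * (upK D * Uμ) := by
      rw [abs_mul, abs_mul]
      exact mul_le_mul hEf ((mul_le_of_le_one_left (abs_nonneg _) hg1).trans hT0u) (by positivity)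
        (by positivity)
    have := abs_add_le (-(A1 - rho G j F * T0) + (A1 - e0 * A2) + e0 * (A2 - g * T0)) ((e0 - g) * (g * T0))
    have := abs_add_le (-(A1 - rho G j F * T0) + (A1 - e0 * A2)) (e0 * (A2 - g * T0))
    have := abs_add_le (-(A1 - rho G j F * T0)) (A1 - e0 * A2)
    rw [abs_neg] at this
    linarith
  -- the pattern has one more level
  have hnode : ∀ a c a' c', a ≠ c → a' ≠ c' → Sp.J a c = Sp.J a' c' → Sp.J a c ≤ Sp.J a a' := by
    have val : ∀ a c : Fin (k + 1 + k + 1), a ≠ c → Sp.J a c = j ∨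
        ∃ x y, x ≠ y ∧ ((a = Fin.castAdd (k + 1) x ∧ c = Fin.castAdd (k + 1) y ∧ Sp.J a c = b.SA.J x y + 1) ∨
          (a = Fin.natAdd (k + 1) x ∧ c = Fin.natAdd (k + 1) y ∧ Sp.J a c = b.SA.J x y + 2)) := by
      intro a c hac
      induction a using Fin.addCases (m := k + 1) (n := k + 1) with
      | left a =>
        induction c using Fin.addCases (m := k + 1) (n := k + 1) with
        | left c =>
          have hne : a ≠ c := fun e => hac (e ▸ rfl)
          exact Or.inr ⟨a, c, hne, Or.inl ⟨rfl, rfl, by simp only [Sp, join2, Blk.sh, Fin.addCases_left, Fin.addCases_right, shiftS_good _ hne]⟩⟩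
        | right c => exact Or.inl (by simp only [Sp, join2, Fin.addCases_left, Fin.addCases_right])
      | right a =>
        induction c using Fin.addCases (m := k + 1) (n := k + 1) with
        | left c => exact Or.inl (by simp only [Sp, join2, Fin.addCases_left, Fin.addCases_right])
        | right c =>
          have hne : a ≠ c := fun e => hac (e ▸ rfl)
          exact Or.inr ⟨a, c, hne, Or.inr ⟨rfl, rfl, by simp only [Sp, join2, Blk.sh, Fin.addCases_left, Fin.addCases_right, shiftS_good _ hne]⟩⟩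
    have hall : ∀ a a', j ≤ Sp.J a a' := fun a a' => by
      by_cases e : a = a'
      · rw [e, Sp.self]; exact hjL.le
      rcases val a a' e with h' | ⟨x, y, -, ⟨-, -, h'⟩ | ⟨-, -, h'⟩⟩ <;> rw [h'] <;>
        first
          | exact le_rfl
          | (have := b.ge x y; omega)
    intro a c a' c' hac hac' heq
    rcases val a c hac with h1 | ⟨x, y, hxy, h1⟩
    · rw [h1]; exact hall a a'
    rcases val a' c' hac' with h2 | ⟨x', y', hxy', h2⟩
    · rw [heq, h2]; exact hall a a'
    have hn := b.goodA.node x y x' y' hxy hxy'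
    have hs1 := b.goodA.sep x y x' y' hxy hxy'
    have hs2 := b.goodA.sep x' y' x y hxy' hxy
    rcases h1 with ⟨rfl, -, h1⟩ | ⟨rfl, -, h1⟩ <;> rcases h2 with ⟨rfl, -, h2⟩ | ⟨rfl, -, h2⟩ <;>
      rw [h1, h2] at heq <;> rw [h1]
    · by_cases e : x = x'
      · subst e; rw [Sp.self]
        have := b.shift_lt (σ := 1) (by norm_num) x y hxy; omega
      · simp only [Sp, join2, Blk.sh, Fin.addCases_left, shiftS_good _ e]
        have := hn (by omega); omega
    · omega
    · omega
    · by_cases e : x = x'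
      · subst e; rw [Sp.self]
        have := b.shift_lt (σ := 2) le_rfl x y hxy; omega
      · simp only [Sp, join2, Blk.sh, Fin.addCases_right, shiftS_good _ e]
        have := hn (by omega); omega
  have hlow : ∀ a c, a ≠ c → ε ≤ (Sp.J a c : ℝ) / L := fun a c _ => by
    refine hεl.trans (div_le_div_of_nonneg_right ?_ (Nat.cast_nonneg _))
    have : j ≤ Sp.J a c := by
      induction a using Fin.addCases (m := k + 1) (n := k + 1) with
      | left a =>
        induction c using Fin.addCases (m := k + 1) (n := k + 1) with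
        | left c => simpa only [Sp, join2, Fin.addCases_left, Fin.addCases_right] using hge 1 (by norm_num) a c
        | right c => simp only [Sp, join2, Fin.addCases_left, Fin.addCases_right, le_refl]
      | right a =>
        induction c using Fin.addCases (m := k + 1) (n := k + 1) with
        | left c => simp only [Sp, join2, Fin.addCases_left, Fin.addCases_right, le_refl]
        | right c => simpa only [Sp, join2, Fin.addCases_left, Fin.addCases_right] using hge 2 le_rfl a c
    exact_mod_cast hlj.trans this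
  have hcard : (offs Sp.J).card ≤ b.lam.card + 1 := by
    refine (card_le_card (fun v hv => ?_)).trans (card_insert_le j b.lam)
    obtain ⟨a, c, hac, rfl⟩ := mem_offs.1 hv
    rw [mem_insert]
    induction a using Fin.addCases (m := k + 1) (n := k + 1) with
    | left a =>
      induction c using Fin.addCases (m := k + 1) (n := k + 1) with
      | left c =>
        have hne : a ≠ c := fun e => hac (e ▸ rfl)
        refine Or.inr (mem_union_left _ (mem_image.2 ⟨_, mem_offs.2 ⟨a, c, hne, rfl⟩, ?_⟩))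
        simp only [Sp, join2, Blk.sh, Fin.addCases_left, Fin.addCases_right, shiftS_good _ hne]
      | right c => exact Or.inl (by simp only [Sp, join2, Fin.addCases_left, Fin.addCases_right])
    | right a =>
      induction c using Fin.addCases (m := k + 1) (n := k + 1) with
      | left c => exact Or.inl (by simp only [Sp, join2, Fin.addCases_left, Fin.addCases_right])
      | right c =>
        have hne : a ≠ c := fun e => hac (e ▸ rfl)
        refine Or.inr (mem_union_right _ (mem_image.2 ⟨_, mem_offs.2 ⟨a, c, hne, rfl⟩, ?_⟩))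
        simp only [Sp, join2, Blk.sh, Fin.addCases_left, Fin.addCases_right, shiftS_good _ hne]
  have hlo : lowC D ε * μ ^ (b.lam.card + 1) ≤ |T0| :=
    total_lower hL Sp hε hε1 (by omega) hcard hlow hnode
  have hc : 0 < lowC D ε := by unfold lowC; positivity
  have hU : 1 ≤ Uμ * (L : ℝ) ^ numP D := by
    rw [hUμ, hμ, one_div, inv_pow]
    refine le_trans (le_of_eq (inv_mul_cancel₀ (pow_ne_zero _ (Nat.cast_ne_zero.2 hL.ne'))).symm)
      (mul_le_mul_of_nonneg_left (pow_le_pow_right₀ (Nat.one_le_cast.2 hL) (b.lam_card hk)) (by positivity))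
  have hres : |rho G j F - g * g| * μ ≤ (η * (L : ℝ) ^ numP D + 8 * Ω * upK D) / lowC D ε := by
    rw [le_div_iff₀ hc]
    refine le_of_mul_le_mul_right ?_ (show 0 < Uμ by rw [hUμ]; positivity)
    calc |rho G j F - g * g| * μ * lowC D ε * Uμ
        = |rho G j F - g * g| * (lowC D ε * μ ^ (b.lam.card + 1)) := by rw [hUμ, pow_succ]; ring
      _ ≤ |rho G j F - g * g| * |T0| := mul_le_mul_of_nonneg_left hlo (abs_nonneg _)
      _ ≤ η + 8 * Ω * upK D * Uμ := hmain
      _ ≤ η * (Uμ * (L : ℝ) ^ numP D) + 8 * Ω * upK D * Uμ := by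
        linarith [le_mul_of_one_le_right hη0 hU]
      _ = _ := by ring
  -- the increments
  set Sg := ∑ t ∈ Ico j L, G.m (t + 1) * (F (t + 1) - F t) with hSg
  have hSig : Sg = μ * (F j - rho G j F) := by
    have e : rho G j F = F j + Sg / (-μ) := by rw [← hm]; rfl
    rw [e]
    field_simp
    ring
  have hlow2 : ε * (F L - F j) ≤ Sg := by
    rw [hSg, ← sum_Ico_sub F hjL.le, mul_sum]
    refine sum_le_sum fun t ht => mul_le_mul_of_nonneg_right ?_
      (sub_nonneg.2 (crossF_mono X (mem_Ico.1 ht).1))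
    refine hεl.trans ?_
    show (l : ℝ) / L ≤ ((t + 1 : ℕ) : ℝ) / L
    have := (mem_Ico.1 ht).1
    exact div_le_div_of_nonneg_right (by exact_mod_cast (by omega : l ≤ t + 1)) (Nat.cast_nonneg _)
  have hFj : F j ≤ 1 := (le_abs_self _).trans (crossF_range b.X_bd _ _)
  rw [le_div_iff₀ hε]
  refine ((mul_le_mul_of_nonneg_right (hs_le_crossF X hjL.le) hε.le).trans_eq (mul_comm _ _)).trans
    (hlow2.trans ?_)
  have h2 : -(rho G j F - g * g) ≤ |rho G j F - g * g| := neg_le_abs _
  have hgg : 0 ≤ g * g := mul_self_nonneg g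
  have e2 : (2 : ℝ) / L = 2 * μ := by rw [hμ]; ring
  nlinarith

end Vale.Agent.P168.Conc
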