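import Vale.Agent.P168.Conc.Expect
import Vale.Agent.P168.Conc.Pattern

/-!
# P168, concentration: vectors at the nodes of a shape and the replacement of a block by its vector
-/

open Real Finset

namespace Vale.Agent.P168.Conc

variable {L N n l : ℕ} {B : Sys L N} {G : Grid L} {J : Fin n → Fin n → ℕ}

/-- The class of `i` at level `t`. -/
def cl (J : Fin n → Fin n → ℕ) (t : ℕ) (i : Fin n) : Finset (Fin n) := univ.filter fun c => t ≤ J i c

/-- The parts of `A` at level `t`. -/
def kids (J : Fin n → Fin n → ℕ) (t : ℕ) (A : Finset (Fin n)) : Finset (Finset (Fin n)) :=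
  A.image fun a => A.filter fun c => t + 1 ≤ J a c

/-- The vector of a set of replicas, `d` levels below the top, all levels moved by `σ`. -/
noncomputable def vrec (G : Grid L) (x : Vect B) (J : Fin n → Fin n → ℕ) (σ : ℕ) :
    ℕ → Finset (Fin n) → Vect B
  | 0, A => fun o q a => ∏ _z ∈ A, x o q a
  | d + 1, A =>
    if (kids J (L - σ - (d + 1)) A).card ≤ 1 then vrec G x J σ d A
    else fun o p a => ∏ c ∈ kids J (L - σ - (d + 1)) A, cv G (L - σ - (d + 1) + σ) (vrec G x J σ d c) o p a

/-- The vector of a set of replicas meeting at level `t`, all levels moved by `σ`. -/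
noncomputable def vec (G : Grid L) (x : Vect B) (J : Fin n → Fin n → ℕ) (σ t : ℕ) (A : Finset (Fin n)) :
    Vect B :=
  vrec G x J σ (L - σ - t) A

theorem mem_cl {t : ℕ} {i c : Fin n} : c ∈ cl J t i ↔ t ≤ J i c := by simp [cl]

theorem vec_step (x : Vect B) {σ t : ℕ} (h : t + σ < L) (A : Finset (Fin n)) :
    vec G x J σ t A = if (kids J t A).card ≤ 1 then vec G x J σ (t + 1) A
      else fun o p a => ∏ c ∈ kids J t A, cv G (t + σ) (vec G x J σ (t + 1) c) o p a := by
  have e : L - σ - t = L - σ - (t + 1) + 1 := by omega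
  have e' : L - σ - (L - σ - (t + 1) + 1) = t := by omega
  simp only [vec]
  rw [e, vrec, e']

theorem vec_top (x : Vect B) {σ t : ℕ} (h : L ≤ t + σ) (A : Finset (Fin n)) :
    vec G x J σ t A = fun o q a => ∏ _z ∈ A, x o q a := by
  rw [vec, show L - σ - t = 0 by omega]
  rfl

theorem vec_bd {x : Vect B} (hx : Bd x) (σ t : ℕ) (A : Finset (Fin n)) : Bd (vec G x J σ t A) := by
  rw [vec]
  induction L - σ - t generalizing A with
  | zero =>
    intro o q a
    rw [vrec, abs_prod]
    exact prod_le_one (fun _ _ => abs_nonneg _) fun _ _ => hx o q a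
  | succ d ih =>
    rw [vrec]
    split_ifs with h
    · exact ih A
    · intro o p a
      rw [abs_prod]
      exact prod_le_one (fun _ _ => abs_nonneg _) fun c _ => cv_bd (ih c) _ o p a

theorem vec_singleton (x : Vect B) (hself : ∀ a, J a a = L) (σ t : ℕ) (i : Fin n) :
    vec G x J σ t {i} = x := by
  induction hd : L - σ - t generalizing t with
  | zero => rw [vec_top x (by omega)]; simp
  | succ d ih =>
    rw [vec_step x (by omega), if_pos (by simp [kids]), ih (t + 1) (by omega)]

/-- Levels without a branching do not change the vector. -/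
theorem vec_unary (x : Vect B) {σ t t' : ℕ} (A : Finset (Fin n)) (htt : t ≤ t')
    (h : ∀ a ∈ A, ∀ c ∈ A, t' ≤ J a c) (ht' : t' + σ ≤ L) : vec G x J σ t A = vec G x J σ t' A := by
  induction hd : t' - t generalizing t with
  | zero => rw [show t = t' by omega]
  | succ d ih =>
    rw [vec_step x (by omega), if_pos, ih (t := t + 1) (by omega) (by omega)]
    refine card_le_one.2 fun c hc c' hc' => ?_
    simp only [kids, mem_image] at hc hc'
    obtain ⟨a, ha, rfl⟩ := hc
    obtain ⟨a', ha', rfl⟩ := hc'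
    rw [filter_true_of_mem fun y hy => (show t + 1 ≤ t' by omega).trans (h a ha y hy),
      filter_true_of_mem fun y hy => (show t + 1 ≤ t' by omega).trans (h a' ha' y hy)]

/-- The vector sees only the levels from `t` on. -/
theorem vec_congr (x : Vect B) {J' : Fin n → Fin n → ℕ} (σ t : ℕ) (A : Finset (Fin n))
    (h : ∀ s, t ≤ s → ∀ a c, s ≤ J a c ↔ s ≤ J' a c) : vec G x J σ t A = vec G x J' σ t A := by
  induction hd : L - σ - t generalizing t A with
  | zero => rw [vec_top x (by omega), vec_top x (by omega)]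
  | succ d ih =>
    have hk : kids J t A = kids J' t A := by
      simp only [kids, h (t + 1) (Nat.le_succ t)]
    have hi : ∀ c, vec G x J σ (t + 1) c = vec G x J' σ (t + 1) c := fun c =>
      ih (t + 1) c (fun s hs => h s (by omega)) (by omega)
    rw [vec_step (J := J) x (show t + σ < L by omega), vec_step (J := J') x (show t + σ < L by omega), hk, hi A]
    simp only [hi]

/-! ### Classes of a good shape -/

theorem cl_eq (hg : Good l L J) {t : ℕ} {i c : Fin n} (h : c ∈ cl J t i) : cl J t c = cl J t i := by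
  rw [mem_cl] at h
  ext y
  simp only [mem_cl]
  have := hg.ultra i c y; have := hg.ultra c i y; have := hg.symm i c
  omega

theorem self_mem_cl (hg : Good l L J) {t : ℕ} (ht : t ≤ L) (i : Fin n) : i ∈ cl J t i := by
  rw [mem_cl, hg.self]; exact ht

theorem kid_eq (hg : Good l L J) {t : ℕ} {i a : Fin n} (ha : a ∈ cl J t i) :
    (cl J t i).filter (fun c => t + 1 ≤ J a c) = cl J (t + 1) a := by
  ext y
  simp only [mem_filter, mem_cl]
  refine ⟨fun h => h.2, fun h => ⟨?_, h⟩⟩
  rw [mem_cl] at ha
  have := hg.ultra i a y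
  omega

theorem mem_kids (hg : Good l L J) {t : ℕ} {i : Fin n} {c : Finset (Fin n)}
    (hc : c ∈ kids J t (cl J t i)) : ∃ a ∈ cl J t i, c = cl J (t + 1) a := by
  simp only [kids, mem_image] at hc
  obtain ⟨a, ha, rfl⟩ := hc
  exact ⟨a, ha, kid_eq hg ha⟩

theorem single_kid (hg : Good l L J) {t : ℕ} (ht : t < L) {i : Fin n}
    (h : (kids J t (cl J t i)).card ≤ 1) : cl J t i = cl J (t + 1) i := by
  have hi := self_mem_cl hg ht.le i
  refine subset_antisymm (fun y hy => ?_) fun y hy => by rw [mem_cl] at hy ⊢; omega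
  have e := card_le_one.1 h _ (mem_image_of_mem _ hi) _ (mem_image_of_mem _ hy)
  rw [kid_eq hg hi, kid_eq hg hy] at e
  rw [e]
  exact self_mem_cl hg ht y

theorem branch_mem (hg : Good l L J) {t : ℕ} (ht : t < L) {i : Fin n}
    (h : ¬(kids J t (cl J t i)).card ≤ 1) : t ∈ offs J := by
  obtain ⟨c, hc, c', hc', hne⟩ := one_lt_card.1 (not_le.1 h)
  obtain ⟨a, ha, rfl⟩ := mem_kids hg hc
  obtain ⟨a', ha', rfl⟩ := mem_kids hg hc'
  refine mem_offs.2 ⟨a, a', fun e => hne (e ▸ rfl), ?_⟩
  have h2 : ¬ t + 1 ≤ J a a' := fun h2 => hne (cl_eq hg (mem_cl.2 h2)).symm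
  rw [mem_cl] at ha ha'
  have := hg.ultra a i a'; have := hg.symm i a
  omega

theorem sum_kids (hg : Good l L J) {t : ℕ} (ht : t < L) (i : Fin n) :
    ∑ c ∈ kids J t (cl J t i), (c.card : ℝ) = ((cl J t i).card : ℝ) := by
  rw [card_eq_sum_card_image (fun a => (cl J t i).filter fun c => t + 1 ≤ J a c) (cl J t i)]
  push_cast
  refine sum_congr rfl fun c hc => ?_
  obtain ⟨a, ha, rfl⟩ := mem_kids hg hc
  congr 2
  ext y
  rw [mem_filter]
  constructor
  · intro hy
    have hy' : y ∈ cl J t i := by
      rw [mem_cl] at ha hy ⊢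
      have := hg.ultra i a y
      omega
    exact ⟨hy', by rw [kid_eq hg hy', cl_eq hg hy]⟩
  · rintro ⟨hy, he⟩
    rw [kid_eq hg hy] at he
    rw [← he]
    exact self_mem_cl hg ht y

theorem top_singleton (hg : Good l L J) {σ t : ℕ} (hσ : σ ≤ 2) (h : L ≤ t + σ) (h' : t + σ ≤ L)
    (i : Fin n) : cl J t i = {i} := by
  ext c
  simp only [mem_cl, mem_singleton]
  constructor
  · intro hc
    by_contra hne
    have := hg.high i c (Ne.symm hne)
    omega
  · rintro rfl; rw [hg.self]; omega

theorem dist1_prod {ι : Type*} (s : Finset ι) (X Y : ι → Vect B) (hX : ∀ c ∈ s, Bd (X c))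
    (hY : ∀ c ∈ s, Bd (Y c)) :
    dist1 G (fun o p a => ∏ c ∈ s, X c o p a) (fun o p a => ∏ c ∈ s, Y c o p a)
      ≤ ∑ c ∈ s, dist1 G (X c) (Y c) := by
  have e : (∑ c ∈ s, dist1 G (X c) (Y c))
      = E1 G B fun o p => mean fun a => ∑ c ∈ s, |X c o p a - Y c o p a| := by
    simp only [dist1, E1, sysE_mean, sysE_sum]
    simp only [mean, ← sum_div]
    rw [sum_comm]
  rw [e]
  exact E1_le fun o p => mean_le_mean fun a =>
    abs_prod_sub_le (fun c hc => hX c hc o p a) fun c hc => hY c hc o p a

/-- All increments at the nodes are at most `θ`. -/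
def Incr (G : Grid L) (x : Vect B) (J : Fin n → Fin n → ℕ) (θ : ℝ) : Prop :=
  ∀ t ∈ offs J, ∀ i, qn G (vec G x J 0 (t + 1) (cl J (t + 1) i)) (t + 3)
    - qn G (vec G x J 0 (t + 1) (cl J (t + 1) i)) t ≤ θ

/-- Moving all levels changes the vectors little. -/
theorem dist_shift {x : Vect B} (hx : Bd x) (hg : Good l L J) {θ : ℝ} (hθ : Incr G x J θ) {σ : ℕ}
    (hσ : σ ≤ 2) : ∀ (t : ℕ) (i : Fin n), t + σ ≤ L →
      dist1 G (vec G x J σ t (cl J t i)) (vec G x J 0 t (cl J t i))
        ≤ (2 * ((cl J t i).card : ℝ) - 2) * √θ := by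
  intro t i ht
  induction hd : L - σ - t generalizing t i with
  | zero =>
    rw [top_singleton hg hσ (by omega) ht, vec_singleton x hg.self, vec_singleton x hg.self, dist1_self]
    simp
  | succ d ih =>
    by_cases hk : (kids J t (cl J t i)).card ≤ 1
    · rw [vec_step x (show t + σ < L by omega), vec_step x (show t + 0 < L by omega), if_pos hk, if_pos hk,
        single_kid hg (by omega) hk]
      exact ih (t + 1) i (by omega) (by omega)
    · rw [vec_step x (show t + σ < L by omega), vec_step x (show t + 0 < L by omega), if_neg hk, if_neg hk]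
      have hmem := branch_mem hg (by omega) hk
      refine (dist1_prod _ _ _ (fun c _ => cv_bd (vec_bd hx _ _ _) _)
        fun c _ => cv_bd (vec_bd hx _ _ _) _).trans ?_
      refine (sum_le_sum (g := fun c => (2 * (c.card : ℝ) - 1) * √θ) fun c hc => ?_).trans ?_
      · obtain ⟨a, -, rfl⟩ := mem_kids hg hc
        refine (dist1_triangle _ (cv G (t + σ) (vec G x J 0 (t + 1) (cl J (t + 1) a))) _).trans ?_
        have h1 := (dist1_cv (G := G) (t + σ) (vec G x J σ (t + 1) (cl J (t + 1) a))
          (vec G x J 0 (t + 1) (cl J (t + 1) a))).trans (ih (t + 1) a (by omega) (by omega))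
        have h2 := dist1_incr (vec G x J 0 (t + 1) (cl J (t + 1) a)) (t := t) (s := t + σ)
          (t' := t) (s' := t + 3) le_rfl (by omega) (by omega) (hθ t hmem a)
        simp only [Nat.add_zero]
        linarith
      · rw [← sum_mul, sum_sub_distrib, ← mul_sum, sum_kids hg (by omega)]
        refine mul_le_mul_of_nonneg_right ?_ (sqrt_nonneg _)
        have : (2 : ℝ) ≤ (kids J t (cl J t i)).card := by exact_mod_cast not_le.1 hk
        simp only [sum_const, nsmul_eq_mul, mul_one]
        linarith

theorem Indep.mono {m : ℕ} {Q : Shape L m} {α : Type*} {Z : Type} {k k' : Fin m} {τ τ' : ℕ}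
    {g : (Fin m → Fin L → Z) → α} (h : Indep Q k τ g) (hk : τ ≤ Q.J k k') (hτ : τ ≤ τ') :
    Indep Q k' τ' g := by
  intro ξ ξ' h1 h2
  have hsub : ∀ z, z ∈ Q.cls τ' k' → z ∈ Q.cls τ k := fun z hz => by
    rw [mem_cls] at hz ⊢
    have := Q.ultra k k' z
    omega
  refine h ξ ξ' (fun z hz => h1 z fun hz' => hz (hsub z hz')) fun z hz c hc => ?_
  by_cases hz' : z ∈ Q.cls τ' k'
  · exact h2 z hz' c (hc.trans_le hτ)
  · rw [h1 z hz']

/-- The product of the leaves of a block is close to its vector, seen from outside. -/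
theorem rep {x : Vect B} (hx : Bd x) (hg : Good l L J) {θ : ℝ} (hθ : Incr G x J θ) {M : ℕ} {h : ℝ}
    (hH : ∀ t ∈ offs J, ∀ i, (cl J (t + 1) i).card < M → ∀ σ, σ ≤ 2 →
      hs G (t + σ + 1) (vec G x J 0 (t + 1) (cl J (t + 1) i)) ≤ h)
    {σ : ℕ} (hσ : σ ≤ 2) : ∀ (t : ℕ) (i : Fin n), t + σ ≤ L → (cl J t i).card ≤ M →
      ∀ (m : ℕ) (Q : Shape L m) (e : Fin n → Fin m),
        (∀ a ∈ cl J t i, ∀ c ∈ cl J t i, Q.J (e a) (e c) = if a = c then L else J a c + σ) →
        ∀ W : B.Om → (Fin m → Fin L → B.Z) → Fin N → ℝ, (∀ o, Indep Q (e i) (t + σ) (W o)) →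
          (∀ o ξ a, |W o ξ a| ≤ 1) →
          B.E G Q (fun o ξ => |ip (W o ξ) fun a =>
              (∏ z ∈ cl J t i, x o (ξ (e z)) a) - vec G x J σ t (cl J t i) o (ξ (e i)) a|)
            ≤ (2 * ((cl J t i).card : ℝ) - 2) * (√(√h) + 9 * M * √θ) := by
  intro t i ht
  induction hd : L - σ - t generalizing t i with
  | zero =>
    intro _ m Q e _ W _ _
    rw [top_singleton hg hσ (by omega) ht, vec_singleton x hg.self]
    simp [ip, mean, sysE_const]
  | succ d ih =>
    intro hM m Q e he W hW hWb
    set A := cl J t i with hA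
    set β := √(√h) + 9 * M * √θ with hβ
    by_cases hk : (kids J t A).card ≤ 1
    · have hA' : A = cl J (t + 1) i := single_kid hg (by omega) hk
      rw [vec_step x (show t + σ < L by omega), if_pos hk]
      rw [hA'] at he hM ⊢
      refine ih (t + 1) i (by omega) (by omega) hM m Q e he W (fun o => (hW o).mono ?_ (by omega)) hWb
      rw [Q.self]; omega
    classical
    have hmem := branch_mem hg (by omega) hk
    -- one representative for each part
    have hrep : ∀ c ∈ kids J t A, ∃ a, a ∈ A ∧ c = cl J (t + 1) a := fun c hc => mem_kids hg hc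
    set rp : Finset (Fin n) → Fin n := fun c => if hc : c ∈ kids J t A then (hrep c hc).choose else i
    have hrp : ∀ c ∈ kids J t A, rp c ∈ A ∧ c = cl J (t + 1) (rp c) := fun c hc => by
      simp only [rp, dif_pos hc]; exact (hrep c hc).choose_spec
    have hsubA : ∀ c ∈ kids J t A, c ⊆ A := fun c hc => by
      simp only [kids, mem_image] at hc
      obtain ⟨a, -, rfl⟩ := hc
      exact filter_subset _ _
    set Zc : Finset (Fin n) → B.Om → (Fin m → Fin L → B.Z) → Fin N → ℝ :=
      fun c o ξ a => ∏ z ∈ c, x o (ξ (e z)) a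
    set Mc : Finset (Fin n) → B.Om → (Fin m → Fin L → B.Z) → Fin N → ℝ :=
      fun c o ξ a => cv G (t + σ) (vec G x J σ (t + 1) c) o (ξ (e (rp c))) a
    have hZb : ∀ c o ξ a, |Zc c o ξ a| ≤ 1 := fun c o ξ a => by
      simp only [Zc]; rw [abs_prod]; exact prod_le_one (fun _ _ => abs_nonneg _) fun _ _ => hx _ _ _
    have hMb : ∀ c o ξ a, |Mc c o ξ a| ≤ 1 := fun c o ξ a => cv_bd (vec_bd hx _ _ _) _ _ _ _
    -- two members of different parts join exactly at `t`
    have hcross : ∀ c ∈ kids J t A, ∀ c' ∈ kids J t A, c ≠ c' → ∀ z ∈ c, Q.J (e (rp c')) (e z) = t + σ := by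
      intro c hc c' hc' hne z hz
      have hzA := hsubA c hc hz
      have hcl : c = cl J (t + 1) z := by
        rw [(hrp c hc).2] at hz ⊢; exact (cl_eq hg hz).symm
      have hn : ¬ t + 1 ≤ J (rp c') z := fun h' => hne (by
        rw [hcl, (hrp c' hc').2]; exact cl_eq hg (mem_cl.2 h'))
      have hr' := (hrp c' hc').1
      have hne' : rp c' ≠ z := fun e' => hn (by rw [e', hg.self]; omega)
      rw [he _ hr' _ hzA, if_neg hne']
      rw [hA, mem_cl] at hr' hzA
      have := hg.ultra (rp c') i z; have := hg.symm i (rp c')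
      omega
    have key : ∀ S ⊆ kids J t A, ∀ W' : B.Om → (Fin m → Fin L → B.Z) → Fin N → ℝ,
        (∀ c ∈ S, ∀ o, Indep Q (e (rp c)) (t + σ + 1) (W' o)) → (∀ o ξ a, |W' o ξ a| ≤ 1) →
        B.E G Q (fun o ξ => |ip (W' o ξ) fun a => (∏ c ∈ S, Zc c o ξ a) - ∏ c ∈ S, Mc c o ξ a|)
          ≤ ∑ c ∈ S, (2 * (c.card : ℝ) - 1) * β := by
      intro S
      induction S using Finset.induction_on with
      | empty => intros; simp [ip, mean, sysE_const]
      | insert c S hcS ihS =>
        intro hS W' hW' hWb'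
        have hc : c ∈ kids J t A := hS (mem_insert_self _ _)
        have hS' : S ⊆ kids J t A := (subset_insert _ _).trans hS
        rw [sum_insert hcS, add_comm]
        simp only [prod_insert hcS]
        have esplit : ∀ o ξ, |ip (W' o ξ) fun a =>
            Zc c o ξ a * (∏ c ∈ S, Zc c o ξ a) - Mc c o ξ a * ∏ c ∈ S, Mc c o ξ a| ≤
            |ip (fun a => W' o ξ a * Zc c o ξ a) fun a => (∏ c ∈ S, Zc c o ξ a) - ∏ c ∈ S, Mc c o ξ a| +
            |ip (fun a => W' o ξ a * ∏ c ∈ S, Mc c o ξ a) fun a => Zc c o ξ a - Mc c o ξ a| := by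
          intro o ξ
          refine le_trans (le_of_eq (congrArg _ ?_)) (abs_add_le _ _)
          simp only [ip, ← mean_add]
          congr 1; funext a; ring
        refine ((sysE_le Q fun o ξ _ => esplit o ξ).trans (sysE_add Q _ _).le).trans (add_le_add ?_ ?_)
        · refine ihS hS' (fun o ξ a => W' o ξ a * Zc c o ξ a) (fun c' hc' o => ?_)
            fun o ξ a => abs_mul_le_one (hWb' o ξ a) (hZb c o ξ a)
          intro ξ ξ' h1 h2
          funext a
          simp only [hW' c' (mem_insert_of_mem hc') o ξ ξ' h1 h2, Zc]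
          congr 1
          refine prod_congr rfl fun z hz => ?_
          rw [h1 (e z) fun hz' => ?_]
          rw [mem_cls, hcross c hc c' (hS' hc') (fun e' => hcS (e' ▸ hc')) z hz] at hz'
          omega
        · -- one part
          set W₂ := fun o ξ a => W' o ξ a * ∏ c ∈ S, Mc c o ξ a with hW₂
          have hW₂b : ∀ o ξ a, |W₂ o ξ a| ≤ 1 := fun o ξ a => by
            refine abs_mul_le_one (hWb' o ξ a) ?_
            rw [abs_prod]
            exact prod_le_one (fun _ _ => abs_nonneg _) fun c _ => hMb c o ξ a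
          have hW₂i : ∀ o, Indep Q (e (rp c)) (t + σ + 1) (W₂ o) := fun o ξ ξ' h1 h2 => by
            funext a
            simp only [hW₂, hW' c (mem_insert_self _ _) o ξ ξ' h1 h2]
            congr 1
            refine prod_congr rfl fun c' _ => congrFun (cv_congr _ _ fun s hs => ?_) a
            by_cases hz : e (rp c') ∈ Q.cls (t + σ + 1) (e (rp c))
            · exact h2 _ hz s (by omega)
            · rw [h1 _ hz]
          obtain ⟨-, hceq⟩ := hrp c hc
          set k := e (rp c)
          set V' := vec G x J σ (t + 1) c with hV'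
          set V := vec G x J 0 (t + 1) c with hV
          have hdist : dist1 G V' V ≤ 2 * M * √θ := by
            rw [hV', hV]
            conv_lhs => rw [hceq]
            refine (dist_shift hx hg hθ hσ (t + 1) (rp c) (by omega)).trans
              (mul_le_mul_of_nonneg_right ?_ (sqrt_nonneg _))
            rw [← hceq]
            have : (c.card : ℝ) ≤ M := by exact_mod_cast (card_le_card (hsubA c hc)).trans hM
            linarith
          have hlt : c.card < M := by
            refine lt_of_lt_of_le (card_lt_card ⟨hsubA c hc, fun hsub => hk (card_le_one.2 ?_)⟩) hM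
            intro c1 h1 c2 h2
            have key : ∀ c1 ∈ kids J t A, c1 = c := fun c1 h1 => by
              obtain ⟨hr, he1⟩ := hrp c1 h1
              have := hsub hr
              rw [hceq] at this
              rw [he1, hceq, cl_eq hg this]
            rw [key c1 h1, key c2 h2]
          have hcard : ∀ a ∈ c, a ∈ A := fun a ha => hsubA c hc ha
          have b1 : B.E G Q (fun o ξ => |ip (W₂ o ξ) fun a => Zc c o ξ a - V' o (ξ k) a|)
              ≤ (2 * (c.card : ℝ) - 2) * β := by
            have := ih (t + 1) (rp c) (by omega) (by omega) (by rw [← hceq]; exact hlt.le) m Q e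
              (fun a ha a' ha' => he a (hcard a (hceq ▸ ha)) a' (hcard a' (hceq ▸ ha'))) W₂
              (fun o => by rw [show t + 1 + σ = t + σ + 1 by omega]; exact hW₂i o) hW₂b
            rw [← hceq] at this
            exact this
          have b2 : B.E G Q (fun o ξ => |ip (W₂ o ξ) fun a => V o (ξ k) a - cv G (t + σ + 1) V o (ξ k) a|)
              ≤ √(√h) := by
            refine (sysE_ip_cov Q k (by omega) V W₂ hW₂i hW₂b).trans (sqrt_le_sqrt (sqrt_le_sqrt ?_))
            have := hH t hmem (rp c) (by rw [← hceq]; exact hlt) σ hσ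
            rw [← hceq] at this
            exact this
          have hincr : dist1 G (cv G (t + σ + 1) V) (cv G (t + σ) V) ≤ √θ := by
            have := hθ t hmem (rp c)
            rw [← hceq] at this
            exact dist1_incr V (t' := t) (s' := t + 3) (by omega) (by omega) (by omega) this
          have b3 := sysE_ip_dist (G := G) Q k V' V W₂ hW₂b
          have b4 := sysE_ip_dist (G := G) Q k (cv G (t + σ + 1) V) (cv G (t + σ) V) W₂ hW₂b
          have b5 := sysE_ip_dist (G := G) Q k (cv G (t + σ) V) (cv G (t + σ) V') W₂ hW₂b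
          have c5 := (dist1_cv (G := G) (t + σ) V V').trans_eq (dist1_comm V V')
          have etot : ∀ o ξ, |ip (W₂ o ξ) fun a => Zc c o ξ a - Mc c o ξ a| ≤
              |ip (W₂ o ξ) fun a => Zc c o ξ a - V' o (ξ k) a| +
              (|ip (W₂ o ξ) fun a => V' o (ξ k) a - V o (ξ k) a| +
              (|ip (W₂ o ξ) fun a => V o (ξ k) a - cv G (t + σ + 1) V o (ξ k) a| +
              (|ip (W₂ o ξ) fun a => cv G (t + σ + 1) V o (ξ k) a - cv G (t + σ) V o (ξ k) a| +
              |ip (W₂ o ξ) fun a => cv G (t + σ) V o (ξ k) a - cv G (t + σ) V' o (ξ k) a|))) := by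
            intro o ξ
            simp only [← ip_sub]
            set w := W₂ o ξ
            have := abs_sub_le (ip w (Zc c o ξ)) (ip w (V' o (ξ k))) (ip w (Mc c o ξ))
            have := abs_sub_le (ip w (V' o (ξ k))) (ip w (V o (ξ k))) (ip w (Mc c o ξ))
            have := abs_sub_le (ip w (V o (ξ k))) (ip w (cv G (t + σ + 1) V o (ξ k))) (ip w (Mc c o ξ))
            have := abs_sub_le (ip w (cv G (t + σ + 1) V o (ξ k))) (ip w (cv G (t + σ) V o (ξ k)))
              (ip w (Mc c o ξ))
            have : ip w (cv G (t + σ) V' o (ξ k)) = ip w (Mc c o ξ) := rfl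
            linarith
          refine ((sysE_le Q fun o ξ _ => etot o ξ).trans_eq ?_).trans
            ((add_le_add b1 (add_le_add b3 (add_le_add b2 (add_le_add b4 b5)))).trans ?_)
          · rw [sysE_add, sysE_add, sysE_add, sysE_add]
          · have h0 : 0 ≤ √θ := sqrt_nonneg _
            have hM1 : (1 : ℝ) ≤ M := by exact_mod_cast (by omega : 1 ≤ M)
            nlinarith [hdist, hincr, c5]
    -- assemble
    have hprod : ∀ o ξ a, (∏ z ∈ A, x o (ξ (e z)) a) = ∏ c ∈ kids J t A, Zc c o ξ a := by
      intro o ξ a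
      rw [← prod_fiberwise_of_maps_to (g := fun a => A.filter fun c => t + 1 ≤ J a c)
        (t := kids J t A) (fun a ha => mem_image_of_mem _ ha)]
      refine prod_congr rfl fun c hc => prod_congr ?_ fun _ _ => rfl
      obtain ⟨-, hceq⟩ := hrp c hc
      ext z
      rw [mem_filter]
      constructor
      · rintro ⟨hz, rfl⟩; rw [mem_filter]; exact ⟨hz, by rw [hg.self]; omega⟩
      · intro hz
        have hzA := hsubA c hc hz
        refine ⟨hzA, ?_⟩
        rw [kid_eq hg hzA]
        rw [hceq] at hz ⊢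
        exact cl_eq hg hz
    have hvec : ∀ o, ∀ ξ ∈ Q.consistent, ∀ a,
        vec G x J σ t A o (ξ (e i)) a = ∏ c ∈ kids J t A, Mc c o ξ a := by
      intro o ξ hξ a
      rw [vec_step x (show t + σ < L by omega), if_neg hk]
      refine prod_congr rfl fun c hc => congrFun (cv_congr _ _ fun s hs => ?_) a
      obtain ⟨hr, -⟩ := hrp c hc
      refine (mem_consistent Q).1 hξ (e i) (e (rp c)) s ?_
      have hiA : i ∈ A := self_mem_cl hg (by omega) i
      rw [he i hiA _ hr]
      have := hg.self i
      rw [hA, mem_cl] at hr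
      split_ifs with h' <;> omega
    refine le_trans (le_of_eq (sysE_congr Q fun o ξ hξ => ?_))
      ((key (kids J t A) (subset_refl _) W (fun c hc o => ?_) hWb).trans ?_)
    · congr 2; funext a; rw [hprod, hvec o ξ hξ a]
    · obtain ⟨hr, -⟩ := hrp c hc
      refine (hW o).mono ?_ (by omega)
      have hiA : i ∈ A := self_mem_cl hg (by omega) i
      rw [he i hiA _ hr]
      rw [hA, mem_cl] at hr
      split_ifs with h' <;> omega
    · rw [← sum_mul, sum_sub_distrib, ← mul_sum, sum_kids hg (by omega)]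
      refine mul_le_mul_of_nonneg_right ?_ (by positivity)
      have : (2 : ℝ) ≤ (kids J t A).card := by exact_mod_cast not_le.1 hk
      simp only [sum_const, nsmul_eq_mul, mul_one]
      linarith

end Vale.Agent.P168.Conc
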